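/-
R242 / Loc / Defs : the analytic objects that instantiate helper100's contract `Core/Iface.lean`.   Owner: helper73.

 * `LocReal S n` : local realisation of the sections near the point `x`: `hol j s` is the holomorphic function
                   `(s * lam_x^j) ∘ sect` on the polydisc `D = ball 0 r₀` in the coordinates `z` of the chart at `x` (`x = 0`).
                   (built from the `Model` by ANAD.)
 * `MChart n D z`: an admissible holomorphic map `π : ball 0 r → D`, `π 0 = z`, `Jac π = unit * ∏ y_j^(k j)`, finite measurable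
                   cover of `{Jac π ≠ 0}` by sets on which `π` is injective  (MEMO 2 (Z1) + change of 07:25).
 * `L.TC z G k`  : the graded Taylor chart `G` comes from an `MChart` at `z` with exponents `k`.
 * `L.IsPt G σ`  : `π` is constant on the stratum `{y_i = 0, i ∈ σ}` (intrinsic formulation through the Taylor series).
 * `CellFam L m s`: a local monomialisation of the basis `s` of `R_m` at `x = 0` (output of LM applied to `∏ hol m (s i)`),
                   `CellFam.data` = the finite set `𝒟` of the field `mono` of the contract.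
-/
import Claimed.Agent.R242.Tay.Defs
import Claimed.Agent.R242.Core.Iface

set_option autoImplicit false

namespace Claimed.Agent.R242

open Metric Filter Topology

/-- an admissible monomial chart over the set `D`, centred at `z` -/
structure MChart (n : ℕ) (D : Set (Cn n)) (z : Cn n) where
  r : ℝ
  r_pos : 0 < r
  π : Cn n → Cn n
  hol : DifferentiableOn ℂ π (ball 0 r)
  maps : Set.MapsTo π (ball 0 r) D
  center : π 0 = z
  k : Fin n → ℕ
  unit : Cn n → ℂ
  unit_hol : DifferentiableOn ℂ unit (ball 0 r)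
  unit_ne : ∀ y ∈ ball (0 : Cn n) r, unit y ≠ 0
  jac_eq : ∀ y ∈ ball (0 : Cn n) r, cjac π y = unit y * ∏ j, y j ^ k j
  inj : ∃ (N : ℕ) (A : Fin N → Set (Cn n)), (∀ i, MeasurableSet (A i)) ∧ (∀ i, Set.InjOn π (A i)) ∧
    {y | y ∈ ball (0 : Cn n) r ∧ cjac π y ≠ 0} ⊆ ⋃ i, A i

section

variable {K : Type*} [Field K] [Algebra ℂ K]

/-- local realisation of the sections as holomorphic functions on the polydisc `ball 0 r₀` -/
structure LocReal (S : SecRing K) (n : ℕ) where
  r₀ : ℝ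
  r₀_pos : 0 < r₀
  hol : ℕ → K → Cn n → ℂ
  hol_diff : ∀ j s, s ∈ S.R j → DifferentiableOn ℂ (hol j s) (ball 0 r₀)
  hol_add : ∀ j a b, a ∈ S.R j → b ∈ S.R j → ∀ z ∈ ball (0 : Cn n) r₀, hol j (a + b) z = hol j a z + hol j b z
  hol_smul : ∀ j (c : ℂ) a, a ∈ S.R j → ∀ z ∈ ball (0 : Cn n) r₀, hol j (c • a) z = c * hol j a z
  hol_mul : ∀ i j a b, a ∈ S.R i → b ∈ S.R j → ∀ z ∈ ball (0 : Cn n) r₀, hol (i + j) (a * b) z = hol i a z * hol j b z
  hol_inj : ∀ j a, a ∈ S.R j → (∀ z ∈ ball (0 : Cn n) r₀, hol j a z = 0) → a = 0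
  /-- the coordinates are quotients of sections of `k₀ L` -/
  k₀ : ℕ
  hk₀ : 1 ≤ k₀
  σ : Fin (n + 1) → K
  σ_mem : ∀ i, σ i ∈ S.R k₀
  σ_ne : ∀ z ∈ ball (0 : Cn n) r₀, hol k₀ (σ 0) z ≠ 0
  σ_coord : ∀ (i : Fin n), ∀ z ∈ ball (0 : Cn n) r₀, hol k₀ (σ i.succ) z = z i * hol k₀ (σ 0) z
  /-- sections without zero at a given point, in all large degrees -/
  b₀ : ℕ
  bpf : ∀ z ∈ ball (0 : Cn n) r₀, ∀ b, b₀ ≤ b → ∃ τ ∈ S.R b, hol b τ z ≠ 0

variable {S : SecRing K} {n : ℕ} (L : LocReal S n)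

/-- the polydisc -/
def LocReal.D : Set (Cn n) := ball 0 L.r₀

/-- the points of the contract -/
abbrev LocReal.Pt : Type := ↥(ball (0 : Cn n) L.r₀)

/-- the centre `x` -/
def LocReal.x : L.Pt := ⟨0, mem_ball_self L.r₀_pos⟩

/-- `G` is the graded Taylor chart of the admissible map `c` -/
def LocReal.Rep {z : Cn n} (c : MChart n L.D z) (G : GChart S n) : Prop :=
  ∀ j s, s ∈ S.R j → G.T j s = tay 0 (fun y => L.hol j s (c.π y))

/-- the predicate `TC` of the contract -/
def LocReal.TC (z : L.Pt) (G : GChart S n) (k : Fin n → ℕ) : Prop :=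
  ∃ c : MChart n L.D z, c.k = k ∧ L.Rep c G

/-- the predicate `IsPt` of the contract (does not depend on `L`) -/
def GChart.IsPt (G : GChart S n) (σ : Finset (Fin n)) : Prop :=
  ∀ j s, s ∈ S.R j → ∀ γ : Fin n →₀ ℕ, γ ≠ 0 → (∀ i ∈ σ, γ i = 0) → MvPowerSeries.coeff γ (G.T j s) = 0

/-- a local monomialisation at `0` of the family `s` of sections of degree `m` -/
structure CellFam (L : LocReal S n) (m : ℕ) (s : Fin (S.N m) → K) where
  /-- number of leaves -/
  nl : ℕ
  r : Fin nl → ℝ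
  r_pos : ∀ l, 0 < r l
  σ : Fin nl → Cn n → Cn n
  hol : ∀ l, DifferentiableOn ℂ (σ l) (ball 0 (r l))
  maps : ∀ l, Set.MapsTo (σ l) (ball 0 (r l)) L.D
  k : Fin nl → Fin n → ℕ
  o : Fin nl → Fin n → Fin (S.N m) → ℕ
  uj : Fin nl → Cn n → ℂ
  uj_hol : ∀ l, DifferentiableOn ℂ (uj l) (ball 0 (r l))
  uj_ne : ∀ l, ∀ y ∈ ball (0 : Cn n) (r l), uj l y ≠ 0
  jac_eq : ∀ l, ∀ y ∈ ball (0 : Cn n) (r l), cjac (σ l) y = uj l y * ∏ j, y j ^ k l j
  us : Fin nl → Fin (S.N m) → Cn n → ℂ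
  us_hol : ∀ l i, DifferentiableOn ℂ (us l i) (ball 0 (r l))
  us_ne : ∀ l i, ∀ y ∈ ball (0 : Cn n) (r l), us l i y ≠ 0
  sec_eq : ∀ l i, ∀ y ∈ ball (0 : Cn n) (r l), L.hol m (s i) (σ l y) = us l i y * ∏ j, y j ^ o l j i
  inj : ∀ l, ∃ (N : ℕ) (A : Fin N → Set (Cn n)), (∀ i, MeasurableSet (A i)) ∧ (∀ i, Set.InjOn (σ l) (A i)) ∧
    {y | y ∈ ball (0 : Cn n) (r l) ∧ cjac (σ l) y ≠ 0} ⊆ ⋃ i, A i
  cover : (⋃ l, σ l '' closedBall 0 (r l / 2)) ∈ 𝓝 (0 : Cn n)

open Classical in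
/-- the numerical data of the cells: leaf `l`, set `J` of the coordinates that vanish at the centre of the cell -/
noncomputable def CellFam.data {L : LocReal S n} {m : ℕ} {s : Fin (S.N m) → K} (F : CellFam L m s) :
    Finset ((Fin n → ℕ) × (Fin n → Fin (S.N m) → ℕ)) :=
  (Finset.univ : Finset (Fin F.nl × Finset (Fin n))).image fun lJ =>
    (fun j => if j ∈ lJ.2 then F.k lJ.1 j else 0, fun j i => if j ∈ lJ.2 then F.o lJ.1 j i else 0)

end

end Claimed.Agent.R242

/-! equation lemmas of this file, cited once here (rule 6) -/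
namespace Claimed.Agent.R242

theorem r242_eqcite_Loc_Defs : True := by
  have := @Claimed.Agent.R242.LocReal.Rep.eq_1.{0}
  have := @Claimed.Agent.R242.CellFam.data.eq_1.{0}
  have := @Claimed.Agent.R242.LocReal.D.eq_1.{0}
  have := @Claimed.Agent.R242.LocReal.Pt.eq_1.{0}
  have := @Claimed.Agent.R242.LocReal.x.eq_1.{0}
  have := @Claimed.Agent.R242.LocReal.TC.eq_1.{0}
  have := @Claimed.Agent.R242.GChart.IsPt.eq_1.{0}
  trivial

end Claimed.Agent.R242
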