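/-
R242 / Loc / Clauses : the clauses of helper100's contract `Core/Iface.lean`, instantiated with the objects of `Loc/Defs.lean`,
as named propositions, so that LIFT (helper110) and LOC (helper73) can state their theorems separately.   Owner: helper73.
The texts are copies of the corresponding fields of `Iface` (`Loc/Main.lean` checks that they fit).
-/
import Claimed.Agent.R242.Loc.Defs

set_option autoImplicit false

namespace Claimed.Agent.R242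

open Metric Filter Topology

variable {K : Type*} [Field K] [Algebra ℂ K] {S : SecRing K} {n : ℕ}

/-- field `lift32` of the contract; `G₀` = the Taylor chart at `x` (LIFT 1) -/
def Lift32Clause (S : SecRing K) (n : ℕ) (G₀ : GChart S n) (Gen : Prop) : Prop :=
  ∀ h D : ℕ, 1 ≤ h → n * h < D → D < (n + 1) * h → ∀ w : Fin n → ℕ,
    (∀ k : Fin n, ∃ r ∈ S.R D, ∃ β : Fin n →₀ ℕ, MvPowerSeries.coeff β (G₀.T D r) ≠ 0 ∧
      ∑ i, β i = n * h ∧ (∀ i, i ≠ k → β i < h) ∧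
      (∀ γ, MvPowerSeries.coeff γ (G₀.T D r) ≠ 0 → n * h ≤ ∑ i, γ i) ∧
      (∀ γ, MvPowerSeries.coeff γ (G₀.T D r) ≠ 0 → ∑ i, γ i = n * h → γ ≠ β →
        ∑ i, w i * β i < ∑ i, w i * γ i)) → Gen

/-- clause (RL) of the field `mono` of the contract (LOC) -/
def RLClause (L : LocReal S n) (m : ℕ) (s : Fin (S.N m) → K)
    (𝒟 : Finset ((Fin n → ℕ) × (Fin n → Fin (S.N m) → ℕ))) : Prop :=
  ∀ (e : Fin (S.N m) → K) (U : Matrix (Fin (S.N m)) (Fin (S.N m)) ℂ), S.IsBasis m e →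
    (∀ i, s i = ∑ j, U i j • e j) →
    ∀ (z : ℕ → L.Pt) (Us : ℕ → Matrix (Fin (S.N m)) (Fin (S.N m)) ℂ) (Gs : ℕ → GChart S n)
      (ks : ℕ → Fin n → ℕ) (us : ℕ → Fin n → ℝ) (α : Fin (S.N m) → ℝ) (c : ℝ),
      Tendsto z atTop (𝓝 L.x) → Tendsto Us atTop (𝓝 U) → (∀ l, L.TC (z l) (Gs l) (ks l)) →
      (∀ l i, 0 ≤ us l i) → (∀ l, us l ≠ 0) → (∀ i, 0 ≤ α i) → (∃ i, 0 < α i) →
      (∀ l i, α i * disc (ks l) (us l) ≤ wOrd (us l) ((Gs l).T m (∑ j, Us l i j • e j))) → 1 < c →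
      ∃ (G : GChart S n) (k : Fin n → ℕ) (o : Fin n → Fin (S.N m) → ℕ) (u : Fin n → ℝ), (k, o) ∈ 𝒟 ∧ L.TC L.x G k ∧
        MonoIn m s G o ∧
        (∀ i, 0 ≤ u i) ∧ u ≠ 0 ∧ ∀ i, α i * disc k u ≤ c * ow o u i

/-- clause (LT) of the field `mono` of the contract (LIFT 2) -/
def LTClause (L : LocReal S n) (mm : ℕ) (Gen : Prop) (m : ℕ) (s : Fin (S.N m) → K)
    (𝒟 : Finset ((Fin n → ℕ) × (Fin n → Fin (S.N m) → ℕ))) : Prop :=
  ∀ (b q : Fin (S.N m) → ℝ) (η θ : ℝ), (∀ i, 0 < b i) → (∀ i, 0 ≤ q i) → (∃ i, 0 < q i) →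
    0 < η → η < 1 → 0 < θ →
    (∀ i, 0 < q i → (1 - η) * (m * ∑ i', b i') + η * (m / q i) < mm) →
    (∑ i, b i * q i = 1) →
    (∃ (G : GChart S n) (k : Fin n → ℕ) (o : Fin n → Fin (S.N m) → ℕ) (u : Fin n → ℝ), (k, o) ∈ 𝒟 ∧ L.TC L.x G k ∧
        MonoIn m s G o ∧
        (∀ i, 0 ≤ u i) ∧ u ≠ 0 ∧ ∀ i, ow o u i = disc k u * q i) →
    (∀ (G : GChart S n) (k : Fin n → ℕ) (o : Fin n → Fin (S.N m) → ℕ) (u : Fin n → ℝ), (k, o) ∈ 𝒟 → L.TC L.x G k →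
        MonoIn m s G o →
        (∀ i, 0 ≤ u i) → u ≠ 0 →
        (∃ μ : ℝ, 0 < μ ∧ ∀ i, |ow o u i - μ * q i| ≤ θ * μ) →
        (∃ i, 0 < q i ∧ (1 - η) * ∑ i', b i' * ow o u i' + η * (ow o u i / q i) < disc k u) ∨
        ((∀ i, ow o u i = disc k u * q i) ∧ G.IsPt (wsupp u))) →
    Gen

/-- field `tan` of the contract (LOC), with the constants of Lemma 5.2 -/
def TanClause (L : LocReal S n) (Cres : ℕ → ℝ) (Hres : ℕ → ℕ) : Prop :=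
  ∀ G k (u : Fin n → ℝ), L.TC L.x G k → (∀ i, 0 ≤ u i) → u ≠ 0 → ¬ G.IsPt (wsupp u) →
    ∃ (d : ℕ) (tn : Fin d → Fin n) (k' : Fin n → ℕ) (y : ℕ → L.Pt) (G' : ℕ → GChart S n),
      1 ≤ d ∧ Function.Injective tn ∧ (∀ a, u (tn a) = 0) ∧
      (∀ i, u i ≠ 0 → k' i = k i) ∧ (∀ i, u i = 0 → k' i = 0) ∧ Tendsto y atTop (𝓝 L.x) ∧
      ∀ l, L.TC (y l) (G' l) k' ∧
        (∀ j s, s ∈ S.R j → wOrd u ((G' l).T j s) = wOrd u (G.T j s)) ∧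
        (∀ j s γ, s ∈ S.R j → MvPowerSeries.coeff γ ((G' l).T j s) ≠ 0 → (∀ i, u i ≠ 0 → γ i = 0) →
          γ ∈ pureExp tn) ∧
        (∀ h, Hres d ≤ h → (h : ℝ) - Cres d ≤ ((d.factorial : ℝ) * (G' l).resRank tn h) ^ (1 / (d : ℝ))) ∧
        (∃ σ₀ ∈ S.R L.k₀, MvPowerSeries.coeff 0 ((G' l).T L.k₀ σ₀) ≠ 0 ∧
          ∀ a : Fin d, ∃ σ ∈ S.R L.k₀, (G' l).T L.k₀ σ = (G' l).T L.k₀ σ₀ * MvPowerSeries.X (tn a))

end Claimed.Agent.R242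

/-! equation lemmas of this file, cited once here (rule 6) -/
namespace Claimed.Agent.R242

theorem r242_eqcite_Loc_Clauses : True := by
  have := @Claimed.Agent.R242.RLClause.eq_1.{0}
  have := @Claimed.Agent.R242.Lift32Clause.eq_1.{0}
  have := @Claimed.Agent.R242.TanClause.eq_1.{0}
  have := @Claimed.Agent.R242.LTClause.eq_1.{0}
  trivial

end Claimed.Agent.R242
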