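/-
R242 / Loc / Rep  (LOC-A): graded Taylor charts of admissible maps; the translation charts; jets, base point freeness.
Owner: helper73.   Uses package TAY (`tay` is additive/multiplicative on functions holomorphic near the point, coefficient `0` = value,
identity theorem) and: an `MChart` is an open map near the points where its Jacobian does not vanish.

PLANS.
 * `loc_rep_exists`: put `T j s = tay 0 (hol j s ∘ c.π)`.  `hol j s ∘ c.π` is holomorphic on `ball 0 c.r`.  add/smul/mul: TAY + `hol_add` etc. (equalities on the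
   ball are enough: `tay` depends only on the germ).  inj: `tay 0 F = 0` ⟹ `F = 0` on `ball 0 c.r` (identity theorem); pick `y` in the ball with all `y_j ≠ 0`: `cjac c.π y ≠ 0`,
   so `c.π` is a local homeomorphism at `y` (inverse function theorem) and `hol j s` vanishes on a neighbourhood of `c.π y`, hence on `ball 0 r₀`; `hol_inj`.
 * `transl`: `π y = z + y`, `r = r₀ - ‖z‖`, `k = 0`, `unit = 1`, one injectivity set `univ`.
-/
import Claimed.Agent.R242.Loc.Clauses
import Claimed.Agent.R242.Res.Main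
import Claimed.Agent.R242.Tay.Basic
import Claimed.Agent.R242.Tay.Strat

set_option autoImplicit false

namespace Claimed.Agent.R242

open Metric Filter Topology

variable {K : Type*} [Field K] [Algebra ℂ K] {S : SecRing K} {n : ℕ} (L : LocReal S n)

/-! ### LOC-REP-A -/

/-- identity theorem on a ball of `Cn n` -/
theorem loc_eqOn_zero_of_eventually {f : Cn n → ℂ} {r : ℝ} (hf : DifferentiableOn ℂ f (ball 0 r))
    {y : Cn n} (hy : y ∈ ball (0 : Cn n) r) (h : f =ᶠ[𝓝 y] 0) : ∀ z ∈ ball (0 : Cn n) r, f z = 0 :=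
  fun _ hz => (tay_osgood isOpen_ball hf).eqOn_zero_of_preconnected_of_eventuallyEq_zero
    (convex_ball _ _).isPreconnected hy h hz

/-- a holomorphic map is open near a point where its Jacobian does not vanish -/
theorem loc_map_nhds_eq {π : Cn n → Cn n} {r : ℝ} (hπ : DifferentiableOn ℂ π (ball 0 r))
    {y : Cn n} (hy : y ∈ ball (0 : Cn n) r) (hj : cjac π y ≠ 0) : map π (𝓝 y) = 𝓝 (π y) := by
  have ha : AnalyticAt ℂ π y := tay_osgood_pi isOpen_ball hπ y hy
  have hs : HasStrictFDerivAt π (fderiv ℂ π y) y := ha.hasStrictFDerivAt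
  have hj' : (fderiv ℂ π y).det ≠ 0 := hj
  have hs' : HasStrictFDerivAt π
      (((fderiv ℂ π y).toContinuousLinearEquivOfDetNeZero hj' : Cn n ≃L[ℂ] Cn n) : Cn n →L[ℂ] Cn n) y := by
    rw [ContinuousLinearMap.coe_toContinuousLinearEquivOfDetNeZero]
    exact hs
  exact hs'.map_nhds_eq_of_equiv

/-- a point of the ball with all coordinates nonzero -/
theorem loc_exists_generic {r : ℝ} (hr : 0 < r) :
    ∃ y ∈ ball (0 : Cn n) r, ∀ j, y j ≠ 0 := by
  refine ⟨fun _ => ((r / 2 : ℝ) : ℂ), ?_, fun _ => ?_⟩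
  · rw [mem_ball_zero_iff, pi_norm_lt_iff hr]
    intro i
    rw [Complex.norm_real, Real.norm_eq_abs, abs_of_pos (by positivity)]
    linarith
  · have : r / 2 ≠ 0 := by positivity
    exact Complex.ofReal_ne_zero.mpr this

theorem loc_rep_exists {z : Cn n} (c : MChart n L.D z) : ∃ G : GChart S n, L.Rep c G := by
  have hd : ∀ j s, s ∈ S.R j → DifferentiableOn ℂ (fun y => L.hol j s (c.π y)) (ball 0 c.r) :=
    fun j s hs => (L.hol_diff j s hs).comp c.hol c.maps
  have ha : ∀ j s, s ∈ S.R j → AnalyticAt ℂ (fun y => L.hol j s (c.π y)) 0 :=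
    fun j s hs => tay_analyticAt_of_ball c.r_pos (hd j s hs)
  have hev : ∀ {f g : Cn n → ℂ}, (∀ y ∈ ball (0 : Cn n) c.r, f y = g y) → f =ᶠ[𝓝 0] g :=
    fun h => Metric.eventually_nhds_iff_ball.mpr ⟨c.r, c.r_pos, h⟩
  refine ⟨⟨fun j s => tay 0 (fun y => L.hol j s (c.π y)), ?_, ?_, ?_, ?_⟩, fun j s _ => rfl⟩
  · intro j a b ha' hb'
    rw [← tay_add (ha j a ha') (ha j b hb')]
    exact tay_congr (hev fun y hy => L.hol_add j a b ha' hb' _ (c.maps hy))
  · intro j t a ha'
    rw [← tay_smul (ha j a ha') t]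
    exact tay_congr (hev fun y hy => L.hol_smul j t a ha' _ (c.maps hy))
  · intro j a ha' h0
    have h1 : ∀ y ∈ ball (0 : Cn n) c.r, L.hol j a (c.π y) = 0 :=
      loc_eqOn_zero_of_eventually (hd j a ha') (mem_ball_self c.r_pos)
        ((tay_eq_zero_iff (ha j a ha')).mp h0)
    obtain ⟨y, hy, hy0⟩ := loc_exists_generic (n := n) c.r_pos
    have hj : cjac c.π y ≠ 0 := by
      rw [c.jac_eq y hy]
      exact mul_ne_zero (c.unit_ne y hy) (Finset.prod_ne_zero_iff.mpr fun j _ => pow_ne_zero _ (hy0 j))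
    have h2 : ∀ᶠ w in 𝓝 y, L.hol j a (c.π w) = 0 :=
      Metric.eventually_nhds_iff_ball.mpr
        (by
          obtain ⟨ε, hε, hb⟩ := Metric.isOpen_iff.mp isOpen_ball y hy
          exact ⟨ε, hε, fun w hw => h1 w (hb hw)⟩)
    have h3 : ∀ᶠ w in 𝓝 (c.π y), L.hol j a w = 0 := by
      rw [← loc_map_nhds_eq c.hol hy hj]
      exact eventually_map.mpr h2
    exact L.hol_inj j a ha' (loc_eqOn_zero_of_eventually (L.hol_diff j a ha') (c.maps hy) h3)
  · intro i j a b ha' hb'
    rw [← tay_mul (ha i a ha') (ha j b hb')]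
    exact tay_congr (hev fun y hy => L.hol_mul i j a b ha' hb' _ (c.maps hy))

/-- two charts with the same germ of `π` have the same Taylor data -/
theorem loc_rep_unique {z : Cn n} (c : MChart n L.D z) (G G' : GChart S n) (h : L.Rep c G) (h' : L.Rep c G') :
    ∀ j s, s ∈ S.R j → G.T j s = G'.T j s := fun j s hs => (h j s hs).trans (h' j s hs).symm

/-! ### LOC-REP-B: elementary facts on `IsTay` (proved from the definition; only `isTay_tay` and `IsTay.unique` of TAY are used) -/

theorem loc_tay_exists {n : ℕ} {f : Cn n → ℂ} {a : Cn n} {r : ℝ} (hr : 0 < r)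
    (hf : DifferentiableOn ℂ f (ball a r)) : ∃ F, IsTay f a F :=
  ⟨_, isTay_tay (tay_analyticAt_of_ball hr hf)⟩

theorem loc_tay_spec {n : ℕ} {f : Cn n → ℂ} {a : Cn n} (h : ∃ F, IsTay f a F) : IsTay f a (tay a f) := by
  unfold tay
  rw [dif_pos h]
  exact h.choose_spec

theorem loc_tay_eq {n : ℕ} {f : Cn n → ℂ} {a : Cn n} {F : MvPowerSeries (Fin n) ℂ} (h : IsTay f a F) :
    tay a f = F := (loc_tay_spec ⟨F, h⟩).unique h

theorem loc_tay_congr_iff {n : ℕ} {f g : Cn n → ℂ} {a b : Cn n} (h : ∀ F, IsTay f a F ↔ IsTay g b F) :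
    tay a f = tay b g := by
  have key : ∀ P Q : MvPowerSeries (Fin n) ℂ → Prop, P = Q →
      (open Classical in if h : ∃ F, P F then h.choose else (0 : MvPowerSeries (Fin n) ℂ)) =
        (open Classical in if h : ∃ F, Q F then h.choose else 0) := by
    rintro P _ rfl
    rfl
  exact key _ _ (funext fun F => propext (h F))

theorem loc_isTay_transl {n : ℕ} (f : Cn n → ℂ) (z : Cn n) (F : MvPowerSeries (Fin n) ℂ) :
    IsTay (fun y => f (z + y)) 0 F ↔ IsTay f z F := by
  constructor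
  · rintro ⟨ρ, hρ, h⟩
    refine ⟨ρ, hρ, fun w hw => ?_⟩
    have h1 := h (w - z) (by rwa [mem_ball_zero_iff, ← dist_eq_norm])
    simp only [sub_zero, add_sub_cancel] at h1
    exact h1
  · rintro ⟨ρ, hρ, h⟩
    refine ⟨ρ, hρ, fun y hy => ?_⟩
    have h1 := h (z + y) (by rw [mem_ball, dist_eq_norm, add_sub_cancel_left]; exact mem_ball_zero_iff.1 hy)
    rw [add_sub_cancel_left] at h1
    rw [sub_zero]
    exact h1

theorem loc_isTay_congr {n : ℕ} {f g : Cn n → ℂ} {a : Cn n} {F : MvPowerSeries (Fin n) ℂ} {r : ℝ} (hr : 0 < r)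
    (hfg : ∀ w ∈ ball a r, f w = g w) (h : IsTay f a F) : IsTay g a F := by
  obtain ⟨ρ, hρ, h⟩ := h
  refine ⟨min ρ r, lt_min hρ hr, fun w hw => ?_⟩
  rw [← hfg w (ball_subset_ball (min_le_right _ _) hw)]
  exact h w (ball_subset_ball (min_le_left _ _) hw)

theorem loc_isTay_coeff_zero {n : ℕ} {f : Cn n → ℂ} {a : Cn n} {F : MvPowerSeries (Fin n) ℂ} (h : IsTay f a F) :
    MvPowerSeries.coeff 0 F = f a := by
  obtain ⟨ρ, hρ, h⟩ := h
  have h1 := h a (mem_ball_self hρ)
  have h2 : HasSum (fun g : Fin n →₀ ℕ => MvPowerSeries.coeff g F * tayMono g (a - a))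
      (MvPowerSeries.coeff 0 F * tayMono 0 (a - a)) := by
    refine hasSum_single 0 fun g hg => ?_
    obtain ⟨i, hi⟩ : ∃ i, g i ≠ 0 := by
      by_contra hcon
      push Not at hcon
      exact hg (Finsupp.ext hcon)
    have : tayMono g (a - a) = 0 := by
      unfold tayMono
      refine Finset.prod_eq_zero (Finset.mem_univ i) ?_
      rw [sub_self, Pi.zero_apply, zero_pow hi]
    rw [this, mul_zero]
  have h3 : tayMono (0 : Fin n →₀ ℕ) (a - a) = 1 := by
    unfold tayMono
    simp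
  rw [h3, mul_one] at h2
  exact h2.unique h1

theorem loc_tayMono_add_single {n : ℕ} (g : Fin n →₀ ℕ) (i : Fin n) (u : Cn n) :
    tayMono (g + Finsupp.single i 1) u = u i * tayMono g u := by
  unfold tayMono
  have h1 : ∀ j, u j ^ (g + Finsupp.single i 1 : Fin n →₀ ℕ) j =
      u j ^ g j * u j ^ (Finsupp.single i 1 : Fin n →₀ ℕ) j := by
    intro j
    rw [Finsupp.add_apply, pow_add]
  rw [Finset.prod_congr rfl fun j _ => h1 j, Finset.prod_mul_distrib, mul_comm]
  congr 1
  rw [Finset.prod_eq_single i]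
  · rw [Finsupp.single_eq_same, pow_one]
  · intro j _ hj
    rw [Finsupp.single_eq_of_ne hj, pow_zero]
  · intro h
    exact absurd (Finset.mem_univ i) h

theorem loc_isTay_mul_X {n : ℕ} {f : Cn n → ℂ} {a : Cn n} {F : MvPowerSeries (Fin n) ℂ} (h : IsTay f a F)
    (i : Fin n) : IsTay (fun w => (w i - a i) * f w) a (F * MvPowerSeries.X i) := by
  obtain ⟨ρ, hρ, h⟩ := h
  refine ⟨ρ, hρ, fun w hw => ?_⟩
  have h1 := (h w hw).mul_left (w i - a i)
  have hinj : Function.Injective fun g : Fin n →₀ ℕ => g + Finsupp.single i 1 := fun g g' hgg' =>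
    add_right_cancel hgg'
  rw [← hinj.hasSum_iff]
  · have h2 : ((fun g : Fin n →₀ ℕ => MvPowerSeries.coeff g (F * MvPowerSeries.X i) * tayMono g (w - a)) ∘
        fun g : Fin n →₀ ℕ => g + Finsupp.single i 1) =
        fun g : Fin n →₀ ℕ => (w i - a i) * (MvPowerSeries.coeff g F * tayMono g (w - a)) := by
      funext g
      simp only [Function.comp]
      rw [loc_tayMono_add_single, MvPowerSeries.X, MvPowerSeries.coeff_add_mul_monomial, mul_one, Pi.sub_apply]
      ring
    rw [h2]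
    exact h1
  · intro g hg
    have hle : ¬ Finsupp.single i 1 ≤ g := by
      intro hle
      exact hg ⟨g - Finsupp.single i 1, tsub_add_cancel_of_le hle⟩
    rw [MvPowerSeries.X, MvPowerSeries.coeff_mul_monomial, if_neg hle, zero_mul]

/-- the translation chart at `z` -/
theorem loc_transl_exists (z : L.Pt) :
    ∃ c : MChart n L.D z, c.k = 0 ∧ c.r = L.r₀ - ‖(z : Cn n)‖ ∧ ∀ y, c.π y = (z : Cn n) + y := by
  have hz : ‖(z : Cn n)‖ < L.r₀ := mem_ball_zero_iff.1 z.2
  have hjac : ∀ y : Cn n, cjac (fun y : Cn n => (z : Cn n) + y) y = 1 := by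
    intro y
    unfold cjac
    rw [fderiv_const_add, fderiv_fun_id]
    exact LinearMap.det_id
  refine ⟨{ r := L.r₀ - ‖(z : Cn n)‖
            r_pos := sub_pos.2 hz
            π := fun y => (z : Cn n) + y
            hol := (differentiable_id.const_add _).differentiableOn
            maps := ?_
            center := add_zero _
            k := 0
            unit := fun _ => 1
            unit_hol := differentiableOn_const _
            unit_ne := fun _ _ => one_ne_zero
            jac_eq := ?_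
            inj := ?_ }, rfl, rfl, fun _ => rfl⟩
  · intro y hy
    have hy' : ‖y‖ < L.r₀ - ‖(z : Cn n)‖ := mem_ball_zero_iff.1 hy
    show (z : Cn n) + y ∈ ball (0 : Cn n) L.r₀
    rw [mem_ball_zero_iff]
    have := norm_add_le (z : Cn n) y
    linarith
  · intro y _
    rw [hjac]
    simp
  · exact ⟨1, fun _ => Set.univ, fun _ => MeasurableSet.univ, fun _ => fun a _ b _ hab => add_left_cancel hab,
      fun y _ => Set.mem_iUnion.2 ⟨0, Set.mem_univ _⟩⟩

noncomputable def LocReal.transl (z : L.Pt) : MChart n L.D z := (loc_transl_exists L z).choose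

theorem LocReal.transl_k (z : L.Pt) : (L.transl z).k = 0 := (loc_transl_exists L z).choose_spec.1

theorem LocReal.transl_r (z : L.Pt) : (L.transl z).r = L.r₀ - ‖(z : Cn n)‖ := (loc_transl_exists L z).choose_spec.2.1

theorem LocReal.transl_π (z : L.Pt) (y : Cn n) : (L.transl z).π y = (z : Cn n) + y :=
  (loc_transl_exists L z).choose_spec.2.2 y

/-- the field `chart` of the contract: Taylor expansion at `z` -/
noncomputable def LocReal.chart (z : L.Pt) : GChart S n := (loc_rep_exists L (L.transl z)).choose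

theorem LocReal.chart_rep (z : L.Pt) : L.Rep (L.transl z) (L.chart z) := (loc_rep_exists L (L.transl z)).choose_spec

theorem LocReal.chart_tc (z : L.Pt) : L.TC z (L.chart z) 0 := ⟨L.transl z, L.transl_k z, L.chart_rep z⟩

/-- `(chart z).T j s` is the Taylor series of `hol j s` at `z` -/
theorem LocReal.chart_T (z : L.Pt) (j : ℕ) (s : K) (hs : s ∈ S.R j) : (L.chart z).T j s = tay (z : Cn n) (L.hol j s) := by
  rw [L.chart_rep z j s hs]
  have h1 : (fun y => L.hol j s ((L.transl z).π y)) = fun y => L.hol j s ((z : Cn n) + y) := by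
    funext y
    rw [L.transl_π]
  rw [h1]
  exact loc_tay_congr_iff fun F => loc_isTay_transl _ _ F

/-- field `jets` -/
theorem loc_jets (z : L.Pt) : ∃ σ₀ ∈ S.R L.k₀, MvPowerSeries.coeff 0 ((L.chart z).T L.k₀ σ₀) ≠ 0 ∧
    ∀ i : Fin n, ∃ σ ∈ S.R L.k₀, (L.chart z).T L.k₀ σ = (L.chart z).T L.k₀ σ₀ * MvPowerSeries.X i := by
  have hz : ‖(z : Cn n)‖ < L.r₀ := mem_ball_zero_iff.1 z.2
  have hr : 0 < L.r₀ - ‖(z : Cn n)‖ := sub_pos.2 hz
  have hsub : ball (z : Cn n) (L.r₀ - ‖(z : Cn n)‖) ⊆ ball 0 L.r₀ := by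
    refine ball_subset_ball' ?_
    rw [dist_zero_right]
    linarith
  obtain ⟨F, hF⟩ := loc_tay_exists hr ((L.hol_diff L.k₀ (L.σ 0) (L.σ_mem 0)).mono hsub)
  refine ⟨L.σ 0, L.σ_mem 0, ?_, fun i => ?_⟩
  · rw [L.chart_T z _ _ (L.σ_mem 0), loc_tay_eq hF, loc_isTay_coeff_zero hF]
    exact L.σ_ne _ z.2
  · have hm : -((z : Cn n) i) • L.σ 0 ∈ S.R L.k₀ := (S.R L.k₀).smul_mem _ (L.σ_mem 0)
    have hmem : L.σ i.succ + -((z : Cn n) i) • L.σ 0 ∈ S.R L.k₀ := (S.R L.k₀).add_mem (L.σ_mem _) hm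
    refine ⟨L.σ i.succ + -((z : Cn n) i) • L.σ 0, hmem, ?_⟩
    rw [L.chart_T z _ _ hmem, L.chart_T z _ _ (L.σ_mem 0), loc_tay_eq hF]
    refine loc_tay_eq (loc_isTay_congr hr (fun w hw => ?_) (loc_isTay_mul_X hF i))
    have hw' := hsub hw
    rw [L.hol_add _ _ _ (L.σ_mem _) hm w hw', L.hol_smul _ _ _ (L.σ_mem 0) w hw', L.σ_coord i w hw']
    ring

/-- field `bpf` -/
theorem loc_bpf (z : L.Pt) (b : ℕ) (hb : L.b₀ ≤ b) : ∃ τ ∈ S.R b, MvPowerSeries.coeff 0 ((L.chart z).T b τ) ≠ 0 := by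
  have hz : ‖(z : Cn n)‖ < L.r₀ := mem_ball_zero_iff.1 z.2
  have hr : 0 < L.r₀ - ‖(z : Cn n)‖ := sub_pos.2 hz
  have hsub : ball (z : Cn n) (L.r₀ - ‖(z : Cn n)‖) ⊆ ball 0 L.r₀ := by
    refine ball_subset_ball' ?_
    rw [dist_zero_right]
    linarith
  obtain ⟨τ, hτ, hne⟩ := L.bpf z z.2 b hb
  obtain ⟨F, hF⟩ := loc_tay_exists hr ((L.hol_diff b τ hτ).mono hsub)
  refine ⟨τ, hτ, ?_⟩
  rw [L.chart_T z _ _ hτ, loc_tay_eq hF, loc_isTay_coeff_zero hF]
  exact hne

theorem loc_hi_hol_zero (j : ℕ) {z : Cn n} (hz : z ∈ ball (0 : Cn n) L.r₀) : L.hol j 0 z = 0 := by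
  have := L.hol_smul j 0 0 (S.R j).zero_mem z hz
  simpa using this

theorem loc_hi_hol_sum {ι : Type*} (T : Finset ι) (j : ℕ) (a : ι → K) (ha : ∀ i ∈ T, a i ∈ S.R j)
    {z : Cn n} (hz : z ∈ ball (0 : Cn n) L.r₀) :
    L.hol j (∑ i ∈ T, a i) z = ∑ i ∈ T, L.hol j (a i) z := by
  classical
  induction T using Finset.induction_on with
  | empty => simp [loc_hi_hol_zero L j hz]
  | insert i T hi ih =>
    rw [Finset.sum_insert hi, Finset.sum_insert hi,
      L.hol_add j _ _ (ha i (Finset.mem_insert_self _ _))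
        (Submodule.sum_mem _ fun k hk => ha k (Finset.mem_insert_of_mem hk)) z hz,
      ih fun k hk => ha k (Finset.mem_insert_of_mem hk)]

/-- monomials of positive degree in the sections `σ i` -/
theorem loc_hi_mono (e : ℕ) : ∀ γ : Fin (n + 1) →₀ ℕ, γ.degree = e + 1 →
    MvPolynomial.aeval L.σ (MvPolynomial.monomial γ (1 : ℂ)) ∈ S.R ((e + 1) * L.k₀) ∧
    ∀ z ∈ ball (0 : Cn n) L.r₀,
      L.hol ((e + 1) * L.k₀) (MvPolynomial.aeval L.σ (MvPolynomial.monomial γ (1 : ℂ))) z
        = MvPolynomial.eval (fun i => L.hol L.k₀ (L.σ i) z) (MvPolynomial.monomial γ (1 : ℂ)) := by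
  induction e with
  | zero =>
    intro γ hγ
    have hne : γ ≠ 0 := by
      rintro rfl
      simp at hγ
    obtain ⟨i, hi⟩ := Finsupp.ne_iff.1 hne
    have hi' : 1 ≤ γ i := Nat.one_le_iff_ne_zero.2 hi
    have hsplit : γ = Finsupp.single i 1 + (γ - Finsupp.single i 1) :=
      (add_tsub_cancel_of_le (Finsupp.single_le_iff.2 hi')).symm
    have hdeg : (γ - Finsupp.single i 1).degree = 0 := by
      have := congrArg Finsupp.degree hsplit
      rw [map_add, Finsupp.degree_single, hγ] at this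
      omega
    have h0 : γ - Finsupp.single i 1 = 0 := (Finsupp.degree_eq_zero_iff _).1 hdeg
    rw [h0, add_zero] at hsplit
    rw [hsplit]
    have hX : MvPolynomial.monomial (Finsupp.single i 1) (1 : ℂ) = MvPolynomial.X i := rfl
    rw [hX, MvPolynomial.aeval_X, zero_add, one_mul]
    exact ⟨L.σ_mem i, fun z _ => by rw [MvPolynomial.eval_X]⟩
  | succ e ih =>
    intro γ hγ
    have hne : γ ≠ 0 := by
      rintro rfl
      simp at hγ
    obtain ⟨i, hi⟩ := Finsupp.ne_iff.1 hne
    have hi' : 1 ≤ γ i := Nat.one_le_iff_ne_zero.2 hi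
    have hsplit : γ = Finsupp.single i 1 + (γ - Finsupp.single i 1) :=
      (add_tsub_cancel_of_le (Finsupp.single_le_iff.2 hi')).symm
    have hdeg : (γ - Finsupp.single i 1).degree = e + 1 := by
      have := congrArg Finsupp.degree hsplit
      rw [map_add, Finsupp.degree_single, hγ] at this
      omega
    obtain ⟨h1, h2⟩ := ih _ hdeg
    have hidx : (e + 1 + 1) * L.k₀ = L.k₀ + (e + 1) * L.k₀ := by ring
    rw [hsplit, MvPolynomial.monomial_single_add, pow_one, map_mul, MvPolynomial.aeval_X, hidx]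
    refine ⟨S.mul_mem _ _ _ _ (L.σ_mem i) h1, fun z hz => ?_⟩
    rw [L.hol_mul _ _ _ _ (L.σ_mem i) h1 z hz, h2 z hz, map_mul, MvPolynomial.eval_X]

/-- homogeneous polynomials of positive degree in the sections `σ i` -/
theorem loc_hi_eval {e : ℕ} {P : MvPolynomial (Fin (n + 1)) ℂ} (hP : P.IsHomogeneous (e + 1))
    {z : Cn n} (hz : z ∈ ball (0 : Cn n) L.r₀) :
    L.hol ((e + 1) * L.k₀) (MvPolynomial.aeval L.σ P) z
      = MvPolynomial.eval (fun i => L.hol L.k₀ (L.σ i) z) P := by
  have hdeg : ∀ γ ∈ P.support, γ.degree = e + 1 := fun γ hγ => by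
    by_contra hne
    exact (MvPolynomial.mem_support_iff.1 hγ) (hP.coeff_eq_zero hne)
  have hmon : ∀ γ, MvPolynomial.monomial γ (MvPolynomial.coeff γ P)
      = MvPolynomial.coeff γ P • MvPolynomial.monomial γ (1 : ℂ) := fun γ => by
    rw [MvPolynomial.smul_monomial, smul_eq_mul, mul_one]
  conv_lhs => rw [P.as_sum]
  conv_rhs => rw [P.as_sum]
  rw [map_sum, map_sum, loc_hi_hol_sum L _ _ _ (fun γ hγ => by
    rw [hmon, map_smul]
    exact (S.R _).smul_mem _ (loc_hi_mono L e γ (hdeg γ hγ)).1) hz]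
  refine Finset.sum_congr rfl fun γ hγ => ?_
  rw [hmon, map_smul, L.hol_smul _ _ _ (loc_hi_mono L e γ (hdeg γ hγ)).1 z hz,
    (loc_hi_mono L e γ (hdeg γ hγ)).2 z hz, MvPolynomial.smul_eval]

/-- homogeneity of the evaluation -/
theorem loc_hi_eval_smul {m e : ℕ} {P : MvPolynomial (Fin m) ℂ} (hP : P.IsHomogeneous e) (t : ℂ)
    (w : Fin m → ℂ) :
    MvPolynomial.eval (fun i => t * w i) P = t ^ e * MvPolynomial.eval w P := by
  rw [MvPolynomial.eval_eq', MvPolynomial.eval_eq', Finset.mul_sum]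
  refine Finset.sum_congr rfl fun γ hγ => ?_
  have hdeg : γ.degree = e := by
    by_contra hne
    exact (MvPolynomial.mem_support_iff.1 hγ) (hP.coeff_eq_zero hne)
  simp_rw [mul_pow]
  rw [Finset.prod_mul_distrib, Finset.prod_pow_eq_pow_sum, ← Finsupp.degree_eq_sum, hdeg]
  ring

/-- the sections `σ 0, .., σ n` are homogeneously independent (`P(σ) = 0` gives `hol(σ 0)^e P(1, z) = 0` on the polydisc) -/
theorem loc_homIndep : HomIndep L.σ := by
  intro e P hP h0
  cases e with
  | zero =>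
    have hC : P = MvPolynomial.C (MvPolynomial.coeff 0 P) :=
      MvPolynomial.totalDegree_eq_zero_iff_eq_C.1 ((MvPolynomial.totalDegree_zero_iff_isHomogeneous _).2 hP)
    rw [hC, MvPolynomial.aeval_C] at h0
    have : MvPolynomial.coeff 0 P = 0 := by
      apply (algebraMap ℂ K).injective
      rw [h0, map_zero]
    rw [hC, this, map_zero]
  | succ e =>
    have key : ∀ z ∈ ball (0 : Cn n) L.r₀,
        MvPolynomial.eval (fun i => L.hol L.k₀ (L.σ i) z) P = 0 := by
      intro z hz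
      rw [← loc_hi_eval L hP hz, h0, loc_hi_hol_zero L _ hz]
    have hr := L.r₀_pos
    refine MvPolynomial.funext_set
      (fun i : Fin (n + 1) => Fin.cases (ball (1 : ℂ) (1 / 2)) (fun _ => ball (0 : ℂ) (L.r₀ / 2)) i)
      (fun i => ?_) fun x hx => ?_
    · refine Fin.cases ?_ (fun j => ?_) i
      · exact infinite_of_mem_nhds (1 : ℂ) (ball_mem_nhds _ (by norm_num))
      · exact infinite_of_mem_nhds (0 : ℂ) (ball_mem_nhds _ (by positivity))
    · rw [map_zero]
      have hx0 : x 0 ∈ ball (1 : ℂ) (1 / 2) := hx 0 (Set.mem_univ _)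
      have hxs : ∀ j : Fin n, x j.succ ∈ ball (0 : ℂ) (L.r₀ / 2) := fun j => hx j.succ (Set.mem_univ _)
      have hn0 : 1 / 2 < ‖x 0‖ := by
        have h1 : ‖x 0 - 1‖ < 1 / 2 := by simpa [dist_eq_norm] using hx0
        have h2 : ‖(1 : ℂ)‖ ≤ ‖x 0‖ + ‖x 0 - 1‖ := by
          have := norm_sub_le (x 0) (x 0 - 1)
          simpa using this
        rw [norm_one] at h2
        linarith
      have hx0ne : x 0 ≠ 0 := norm_pos_iff.1 (by linarith)
      have hz : (fun j : Fin n => x j.succ / x 0) ∈ ball (0 : Cn n) L.r₀ := by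
        rw [mem_ball_zero_iff, pi_norm_lt_iff hr]
        intro j
        have h1 : ‖x j.succ‖ < L.r₀ / 2 := by simpa using hxs j
        rw [norm_div, div_lt_iff₀ (by linarith)]
        nlinarith
      have hk := key _ hz
      have hh := L.σ_ne _ hz
      have hpt : x = fun i => (x 0 / L.hol L.k₀ (L.σ 0) (fun j : Fin n => x j.succ / x 0)) *
          L.hol L.k₀ (L.σ i) (fun j : Fin n => x j.succ / x 0) := by
        funext i
        refine Fin.cases ?_ (fun j => ?_) i
        · rw [div_mul_cancel₀ _ hh]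
        · rw [L.σ_coord j _ hz]
          field_simp
      rw [hpt, loc_hi_eval_smul hP, hk, mul_zero]

open Classical in
/-- the projection to the stratum `{y i = 0, i ∈ σ}` -/
noncomputable def locPr (σ : Finset (Fin n)) (y : Cn n) : Cn n := fun i => if i ∈ σ then 0 else y i

theorem locPr_mem_ball (σ : Finset (Fin n)) {r : ℝ} {y : Cn n} (hy : y ∈ ball (0 : Cn n) r) :
    locPr σ y ∈ ball (0 : Cn n) r := by
  have hr : 0 < r := pos_of_mem_ball hy
  rw [mem_ball_zero_iff] at hy ⊢
  rw [pi_norm_lt_iff hr] at hy ⊢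
  intro i
  unfold locPr
  split_ifs
  · simpa using hr
  · exact hy i

theorem locPr_eq_self {σ : Finset (Fin n)} {y : Cn n} (hy : ∀ i ∈ σ, y i = 0) : locPr σ y = y := by
  funext i
  unfold locPr
  split_ifs with h
  · exact (hy i h).symm
  · rfl

theorem locPr_apply_mem {σ : Finset (Fin n)} (y : Cn n) {i : Fin n} (hi : i ∈ σ) : locPr σ y i = 0 := by
  unfold locPr
  rw [if_pos hi]

theorem locPr_differentiable (σ : Finset (Fin n)) : Differentiable ℂ (locPr σ) := by
  rw [differentiable_pi]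
  intro i
  unfold locPr
  split_ifs
  · exact differentiable_const _
  · exact differentiable_apply i

/-- a function holomorphic on the polydisc is constant on the stratum iff the pure coefficients vanish -/
theorem loc_const_on_stratum_iff {f : Cn n → ℂ} {r : ℝ} (hr : 0 < r) (hf : DifferentiableOn ℂ f (ball 0 r))
    (σ : Finset (Fin n)) :
    (∀ γ : Fin n →₀ ℕ, γ ≠ 0 → (∀ i ∈ σ, γ i = 0) → MvPowerSeries.coeff γ (tay 0 f) = 0) ↔
      ∀ y ∈ ball (0 : Cn n) r, (∀ i ∈ σ, y i = 0) → f y = f 0 := by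
  classical
  have hfa : AnalyticAt ℂ f 0 := tay_analyticAt_of_ball hr hf
  have hg : DifferentiableOn ℂ (fun y => f (locPr σ y)) (ball 0 r) :=
    hf.comp (locPr_differentiable σ).differentiableOn fun y hy => locPr_mem_ball σ hy
  have hproj : ∀ γ : Fin n →₀ ℕ, MvPowerSeries.coeff γ (tay 0 (fun y => f (locPr σ y)))
      = if ∀ i ∈ σ, γ i = 0 then MvPowerSeries.coeff γ (tay 0 f) else 0 := fun γ => by
    have := tay_proj hfa σ γ
    convert this using 3
    funext y
    congr 1
  constructor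
  · intro h y hy hyσ
    have h1 : tay 0 (fun y => f (locPr σ y)) = tay 0 (fun _ : Cn n => f 0) := by
      rw [tay_const]
      ext γ
      rw [hproj γ, MvPowerSeries.coeff_C]
      by_cases hγ : γ = 0
      · subst hγ
        simp [tay_coeff_zero hfa]
      · rw [if_neg hγ]
        split_ifs with h2
        · exact h γ hγ h2
        · rfl
    have h2 := tay_injOn isOpen_ball (convex_ball (0 : Cn n) r).isPreconnected hg
      (differentiableOn_const (f 0)) (mem_ball_self hr) h1 hy
    simpa [locPr_eq_self hyσ] using h2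
  · intro h γ hγ hγσ
    have h1 : tay 0 (fun y => f (locPr σ y)) = tay 0 (fun _ : Cn n => f 0) := by
      apply tay_congr
      filter_upwards [ball_mem_nhds (0 : Cn n) hr] with y hy
      exact h _ (locPr_mem_ball σ hy) fun i hi => locPr_apply_mem y hi
    have h2 := hproj γ
    rw [if_pos hγσ, h1, tay_const, MvPowerSeries.coeff_C, if_neg hγ] at h2
    exact h2.symm

/-- `IsPt` in terms of the map: `π` is constant on the stratum -/
theorem loc_isPt_iff {z : Cn n} (c : MChart n L.D z) (G : GChart S n) (h : L.Rep c G) (σ : Finset (Fin n)) :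
    G.IsPt σ ↔ ∀ y ∈ ball (0 : Cn n) c.r, (∀ i ∈ σ, y i = 0) → c.π y = z := by
  have hcomp : ∀ j s, s ∈ S.R j → DifferentiableOn ℂ (fun y => L.hol j s (c.π y)) (ball 0 c.r) :=
    fun j s hs => (L.hol_diff j s hs).comp c.hol c.maps
  constructor
  · intro hPt y hy hyσ
    have hval : ∀ s ∈ S.R L.k₀, L.hol L.k₀ s (c.π y) = L.hol L.k₀ s z := by
      intro s hs
      have := (loc_const_on_stratum_iff c.r_pos (hcomp _ s hs) σ).1
        (fun γ hγ hγσ => by rw [← h _ s hs]; exact hPt _ s hs γ hγ hγσ) y hy hyσ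
      simpa [c.center] using this
    have hyD : c.π y ∈ ball (0 : Cn n) L.r₀ := c.maps hy
    have hzD : z ∈ ball (0 : Cn n) L.r₀ := by
      have := c.maps (mem_ball_self c.r_pos)
      rwa [c.center] at this
    funext i
    have h1 := hval _ (L.σ_mem i.succ)
    rw [L.σ_coord i _ hyD, L.σ_coord i _ hzD, hval _ (L.σ_mem 0)] at h1
    exact mul_right_cancel₀ (L.σ_ne _ hzD) h1
  · intro hc j s hs γ hγ hγσ
    rw [h j s hs]
    refine (loc_const_on_stratum_iff c.r_pos (hcomp j s hs) σ).2 (fun y hy hyσ => ?_) γ hγ hγσ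
    show L.hol j s (c.π y) = L.hol j s (c.π 0)
    rw [hc y hy hyσ, c.center]

end Claimed.Agent.R242

/-! equation lemmas of this file, cited once here (rule 6) -/
namespace Claimed.Agent.R242

theorem r242_eqcite_Loc_Rep : True := by
  have := @Claimed.Agent.R242.LocReal.transl.eq_1.{0}
  have := @Claimed.Agent.R242.LocReal.chart.eq_1.{0}
  have := @Claimed.Agent.R242.locPr.eq_1
  trivial

end Claimed.Agent.R242
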