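/-
R242 / Loc / Cell  (LOC-D): the cells of a local monomialisation and (P2): non-integrability at `x = 0` produces a monomial test on a cell.
Owner: helper73.

A CELL of `F : CellFam L m s` = (leaf `l`, point `z'` of `ball 0 (F.r l)` with `F.σ l z' = 0`).  Its chart is `π y = F.σ l (z' + y)` on a small ball on which the coordinates
`z'_j + y_j` with `z'_j ≠ 0` do not vanish; these coordinates are units, so the exponents are `kAt`, `oAt` (those of the leaf at the `j` with `z'_j = 0`, and `0` elsewhere).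

PLANS.
 * `cell_exists`: `r = min (F.r l - ‖z'‖) (min_{z'_j ≠ 0} ‖z'_j‖)`;  `unit y = F.uj l (z'+y) * ∏_{z'_j ≠ 0} (z'_j + y_j)^(k l j)`;  chain rule for the translation; injectivity sets `A_i - z'`.
   `MonoIn`: `hol m (s i) (π y) = [us l i (z'+y) * ∏_{z'_j ≠ 0} (z'_j+y_j)^(o l j i)] * ∏_{z'_j = 0} y_j^(o l j i)`; TAY: `tay` of a product, of a monomial, constant coefficient = value.
 * `cell_howald`: `r242_howald_units_at` at `a = z'` with `β i j = oAt j i / α i` (index set `{i // 0 < α i}`, use an equivalence with `Fin N`), `b = kAt`, `c = 1`, units bounded above and below on a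
   small closed ball.  Divergence gives `w ≥ 0`, `w ≠ 0` with `∑ w_j β i j ≥ ∑ w_j (kAt j + 1)` for all `i`.  Replace `w` by `u = w` on `{z'_j = 0}`, `0` elsewhere: the left side does not change, the right
   side decreases, and `u ≠ 0` because otherwise the left side is `0` and the right side positive.  For `α i = 0` the inequality is trivial.
 * `loc_p2`: let `Φ x = (sumPow ..)^(-1)`.  For `ρ` small `ball 0 ρ ⊆ ⋃ σ_l '' K_l`, `K_l = closedBall 0 (r_l/2)`, so `⊤ = ∫ ball 0 ρ, Φ ≤ ∑_l ∫ σ_l '' (K_l ∩ σ_l⁻¹ (ball 0 ρ)), Φ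
   ≤ ∑_l ∫ K_l ∩ σ_l⁻¹ (ball 0 ρ), ‖cjac σ_l‖ₑ^2 Φ∘σ_l` (`r242_lintegral_image_le`).  Pigeonhole: one `l` works for `ρ = 1/k`, infinitely many `k`.  If every `z' ∈ Z = K_l ∩ σ_l⁻¹ {0}` had a ball with finite
   integral, finitely many of them would cover the compact `Z`, and `K_l ∩ σ_l⁻¹ (closedBall 0 (1/k))` lies in their union for `k` large (decreasing compacts): contradiction.  So `cell_howald` applies at some `z' ∈ Z`.
-/
import Claimed.Agent.R242.Loc.Rep
import Claimed.Agent.R242.SCV.Main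
import Claimed.Agent.R242.SCV.Howald
import Claimed.Agent.R242.Tay.Basic

set_option autoImplicit false

namespace Claimed.Agent.R242

open Metric Filter Topology MeasureTheory
open scoped ENNReal

variable {K : Type*} [Field K] [Algebra ℂ K] {S : SecRing K} {n : ℕ} {L : LocReal S n} {m : ℕ} {s : Fin (S.N m) → K}

open Classical in
/-- exponents of the Jacobian in the cell at `z'` -/
noncomputable def CellFam.kAt (F : CellFam L m s) (l : Fin F.nl) (z' : Cn n) : Fin n → ℕ :=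
  fun j => if z' j = 0 then F.k l j else 0

open Classical in
/-- exponents of the sections in the cell at `z'` -/
noncomputable def CellFam.oAt (F : CellFam L m s) (l : Fin F.nl) (z' : Cn n) : Fin n → Fin (S.N m) → ℕ :=
  fun j i => if z' j = 0 then F.o l j i else 0

theorem cell_data_mem (F : CellFam L m s) (l : Fin F.nl) (z' : Cn n) : (F.kAt l z', F.oAt l z') ∈ F.data := by
  classical
  unfold CellFam.data
  refine Finset.mem_image.2 ⟨(l, Finset.univ.filter fun j => z' j = 0), Finset.mem_univ _, ?_⟩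
  simp only [Finset.mem_filter, Finset.mem_univ, true_and]
  rfl

/-! ### the chart of a cell -/

open Classical in
/-- the unit factor `w(z'+y) * ∏_{z'_j ≠ 0} (z'_j + y_j)^(e j)` -/
noncomputable def loc_cellU (z' : Cn n) (e : Fin n → ℕ) (w : Cn n → ℂ) (y : Cn n) : ℂ :=
  w (z' + y) * ∏ j, (if z' j = 0 then 1 else (z' j + y j) ^ e j)

open Classical in
theorem loc_cellU_mul (z' : Cn n) (e : Fin n → ℕ) (w : Cn n → ℂ) (y : Cn n) :
    w (z' + y) * ∏ j, (z' + y) j ^ e j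
      = loc_cellU z' e w y * ∏ j, y j ^ (if z' j = 0 then e j else 0) := by
  unfold loc_cellU
  rw [mul_assoc, ← Finset.prod_mul_distrib]
  congr 1
  refine Finset.prod_congr rfl fun j _ => ?_
  by_cases hj : z' j = 0
  · simp [hj]
  · simp [hj]

theorem loc_cellU_ne (z' : Cn n) (e : Fin n → ℕ) (w : Cn n → ℂ) (y : Cn n) (hw : w (z' + y) ≠ 0)
    (hy : ∀ j, z' j ≠ 0 → z' j + y j ≠ 0) : loc_cellU z' e w y ≠ 0 := by
  classical
  unfold loc_cellU
  refine mul_ne_zero hw (Finset.prod_ne_zero_iff.2 fun j _ => ?_)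
  split_ifs with h
  · exact one_ne_zero
  · exact pow_ne_zero _ (hy j h)

theorem loc_cellU_diff (z' : Cn n) (e : Fin n → ℕ) (w : Cn n → ℂ) {r R : ℝ}
    (hw : DifferentiableOn ℂ w (ball 0 R)) (hr : ∀ y ∈ ball (0 : Cn n) r, z' + y ∈ ball (0 : Cn n) R) :
    DifferentiableOn ℂ (loc_cellU z' e w) (ball 0 r) := by
  classical
  unfold loc_cellU
  refine DifferentiableOn.mul ?_ ?_
  · exact hw.comp (f := fun y : Cn n => z' + y) (by fun_prop) hr
  · intro y hy
    refine (HasFDerivWithinAt.finsetProd (u := (Finset.univ : Finset (Fin n)))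
      (g := fun j (y : Cn n) => if z' j = 0 then (1 : ℂ) else (z' j + y j) ^ e j)
      (g' := fun j => fderivWithin ℂ (fun y : Cn n => if z' j = 0 then (1 : ℂ) else (z' j + y j) ^ e j) (ball 0 r) y)
      fun j _ => DifferentiableWithinAt.hasFDerivWithinAt ?_).differentiableWithinAt
    split_ifs with h
    · exact differentiableWithinAt_const _
    · fun_prop

/-- a small ball around `0` on which the nonzero coordinates of `z'` stay nonzero -/
theorem loc_cell_radius (z' : Cn n) {R : ℝ} (hz : z' ∈ ball (0 : Cn n) R) :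
    ∃ r > 0, ∀ y ∈ ball (0 : Cn n) r, z' + y ∈ ball (0 : Cn n) R ∧ ∀ j, z' j ≠ 0 → z' j + y j ≠ 0 := by
  have hopen : IsOpen ({y : Cn n | z' + y ∈ ball (0 : Cn n) R} ∩
      ⋂ j, {y : Cn n | z' j ≠ 0 → z' j + y j ≠ 0}) := by
    refine IsOpen.inter (isOpen_ball.preimage (by fun_prop)) (isOpen_iInter_of_finite fun j => ?_)
    by_cases hj : z' j = 0
    · simp [hj]
    · have : {y : Cn n | z' j ≠ 0 → z' j + y j ≠ 0} = (fun y : Cn n => z' j + y j) ⁻¹' {0}ᶜ := by
        ext y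
        simp [hj]
      rw [this]
      exact isOpen_compl_singleton.preimage (by fun_prop)
  have hmem : (0 : Cn n) ∈ ({y : Cn n | z' + y ∈ ball (0 : Cn n) R} ∩
      ⋂ j, {y : Cn n | z' j ≠ 0 → z' j + y j ≠ 0}) := by
    refine ⟨by simpa using hz, Set.mem_iInter.2 fun j => ?_⟩
    intro hj
    simpa using hj
  obtain ⟨r, hr, hsub⟩ := Metric.isOpen_iff.1 hopen 0 hmem
  exact ⟨r, hr, fun y hy => ⟨(hsub hy).1, fun j => Set.mem_iInter.1 (hsub hy).2 j⟩⟩

theorem loc_cjac_transl (σ : Cn n → Cn n) (z' y : Cn n) :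
    cjac (fun y => σ (z' + y)) y = cjac σ (z' + y) := by
  unfold cjac
  rw [fderiv_comp_add_left]

/-- the chart of a cell -/
theorem cell_exists (F : CellFam L m s) (hs : ∀ i, s i ∈ S.R m) (l : Fin F.nl) (z' : Cn n) (hz : z' ∈ ball (0 : Cn n) (F.r l))
    (h0 : F.σ l z' = 0) :
    ∃ (c : MChart n L.D (L.x : Cn n)) (G : GChart S n), c.k = F.kAt l z' ∧ L.Rep c G ∧ MonoIn m s G (F.oAt l z') ∧
      ∀ y ∈ ball (0 : Cn n) c.r, z' + y ∈ ball (0 : Cn n) (F.r l) ∧ c.π y = F.σ l (z' + y) := by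
  classical
  obtain ⟨r, hr, hball⟩ := loc_cell_radius z' hz
  have hin : ∀ y ∈ ball (0 : Cn n) r, z' + y ∈ ball (0 : Cn n) (F.r l) := fun y hy => (hball y hy).1
  obtain ⟨N, A, hAm, hAi, hAc⟩ := F.inj l
  let c : MChart n L.D (L.x : Cn n) :=
    { r := r
      r_pos := hr
      π := fun y => F.σ l (z' + y)
      hol := (F.hol l).comp (f := fun y : Cn n => z' + y) (by fun_prop) hin
      maps := fun y hy => F.maps l (hin y hy)
      center := by
        show F.σ l (z' + 0) = _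
        rw [add_zero, h0]
        rfl
      k := F.kAt l z'
      unit := loc_cellU z' (F.k l) (F.uj l)
      unit_hol := loc_cellU_diff z' (F.k l) (F.uj l) (F.uj_hol l) hin
      unit_ne := fun y hy => loc_cellU_ne z' (F.k l) (F.uj l) y (F.uj_ne l _ (hin y hy)) (hball y hy).2
      jac_eq := fun y hy => by
        rw [loc_cjac_transl, F.jac_eq l _ (hin y hy), loc_cellU_mul]
        rfl
      inj := by
        refine ⟨N, fun i => (fun y : Cn n => z' + y) ⁻¹' A i, fun i => ?_, fun i => ?_, ?_⟩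
        · exact (hAm i).preimage (by fun_prop)
        · intro y₁ h₁ y₂ h₂ h12
          exact add_left_cancel (hAi i h₁ h₂ h12)
        · rintro y ⟨hy, hj⟩
          rw [loc_cjac_transl] at hj
          have := hAc ⟨hin y hy, hj⟩
          rw [Set.mem_iUnion] at this ⊢
          exact this }
  obtain ⟨G, hG⟩ := loc_rep_exists L c
  refine ⟨c, G, rfl, hG, ?_, fun y hy => ⟨hin y hy, rfl⟩⟩
  intro i
  have hW : AnalyticAt ℂ (loc_cellU z' (fun j => F.o l j i) (F.us l i)) 0 :=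
    tay_analyticAt_of_ball hr (loc_cellU_diff z' _ _ (F.us_hol l i) hin)
  refine ⟨tay 0 (loc_cellU z' (fun j => F.o l j i) (F.us l i)), ?_, ?_⟩
  · rw [tay_coeff_zero hW]
    exact loc_cellU_ne z' _ _ 0 (F.us_ne l i _ (hin 0 (mem_ball_self hr))) (hball 0 (mem_ball_self hr)).2
  · have hM : tay (0 : Cn n) (tayMono (toExp fun j => F.oAt l z' j i))
        = MvPowerSeries.monomial (toExp fun j => F.oAt l z' j i) (1 : ℂ) := by
      have := tay_tayMono (0 : Cn n) (toExp fun j => F.oAt l z' j i)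
      simpa using this
    rw [hG m (s i) (hs i), ← hM, ← tay_mul hW (tayMono_analyticAt _ _)]
    apply tay_congr
    filter_upwards [ball_mem_nhds (0 : Cn n) hr] with y hy
    show L.hol m (s i) (F.σ l (z' + y)) = _
    rw [F.sec_eq l i _ (hin y hy), loc_cellU_mul]
    rfl

open Classical in
/-- the unit part of `w * y^e` near `z'` -/
noncomputable def cellUnit (z' : Cn n) (e : Fin n → ℕ) (w : ℂ) (y : Cn n) : ℝ :=
  ‖w‖ * ∏ j, (if z' j = 0 then 1 else ‖y j‖ ^ e j)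

theorem cellUnit_nonneg (z' : Cn n) (e : Fin n → ℕ) (w : ℂ) (y : Cn n) : 0 ≤ cellUnit z' e w y := by
  unfold cellUnit
  refine mul_nonneg (norm_nonneg _) (Finset.prod_nonneg fun j _ => ?_)
  split_ifs <;> positivity

theorem cellUnit_pos (z' : Cn n) (e : Fin n → ℕ) (w : ℂ) (y : Cn n) (hw : w ≠ 0)
    (hy : ∀ j, z' j ≠ 0 → y j ≠ 0) : 0 < cellUnit z' e w y := by
  unfold cellUnit
  refine mul_pos (norm_pos_iff.2 hw) (Finset.prod_pos fun j _ => ?_)
  split_ifs with h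
  · exact one_pos
  · exact pow_pos (norm_pos_iff.2 (hy j h)) _

theorem cellUnit_continuousOn (z' : Cn n) (e : Fin n → ℕ) (w : Cn n → ℂ) (A : Set (Cn n))
    (hw : ContinuousOn w A) : ContinuousOn (fun y => cellUnit z' e (w y) y) A := by
  unfold cellUnit
  refine hw.norm.mul (continuousOn_finsetProd _ fun j _ => ?_)
  split_ifs
  · exact continuousOn_const
  · fun_prop

/-- a small closed polydisc around `z'` inside the leaf on which the non-vanishing coordinates stay away from `0` -/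
theorem cell_radius (r : ℝ) (z' : Cn n) (hz : z' ∈ ball (0 : Cn n) r) :
    ∃ R > 0, closedBall z' R ⊆ ball (0 : Cn n) r ∧ ∀ y ∈ closedBall z' R, ∀ j, z' j ≠ 0 → y j ≠ 0 := by
  have hopen : IsOpen (ball (0 : Cn n) r ∩ ⋂ j, {y : Cn n | z' j ≠ 0 → y j ≠ 0}) := by
    refine isOpen_ball.inter (isOpen_iInter_of_finite fun j => ?_)
    by_cases hj : z' j = 0
    · simp [hj]
    · simp only [ne_eq, hj, not_false_eq_true, forall_const]
      exact isOpen_ne_fun (continuous_apply j) continuous_const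
  have hmem : z' ∈ ball (0 : Cn n) r ∩ ⋂ j, {y : Cn n | z' j ≠ 0 → y j ≠ 0} :=
    ⟨hz, Set.mem_iInter.2 fun j hj => hj⟩
  obtain ⟨R, hR, hsub⟩ := Metric.nhds_basis_closedBall.mem_iff.1 (hopen.mem_nhds hmem)
  exact ⟨R, hR, fun y hy => (hsub hy).1, fun y hy j => Set.mem_iInter.1 (hsub hy).2 j⟩

open Classical in
/-- splitting of `|w y^e|^{2p}` into a unit and a monomial in `y - z'`. -/
theorem cell_mono_split (z' y : Cn n) (e : Fin n → ℕ) (w : ℂ) (p : ℝ) (hp : 0 ≤ p) :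
    ENNReal.ofReal ‖w * ∏ j, y j ^ e j‖ ^ (2 * p)
      = ENNReal.ofReal (cellUnit z' e w y ^ (2 * p)) *
        ∏ j, ‖y j - z' j‖ₑ ^ (2 * (((if z' j = 0 then e j else 0 : ℕ) : ℝ) * p)) := by
  have hA : 0 ≤ cellUnit z' e w y := cellUnit_nonneg z' e w y
  have h1 : ‖w * ∏ j, y j ^ e j‖
      = cellUnit z' e w y * ∏ j, ‖y j - z' j‖ ^ (if z' j = 0 then e j else 0 : ℕ) := by
    rw [cellUnit, norm_mul, norm_prod, mul_assoc, ← Finset.prod_mul_distrib]
    congr 1
    refine Finset.prod_congr rfl fun j _ => ?_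
    by_cases hj : z' j = 0
    · simp [hj]
    · simp [hj]
  rw [h1, ENNReal.ofReal_mul hA, ENNReal.mul_rpow_of_nonneg _ _ (by positivity),
    ENNReal.ofReal_rpow_of_nonneg hA (by positivity),
    ENNReal.ofReal_prod_of_nonneg fun j _ => by positivity,
    ← ENNReal.prod_rpow_of_nonneg (by positivity)]
  congr 1
  refine Finset.prod_congr rfl fun j _ => ?_
  rw [ENNReal.ofReal_pow (norm_nonneg _), ofReal_norm, ← ENNReal.rpow_natCast, ← ENNReal.rpow_mul]
  congr 1
  ring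

/-- Howald at a point of a leaf -/
theorem cell_howald (F : CellFam L m s) (l : Fin F.nl) (z' : Cn n) (hz : z' ∈ ball (0 : Cn n) (F.r l))
    (α : Fin (S.N m) → ℝ) (hα : ∀ i, 0 ≤ α i) (hα0 : ∃ i, 0 < α i)
    (hdiv : ∀ R > 0, ∫⁻ y in ball z' R ∩ ball 0 (F.r l), ‖cjac (F.σ l) y‖ₑ ^ 2 *
      (sumPow (fun i : {i // 0 < α i} => 1 / α i) fun i => L.hol m (s i) (F.σ l y)) ^ (-1 : ℝ) = ⊤) :
    ∃ u : Fin n → ℝ, (∀ j, 0 ≤ u j) ∧ u ≠ 0 ∧ (∀ j, z' j ≠ 0 → u j = 0) ∧
      ∀ i, α i * disc (F.kAt l z') u ≤ ow (F.oAt l z') u i := by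
  classical
  obtain ⟨R, hR, hsub, hne⟩ := cell_radius (F.r l) z' hz
  have : Nonempty {i // 0 < α i} := let ⟨i, hi⟩ := hα0; ⟨⟨i, hi⟩⟩
  have hbb : ball z' R ⊆ ball (0 : Cn n) (F.r l) := ball_subset_closedBall.trans hsub
  -- the data for Howald's criterion
  set b : Fin n → ℝ := fun j => ((F.kAt l z' j : ℕ) : ℝ) * 1 with hb
  set β : {i // 0 < α i} → Fin n → ℝ := fun i j => ((F.oAt l z' j i : ℕ) : ℝ) * (1 / α i) with hβ
  set V : Cn n → ℝ := fun y => cellUnit z' (F.k l) (F.uj l y) y ^ (2 * (1 : ℝ)) with hV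
  set U : {i // 0 < α i} → Cn n → ℝ := fun i y =>
    cellUnit z' (fun j => F.o l j i) (F.us l i y) y ^ (2 * (1 / α i)) with hU
  have hcrit := r242_howald_cont z' β
    (fun i j => mul_nonneg (Nat.cast_nonneg _) (by have := i.2; positivity)) b 1 zero_le_one R hR U V
    (fun i => (cellUnit_continuousOn z' _ _ _ ((F.us_hol l i).continuousOn.mono hsub)).rpow_const
      fun y _ => Or.inr (by have := i.2; positivity))
    (fun i y hy => Real.rpow_pos_of_pos (cellUnit_pos z' _ _ y (F.us_ne l i y (hsub hy)) (hne y hy)) _)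
    ((cellUnit_continuousOn z' _ _ _ ((F.uj_hol l).continuousOn.mono hsub)).rpow_const
      fun y _ => Or.inr (by norm_num))
    (fun y hy => Real.rpow_pos_of_pos (cellUnit_pos z' _ _ y (F.uj_ne l y (hsub hy)) (hne y hy)) _)
  have hint : ∫⁻ y in ball z' R, ENNReal.ofReal (V y) * (∏ j, ‖y j - z' j‖ₑ ^ (2 * b j)) *
      (∑ i, ENNReal.ofReal (U i y) * ∏ j, ‖y j - z' j‖ₑ ^ (2 * β i j)) ^ (-(1 : ℝ)) = ⊤ := by
    rw [← hdiv R hR, Set.inter_eq_left.2 hbb]
    refine setLIntegral_congr_fun isOpen_ball.measurableSet fun y hy => ?_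
    have hy' := hbb hy
    have e1 : ‖cjac (F.σ l) y‖ₑ ^ 2
        = ENNReal.ofReal (V y) * ∏ j, ‖y j - z' j‖ₑ ^ (2 * b j) := by
      have h := cell_mono_split z' y (F.k l) (F.uj l y) 1 zero_le_one
      rw [F.jac_eq l y hy']
      calc ‖F.uj l y * ∏ j, y j ^ F.k l j‖ₑ ^ 2
          = ENNReal.ofReal ‖F.uj l y * ∏ j, y j ^ F.k l j‖ ^ (2 * (1 : ℝ)) := by
            rw [ofReal_norm, mul_one, ENNReal.rpow_two]
        _ = _ := h
    have e2 : (sumPow (fun i : {i // 0 < α i} => 1 / α i) fun i => L.hol m (s i) (F.σ l y))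
        = ∑ i, ENNReal.ofReal (U i y) * ∏ j, ‖y j - z' j‖ₑ ^ (2 * β i j) := by
      unfold sumPow
      refine Finset.sum_congr rfl fun i _ => ?_
      beta_reduce
      rw [F.sec_eq l i y hy']
      exact cell_mono_split z' y (fun j => F.o l j i) (F.us l i y) (1 / α i)
        (by have := i.2; positivity)
    rw [e1, e2]
  have hnot : ¬ ∀ w : Fin n → ℝ, (∀ i, 0 ≤ w i) → w ≠ 0 →
      ∃ k, 1 * ∑ i, w i * β k i < ∑ i, w i * (b i + 1) := by
    intro h
    exact (hcrit.2 h).ne hint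
  push Not at hnot
  obtain ⟨w, hw, hw0, hwk⟩ := hnot
  -- the weights supported on the vanishing coordinates
  set u : Fin n → ℝ := fun j => if z' j = 0 then w j else 0 with hu
  have hu0 : ∀ j, 0 ≤ u j := by
    intro j
    simp only [hu]
    split_ifs
    · exact hw j
    · exact le_rfl
  have hdisc : disc (F.kAt l z') u ≤ ∑ j, w j * (b j + 1) := by
    unfold disc
    refine Finset.sum_le_sum fun j _ => ?_
    simp only [hu, hb]
    split_ifs with hj
    · exact le_of_eq (by ring)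
    · rw [zero_mul]
      exact mul_nonneg (hw j) (by positivity)
  have how : ∀ i : {i // 0 < α i}, ∑ j, w j * β i j = ow (F.oAt l z') u i * (1 / α i) := by
    intro i
    unfold ow
    rw [Finset.sum_mul]
    refine Finset.sum_congr rfl fun j _ => ?_
    simp only [hu, hβ, CellFam.oAt]
    split_ifs with hj
    · ring
    · simp
  have hmain : ∀ i : {i // 0 < α i}, α i * disc (F.kAt l z') u ≤ ow (F.oAt l z') u i := by
    intro i
    have h1 := hwk i
    rw [one_mul, how i] at h1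
    have h2 : disc (F.kAt l z') u ≤ ow (F.oAt l z') u i * (1 / α i) := hdisc.trans h1
    have hi := i.2
    rw [mul_one_div, le_div_iff₀ hi] at h2
    linarith
  refine ⟨u, hu0, ?_, fun j hj => by simp [hu, hj], fun i => ?_⟩
  · intro hu00
    obtain ⟨i, hi⟩ := hα0
    have h1 := hwk ⟨i, hi⟩
    rw [one_mul, how ⟨i, hi⟩, hu00] at h1
    have h2 : ow (F.oAt l z') (0 : Fin n → ℝ) i = 0 := by simp [ow]
    rw [h2, zero_mul] at h1
    have h3 : ∀ j ∈ Finset.univ, 0 ≤ w j * (b j + 1) := fun j _ =>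
      mul_nonneg (hw j) (by simp only [hb]; positivity)
    have h4 := (Finset.sum_eq_zero_iff_of_nonneg h3).1 (le_antisymm h1 (Finset.sum_nonneg h3))
    refine hw0 (funext fun j => ?_)
    have h5 := h4 j (Finset.mem_univ j)
    have h6 : (0 : ℝ) < b j + 1 := by simp only [hb]; positivity
    exact (mul_eq_zero.1 h5).resolve_right h6.ne'
  · rcases (hα i).eq_or_lt with hi | hi
    · rw [← hi, zero_mul]
      unfold ow
      exact Finset.sum_nonneg fun j _ => mul_nonneg (hu0 j) (Nat.cast_nonneg _)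
    · exact hmain ⟨i, hi⟩

/-- local finiteness at the points of the fibre over `0` gives finiteness over a small ball. -/
theorem cell_leaf_finite (r : ℝ) (hr : 0 < r) (σ : Cn n → Cn n) (hσ : ContinuousOn σ (ball 0 r))
    (Ψ : Cn n → ℝ≥0∞)
    (hfin : ∀ z' ∈ closedBall (0 : Cn n) (r / 2), σ z' = 0 →
      ∃ R > 0, ∫⁻ y in ball z' R ∩ ball 0 r, Ψ y < ⊤) :
    ∃ δ > 0, ∫⁻ y in closedBall (0 : Cn n) (r / 2) ∩ σ ⁻¹' ball 0 δ, Ψ y < ⊤ := by
  have hKsub : closedBall (0 : Cn n) (r / 2) ⊆ ball 0 r := closedBall_subset_ball (by linarith)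
  have hK : IsCompact (closedBall (0 : Cn n) (r / 2)) := isCompact_closedBall _ _
  have hσK : ContinuousOn σ (closedBall (0 : Cn n) (r / 2)) := hσ.mono hKsub
  set Z : Set (Cn n) := closedBall (0 : Cn n) (r / 2) ∩ σ ⁻¹' {0} with hZ
  have hZc : IsCompact Z := by
    refine hK.of_isClosed_subset ?_ Set.inter_subset_left
    exact hσK.preimage_isClosed_of_isClosed isClosed_closedBall isClosed_singleton
  -- an open set around the fibre with finite integral
  obtain ⟨O, hO, hZO, hOfin⟩ : ∃ O : Set (Cn n), IsOpen O ∧ Z ⊆ O ∧ ∫⁻ y in O ∩ ball 0 r, Ψ y < ⊤ := by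
    refine hZc.induction_on (p := fun A => ∃ O : Set (Cn n), IsOpen O ∧ A ⊆ O ∧
      ∫⁻ y in O ∩ ball 0 r, Ψ y < ⊤) ?_ ?_ ?_ ?_
    · exact ⟨∅, isOpen_empty, subset_rfl, by simp⟩
    · rintro A B hAB ⟨O, hO, hBO, hfinO⟩
      exact ⟨O, hO, hAB.trans hBO, hfinO⟩
    · rintro A B ⟨O₁, hO₁, hA, h₁⟩ ⟨O₂, hO₂, hB, h₂⟩
      refine ⟨O₁ ∪ O₂, hO₁.union hO₂, Set.union_subset_union hA hB, ?_⟩
      rw [Set.union_inter_distrib_right]
      exact lt_of_le_of_lt (lintegral_union_le _ _ _) (ENNReal.add_lt_top.2 ⟨h₁, h₂⟩)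
    · intro z' hz'
      obtain ⟨R, hR, hfinR⟩ := hfin z' hz'.1 hz'.2
      exact ⟨ball z' R, mem_nhdsWithin_of_mem_nhds (ball_mem_nhds _ hR), ball z' R, isOpen_ball,
        subset_rfl, hfinR⟩
  -- away from `O` the map stays away from `0`
  have hC : IsCompact (closedBall (0 : Cn n) (r / 2) \ O) := hK.diff hO
  obtain ⟨M, hM, hb⟩ := r242_common_bounds (κ := Unit) _ hC (fun _ y => ‖σ y‖)
    (fun _ => (hσK.mono Set.sdiff_subset).norm)
    (fun _ y hy => norm_pos_iff.2 fun h0 => hy.2 (hZO ⟨hy.1, h0⟩))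
  refine ⟨M⁻¹, by positivity, lt_of_le_of_lt (lintegral_mono_set ?_) hOfin⟩
  rintro y ⟨hyK, hyσ⟩
  refine ⟨?_, hKsub hyK⟩
  by_contra hyO
  have h1 := (hb () y ⟨hyK, hyO⟩).1
  have h2 : ‖σ y‖ < M⁻¹ := by simpa using hyσ
  linarith

/-- **(P2)** -/
theorem loc_p2 (F : CellFam L m s) (hs : ∀ i, s i ∈ S.R m) (α : Fin (S.N m) → ℝ) (hα : ∀ i, 0 ≤ α i) (hα0 : ∃ i, 0 < α i)
    (hdiv : ∀ ρ > 0, ∫⁻ x in ball (0 : Cn n) ρ,
      (sumPow (fun i : {i // 0 < α i} => 1 / α i) fun i => L.hol m (s i) x) ^ (-1 : ℝ) = ⊤) :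
    ∃ (G : GChart S n) (k : Fin n → ℕ) (o : Fin n → Fin (S.N m) → ℕ) (u : Fin n → ℝ), (k, o) ∈ F.data ∧ L.TC L.x G k ∧
      MonoIn m s G o ∧ (∀ i, 0 ≤ u i) ∧ u ≠ 0 ∧ ∀ i, α i * disc k u ≤ ow o u i := by
  set Φ : Cn n → ℝ≥0∞ := fun x =>
    (sumPow (fun i : {i // 0 < α i} => 1 / α i) fun i => L.hol m (s i) x) ^ (-1 : ℝ) with hΦ
  obtain ⟨l, z', hz'K, hz'0, hdivz⟩ : ∃ l, ∃ z' ∈ closedBall (0 : Cn n) (F.r l / 2), F.σ l z' = 0 ∧
      ∀ R > 0, ∫⁻ y in ball z' R ∩ ball 0 (F.r l), ‖cjac (F.σ l) y‖ₑ ^ 2 * Φ (F.σ l y) = ⊤ := by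
    by_contra hcon
    push Not at hcon
    have hleaf : ∀ l, ∃ δ > 0, ∫⁻ y in closedBall (0 : Cn n) (F.r l / 2) ∩ F.σ l ⁻¹' ball 0 δ,
        ‖cjac (F.σ l) y‖ₑ ^ 2 * Φ (F.σ l y) < ⊤ := by
      intro l
      refine cell_leaf_finite (F.r l) (F.r_pos l) (F.σ l) (F.hol l).continuousOn _ fun z' hz' h0 => ?_
      obtain ⟨R, hR, hne⟩ := hcon l z' hz' h0
      exact ⟨R, hR, lt_top_iff_ne_top.2 hne⟩
    choose δ hδ hδfin using hleaf
    -- a common radius
    obtain ⟨ρ₀, hρ₀, hcov⟩ := Metric.nhds_basis_ball.mem_iff.1 F.cover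
    have hev : ∀ᶠ ρ in 𝓝[>] (0 : ℝ), (∀ l, ρ < δ l) ∧ ρ < ρ₀ := by
      refine (eventually_all.2 fun l => ?_).and ?_
      · filter_upwards [Ioo_mem_nhdsGT (hδ l)] with ρ hρ using hρ.2
      · filter_upwards [Ioo_mem_nhdsGT hρ₀] with ρ hρ using hρ.2
    obtain ⟨ρ, ⟨hρδ, hρρ₀⟩, hρ⟩ := (hev.and self_mem_nhdsWithin).exists
    have hρ0 : 0 < ρ := hρ
    have hsub : ball (0 : Cn n) ρ ⊆ ⋃ l ∈ (Finset.univ : Finset (Fin F.nl)),
        F.σ l '' (closedBall (0 : Cn n) (F.r l / 2) ∩ F.σ l ⁻¹' ball 0 ρ) := by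
      intro x hx
      obtain ⟨l, hl⟩ := Set.mem_iUnion.1 (hcov (ball_subset_ball hρρ₀.le hx))
      obtain ⟨y, hy, rfl⟩ := hl
      exact Set.mem_iUnion₂.2 ⟨l, Finset.mem_univ _, y, ⟨hy, hx⟩, rfl⟩
    have hle : ∀ l, ∫⁻ x in F.σ l '' (closedBall (0 : Cn n) (F.r l / 2) ∩ F.σ l ⁻¹' ball 0 ρ), Φ x
        < ⊤ := by
      intro l
      have hKsub : closedBall (0 : Cn n) (F.r l / 2) ⊆ ball 0 (F.r l) :=
        closedBall_subset_ball (by linarith [F.r_pos l])
      have hmeas : MeasurableSet (closedBall (0 : Cn n) (F.r l / 2) ∩ F.σ l ⁻¹' ball 0 ρ) := by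
        have : closedBall (0 : Cn n) (F.r l / 2) ∩ F.σ l ⁻¹' ball 0 ρ
            = closedBall (0 : Cn n) (F.r l / 2) ∩ (ball 0 (F.r l) ∩ F.σ l ⁻¹' ball 0 ρ) := by
          ext y
          constructor
          · rintro ⟨h1, h2⟩; exact ⟨h1, hKsub h1, h2⟩
          · rintro ⟨h1, _, h2⟩; exact ⟨h1, h2⟩
        rw [this]
        exact measurableSet_closedBall.inter
          ((F.hol l).continuousOn.isOpen_inter_preimage isOpen_ball isOpen_ball).measurableSet
      obtain ⟨N, A, hAm, hAinj, hAcov⟩ := F.inj l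
      have h1 := r242_lintegral_image_le (ball (0 : Cn n) (F.r l))
        (closedBall (0 : Cn n) (F.r l / 2) ∩ F.σ l ⁻¹' ball 0 ρ) isOpen_ball
        (Set.inter_subset_left.trans hKsub) hmeas (F.σ l) (F.hol l) Finset.univ A hAm hAinj
        (fun y hy hne => by
          have := hAcov ⟨hKsub hy.1, hne⟩
          simpa using this) Φ
      refine lt_of_le_of_lt h1 (lt_of_le_of_lt (lintegral_mono_set ?_) (hδfin l))
      exact Set.inter_subset_inter_right _ (Set.preimage_mono (ball_subset_ball (hρδ l).le))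
    have htop : (⊤ : ℝ≥0∞) < ⊤ := by
      calc (⊤ : ℝ≥0∞) = ∫⁻ x in ball (0 : Cn n) ρ, Φ x := (hdiv ρ hρ0).symm
        _ ≤ ∫⁻ x in ⋃ l ∈ (Finset.univ : Finset (Fin F.nl)),
              F.σ l '' (closedBall (0 : Cn n) (F.r l / 2) ∩ F.σ l ⁻¹' ball 0 ρ), Φ x :=
            lintegral_mono_set hsub
        _ ≤ ∑ l, ∫⁻ x in F.σ l '' (closedBall (0 : Cn n) (F.r l / 2) ∩ F.σ l ⁻¹' ball 0 ρ), Φ x :=
            r242_lintegral_biUnion_finset_le _ _ _ _
        _ < ⊤ := ENNReal.sum_lt_top.2 fun l _ => hle l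
    exact lt_irrefl _ htop
  have hz'b : z' ∈ ball (0 : Cn n) (F.r l) :=
    closedBall_subset_ball (by linarith [F.r_pos l]) hz'K
  obtain ⟨u, hu, hu0, _, hineq⟩ := cell_howald F l z' hz'b α hα hα0 hdivz
  obtain ⟨c, G, hck, hrep, hmono, _⟩ := cell_exists F hs l z' hz'b hz'0
  exact ⟨G, F.kAt l z', F.oAt l z', u, cell_data_mem F l z', ⟨c, hck, hrep⟩, hmono, hu, hu0, hineq⟩

end Claimed.Agent.R242

/-! equation lemmas of this file, cited once here (rule 6) -/
namespace Claimed.Agent.R242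

theorem r242_eqcite_Loc_Cell : True := by
  have := @Claimed.Agent.R242.loc_cellU.eq_1
  have := @Claimed.Agent.R242.cellUnit.eq_1
  have := @Claimed.Agent.R242.CellFam.kAt.eq_1.{0}
  have := @Claimed.Agent.R242.CellFam.oAt.eq_1.{0}
  trivial

end Claimed.Agent.R242
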