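/-
R242 / Loc / Fam  (LOC-F): existence of a local monomialisation of a basis = `lm_main` (package LM, helper119) repackaged.   Owner: helper73.

PLAN.  Apply `lm_main` with `ι = Fin (S.N m)`, `a = 0`, `g i = L.hol m (s i)`, `N = L.D = ball 0 r₀`.
 `hg`: `hol_diff` + Osgood (`r242_analyticOnNhd_of_differentiableOn` in SCV/RExt or `tay_osgood`).  `hg0`: `s i ≠ 0` (linear independence), `hol_inj` + identity theorem: if `hol m (s i)` vanished near `0`
 it would vanish on the ball.  Enumerate the finite set of leaves by `Fin nl` (`Set.Finite.toFinset`, `Finset.equivFin`), choose exponents and units from `LmMonoOn`, enumerate the finite covers of `LmInjCov`.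
 `lmJac = cjac`, `lmMono e y = ∏ j, y j ^ e j` by definition; `AnalyticOnNhd → DifferentiableOn`.
-/
import Claimed.Agent.R242.Loc.Defs
import Claimed.Agent.R242.LM.Main

set_option autoImplicit false

namespace Claimed.Agent.R242

open Metric Filter Topology

variable {K : Type*} [Field K] [Algebra ℂ K] {S : SecRing K} {n : ℕ}

theorem exists_cellFam (L : LocReal S n) (m : ℕ) (s : Fin (S.N m) → K) (hs : S.IsBasis m s) : Nonempty (CellFam L m s) := by
  have hball : ball (0 : Cn n) L.r₀ ∈ 𝓝 (0 : Cn n) := ball_mem_nhds 0 L.r₀_pos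
  have hg : ∀ i, AnalyticAt ℂ (L.hol m (s i)) 0 := fun i =>
    Claimed.Agent.R269.SCV.analyticAt_of_differentiableOn (L.hol_diff m (s i) (hs.1 i)) hball
  have hg0 : ∀ i, ∃ᶠ z in 𝓝 (0 : Cn n), L.hol m (s i) z ≠ 0 := by
    intro i hcon
    have h1 : ∀ᶠ z in 𝓝 (0 : Cn n), L.hol m (s i) z = 0 := hcon.mono fun z hz => not_not.1 hz
    have h2 : Set.EqOn (L.hol m (s i)) (fun _ => 0) (ball 0 L.r₀) :=
      Claimed.Agent.R269.SCV.eqOn_of_differentiableOn isOpen_ball (convex_ball _ _).isPreconnected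
        (L.hol_diff m (s i) (hs.1 i)) (differentiableOn_const _) (mem_ball_self L.r₀_pos) h1
    exact hs.2.ne_zero i (L.hol_inj m (s i) (hs.1 i) fun z hz => h2 hz)
  obtain ⟨nl, r, σ, k, o, uj, us, h1, h2, h3, h4, h5, h6, h7, h8, h9, h10, h11⟩ :=
    lm_main_fin (fun i => L.hol m (s i)) hg hg0 hball
  exact ⟨⟨nl, r, h1, σ, h2, h3, k, o, uj, h4, h5, h6, us, h7, h8, h9, h10, h11⟩⟩

end Claimed.Agent.R242
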