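/-
R242 / Loc / MultAux  (LOC-MULT-A, helper8): proof of `lct_mult` (`lct ≥ 1/mult`).

 * `loc_dir`: a direction `v` with `f (z + t v) = t^m ψ t`, `ψ` continuous at `0`, `ψ 0 ≠ 0`, `m` = least degree of the Taylor series.
 * `loc_one_var`: `|t^m ψ|^(-2a)` is integrable near `0` if `a m < 1` (Howald with units, one variable).
 * `loc_avg`: averaging over the translations `x ↦ x + t v` and Tonelli (replaces coordinates, the shear and the determinant).
 * `loc_lct_mult`: `semicontinuity` in one variable with parameter `w` in a small ball of `Cn n`, then `loc_avg`.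
-/
import Claimed.Agent.R242.Tay.Basic
import Claimed.Agent.R242.Cvx.WOrd
import Claimed.Agent.R242.SCV.Main
import Claimed.Agent.R242.SCV.Howald

set_option autoImplicit false

namespace Claimed.Agent.R242

open Metric Filter Topology MeasureTheory

theorem loc_wdeg_one {n : ℕ} (γ : Fin n →₀ ℕ) : wdeg (fun _ => 1) γ = (γ.degree : ℝ) := by
  unfold wdeg
  rw [Finsupp.degree_eq_sum]
  push_cast
  exact Finset.sum_congr rfl fun i _ => one_mul _

/-- the least degree of a nonzero power series -/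
theorem loc_min_deg {n : ℕ} (F : MvPowerSeries (Fin n) ℂ) (hF : F ≠ 0) :
    ∃ m : ℕ, (∃ γ : Fin n →₀ ℕ, γ.degree = m ∧ MvPowerSeries.coeff γ F ≠ 0) ∧
      (∀ γ : Fin n →₀ ℕ, MvPowerSeries.coeff γ F ≠ 0 → m ≤ γ.degree) ∧
      (m : ℝ) ≤ wOrd (fun _ => 1) F := by
  classical
  have hex : ∃ m : ℕ, ∃ γ : Fin n →₀ ℕ, γ.degree = m ∧ MvPowerSeries.coeff γ F ≠ 0 := by
    by_contra hcon
    push Not at hcon
    exact hF (MvPowerSeries.ext fun γ => by rw [hcon _ γ rfl, map_zero])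
  have hmin : ∀ γ : Fin n →₀ ℕ, MvPowerSeries.coeff γ F ≠ 0 → Nat.find hex ≤ γ.degree :=
    fun γ hγ => Nat.find_min' hex ⟨γ, rfl, hγ⟩
  refine ⟨Nat.find hex, Nat.find_spec hex, hmin, le_wOrd hF fun γ hγ => ?_⟩
  rw [loc_wdeg_one]
  exact_mod_cast hmin γ hγ

/-- a direction in which the leading form does not vanish -/
theorem loc_lead_dir {n : ℕ} (c : (Fin n →₀ ℕ) → ℂ) (s : Finset (Fin n →₀ ℕ)) (γ₀ : Fin n →₀ ℕ)
    (hγ₀ : γ₀ ∈ s) (h0 : c γ₀ ≠ 0) : ∃ v : Cn n, ∑ γ ∈ s, c γ * tayMono γ v ≠ 0 := by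
  classical
  set P : MvPolynomial (Fin n) ℂ := ∑ γ ∈ s, MvPolynomial.C (c γ) * MvPolynomial.monomial γ (1 : ℂ) with hP
  have hPne : P ≠ 0 := by
    intro h
    have h1 : MvPolynomial.coeff γ₀ P = c γ₀ := by
      rw [hP, MvPolynomial.coeff_sum]
      simp only [MvPolynomial.coeff_C_mul, MvPolynomial.coeff_monomial]
      rw [Finset.sum_eq_single γ₀]
      · simp
      · intro b _ hb
        simp [hb]
      · intro hb
        exact absurd hγ₀ hb
    rw [h, MvPolynomial.coeff_zero] at h1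
    exact h0 h1.symm
  by_contra hcon
  push Not at hcon
  refine hPne (MvPolynomial.funext fun v => ?_)
  rw [map_zero, hP, map_sum, ← hcon v]
  refine Finset.sum_congr rfl fun γ _ => ?_
  rw [map_mul, MvPolynomial.eval_C, ← tayMono_eq_eval]

theorem loc_dir {n : ℕ} (z : Cn n) (f : Cn n → ℂ) (r : ℝ) (hr : 0 < r)
    (hf : DifferentiableOn ℂ f (ball z r)) (hne : tay z f ≠ 0) :
    ∃ (v : Cn n) (m : ℕ) (ψ : ℂ → ℂ), (m : ℝ) ≤ wOrd (fun _ => 1) (tay z f) ∧ ContinuousAt ψ 0 ∧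
      ψ 0 ≠ 0 ∧ ∀ᶠ t in 𝓝 (0 : ℂ), f (z + t • v) = t ^ m * ψ t := by
  classical
  obtain ⟨m, ⟨γ₀, hγ₀, hc0⟩, hmin, hm⟩ := loc_min_deg (tay z f) hne
  set c : (Fin n →₀ ℕ) → ℂ := fun γ => MvPowerSeries.coeff γ (tay z f) with hc
  set s : Finset (Fin n →₀ ℕ) := (Finsupp.finite_of_degree_le (σ := Fin n) m).toFinset with hs
  have hmem : ∀ γ : Fin n →₀ ℕ, γ ∈ s ↔ γ.degree ≤ m := fun γ => by
    rw [hs, Set.Finite.mem_toFinset]; rfl
  obtain ⟨v, hv⟩ := loc_lead_dir c s γ₀ ((hmem _).2 hγ₀.le) hc0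
  set ρ : ℝ := r / (2 * (‖v‖ + 1)) with hρ
  have hv1 : 0 < ‖v‖ + 1 := by positivity
  have hρ0 : 0 < ρ := by positivity
  have hρv : ρ * ‖v‖ < r := by
    have h1 : ρ * (‖v‖ + 1) = r / 2 := by rw [hρ]; field_simp
    nlinarith [norm_nonneg v]
  set ψ : ℂ → ℂ := fun t => ∑' γ : Fin n →₀ ℕ, c γ * tayMono γ v * t ^ (γ.degree - m) with hψ
  have hsum : Summable (fun γ : Fin n →₀ ℕ => ‖c γ‖ * (ρ * ‖v‖) ^ γ.degree * (ρ ^ m)⁻¹) :=
    (tay_conv hf (ρ * ‖v‖) (by positivity) hρv).mul_right _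
  have hcont : ContinuousOn ψ (closedBall 0 ρ) := by
    refine continuousOn_tsum (fun γ => by fun_prop) hsum fun γ t ht => ?_
    by_cases hcγ : c γ = 0
    · rw [hcγ]; simp
    have hle : m ≤ γ.degree := hmin γ hcγ
    have ht' : ‖t‖ ≤ ρ := by simpa using ht
    rw [norm_mul, norm_mul, norm_pow, mul_assoc, mul_assoc]
    refine mul_le_mul_of_nonneg_left ?_ (norm_nonneg _)
    have h1 : (ρ * ‖v‖) ^ γ.degree * (ρ ^ m)⁻¹ = ‖v‖ ^ γ.degree * ρ ^ (γ.degree - m) := by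
      rw [mul_pow, pow_sub₀ _ hρ0.ne' hle]; ring
    rw [h1]
    exact mul_le_mul (norm_tayMono_le_norm γ v) (pow_le_pow_left₀ (norm_nonneg _) ht' _)
      (by positivity) (by positivity)
  refine ⟨v, m, ψ, hm, hcont.continuousAt (closedBall_mem_nhds _ hρ0), ?_, ?_⟩
  · have : ψ 0 = ∑ γ ∈ s, c γ * tayMono γ v := by
      rw [hψ]
      simp only
      rw [tsum_eq_sum (s := s)]
      · refine Finset.sum_congr rfl fun γ hγ => ?_
        rw [Nat.sub_eq_zero_of_le ((hmem γ).1 hγ), pow_zero, mul_one]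
      · intro γ hγ
        have : γ.degree - m ≠ 0 := by
          have := (hmem γ).not.1 hγ
          omega
        rw [zero_pow this, mul_zero]
    rw [this]
    exact hv
  · filter_upwards [ball_mem_nhds (0 : ℂ) hρ0] with t ht
    have ht' : ‖t‖ < ρ := by simpa using ht
    have hz : z + t • v ∈ ball z r := by
      rw [mem_ball_iff_norm, add_sub_cancel_left, norm_smul]
      exact lt_of_le_of_lt (mul_le_mul_of_nonneg_right ht'.le (norm_nonneg _)) hρv
    have h1 := (tay_hasSum hf hz).tsum_eq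
    rw [← h1, hψ]
    simp only
    rw [← tsum_mul_left]
    refine tsum_congr fun γ => ?_
    rw [add_sub_cancel_left, tayMono_smul]
    by_cases hcγ : c γ = 0
    · have : MvPowerSeries.coeff γ (tay z f) = 0 := hcγ
      rw [this, hcγ]; simp
    have hle : m ≤ γ.degree := hmin γ hcγ
    have : t ^ γ.degree = t ^ m * t ^ (γ.degree - m) := by
      rw [← pow_add, Nat.add_sub_cancel' hle]
    rw [this]
    ring

theorem loc_sumPow_unit (a : ℝ) (x : ℂ) :
    sumPow (fun _ : Unit => a) (fun _ => x) = ‖x‖ₑ ^ (2 * a) := by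
  unfold sumPow
  rw [Finset.univ_unique, Finset.sum_singleton, ofReal_norm]

/-- one variable: `|t^m ψ|^(-2a)` is integrable near `0` when `a m < 1`. -/
theorem loc_one_var (a : ℝ) (ha : 0 < a) (m : ℕ) (ham : a * m < 1) (φ ψ : ℂ → ℂ)
    (hψc : ContinuousAt ψ 0) (hψ0 : ψ 0 ≠ 0) (h : ∀ᶠ t in 𝓝 (0 : ℂ), φ t = t ^ m * ψ t) :
    ∃ R > 0, ∫⁻ t in ball (0 : Cn 1) R,
      (sumPow (fun _ : Unit => a) fun _ => φ (t 0)) ^ (-1 : ℝ) < ⊤ := by
  have hpos : 0 < ‖ψ 0‖ := norm_pos_iff.2 hψ0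
  have h1 : ∀ᶠ t in 𝓝 (0 : ℂ), ‖ψ 0‖ / 2 < ‖ψ t‖ :=
    hψc.norm.eventually (lt_mem_nhds (by linarith))
  have h2 : ∀ᶠ t in 𝓝 (0 : ℂ), ‖ψ t‖ < 2 * ‖ψ 0‖ :=
    hψc.norm.eventually (gt_mem_nhds (by linarith))
  obtain ⟨R, hR, hall⟩ := Metric.eventually_nhds_iff.1 (h.and (h1.and h2))
  refine ⟨R, hR, ?_⟩
  have h2a : 0 ≤ 2 * a := by positivity
  have hcoord : ∀ t ∈ ball (0 : Cn 1) R, dist (t 0) 0 < R := by
    intro t ht
    rw [mem_ball_zero_iff] at ht
    rw [dist_zero_right]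
    exact lt_of_le_of_lt (norm_le_pi_norm t 0) ht
  have key := (r242_howald_units_idx (κ := Unit) (n := 1) (0 : Fin 1 → ℂ) (fun _ _ => a * m)
    (fun _ _ => by positivity) (fun _ => 0) 1 zero_le_one R hR
    (fun _ t => ‖ψ (t 0)‖ₑ ^ (2 * a)) (fun _ => 1)
    (min 1 (ENNReal.ofReal (‖ψ 0‖ / 2) ^ (2 * a))) (max 1 (ENNReal.ofReal (2 * ‖ψ 0‖) ^ (2 * a)))
    (by
      intro h0
      rcases min_eq_iff.1 h0 with h0 | h0
      · exact one_ne_zero h0.1
      · refine r242_rpow_ne_zero _ _ h2a ?_ h0.1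
        simpa using hpos)
    (by
      intro h0
      rcases max_eq_iff.1 h0 with h0 | h0
      · exact ENNReal.one_ne_top h0.1
      · exact ENNReal.rpow_ne_top_of_nonneg h2a ENNReal.ofReal_ne_top h0.1)
    (fun _ t ht => by
      obtain ⟨-, h3, h4⟩ := hall (hcoord t ht)
      constructor
      · refine (min_le_right _ _).trans (ENNReal.rpow_le_rpow ?_ h2a)
        rw [← ofReal_norm]
        exact ENNReal.ofReal_le_ofReal h3.le
      · refine le_trans (ENNReal.rpow_le_rpow ?_ h2a) (le_max_right _ _)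
        rw [← ofReal_norm]
        exact ENNReal.ofReal_le_ofReal h4.le)
    (fun t _ => ⟨min_le_left _ _, le_max_left _ _⟩)).2 (by
      intro w hw hw0
      refine ⟨(), ?_⟩
      have hw00 : 0 < w 0 := by
        refine lt_of_le_of_ne (hw 0) fun h0 => hw0 ?_
        funext i
        rw [Subsingleton.elim i 0, ← h0]; rfl
      simp only [Fin.sum_univ_one, one_mul, zero_add, mul_one]
      nlinarith)
  refine lt_of_le_of_lt (le_of_eq ?_) key
  refine setLIntegral_congr_fun isOpen_ball.measurableSet fun t ht => ?_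
  obtain ⟨h0, -, -⟩ := hall (hcoord t ht)
  simp only [loc_sumPow_unit, Finset.univ_unique, Finset.sum_singleton, Finset.prod_singleton,
    Pi.zero_apply, sub_zero, mul_zero, ENNReal.rpow_zero, one_mul]
  have hd : (default : Fin 1) = 0 := rfl
  rw [hd, h0, enorm_mul, enorm_pow, ENNReal.mul_rpow_of_nonneg _ _ h2a, ← ENNReal.rpow_natCast,
    ← ENNReal.rpow_mul, mul_comm]
  congr 3
  ring

/-- averaging over translations in the direction `v` (no coordinates, no determinant). -/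
theorem loc_avg {n : ℕ} (Ψ : Cn n → ENNReal) (hΨ : Measurable Ψ) (v z : Cn n) (ρ r₁ δ₁ : ℝ)
    (M : ENNReal) (hsupp : ∀ x, x ∉ ball z ρ → Ψ x = 0)
    (hb : ∀ w ∈ ball (0 : Cn n) δ₁, ∫⁻ t in ball (0 : Cn 1) r₁, Ψ (z + t 0 • v + w) ≤ M)
    (hρ : ρ + r₁ * ‖v‖ ≤ δ₁) :
    volume (ball (0 : Cn 1) r₁) * ∫⁻ x, Ψ x ≤ M * volume (ball z δ₁) := by
  have h1 : volume (ball (0 : Cn 1) r₁) * ∫⁻ x, Ψ x
      = ∫⁻ t in ball (0 : Cn 1) r₁, ∫⁻ x, Ψ (x + t 0 • v) := by
    simp_rw [lintegral_add_right_eq_self Ψ]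
    rw [setLIntegral_const, mul_comm]
  have hmeas : Measurable (Function.uncurry fun (t : Cn 1) (x : Cn n) => Ψ (x + t 0 • v)) := by
    refine hΨ.comp ?_
    have : Continuous (fun p : Cn 1 × Cn n => p.2 + p.1 0 • v) := by fun_prop
    exact this.measurable
  rw [h1, lintegral_lintegral_swap hmeas.aemeasurable]
  calc ∫⁻ x, ∫⁻ t in ball (0 : Cn 1) r₁, Ψ (x + t 0 • v)
      ≤ ∫⁻ x, (ball z δ₁).indicator (fun _ => M) x := by
        refine lintegral_mono fun x => ?_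
        by_cases hx : x ∈ ball z δ₁
        · rw [Set.indicator_of_mem hx]
          have hw : x - z ∈ ball (0 : Cn n) δ₁ := by
            rw [mem_ball_zero_iff]; rwa [mem_ball_iff_norm] at hx
          refine le_trans (le_of_eq ?_) (hb _ hw)
          refine lintegral_congr fun t => ?_
          congr 1
          abel
        · rw [Set.indicator_of_notMem hx]
          refine le_of_eq ?_
          rw [← lintegral_zero (μ := volume.restrict (ball (0 : Cn 1) r₁))]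
          refine setLIntegral_congr_fun isOpen_ball.measurableSet fun t ht => ?_
          refine hsupp _ fun hmem => hx ?_
          rw [mem_ball_iff_norm] at hmem ⊢
          rw [mem_ball_zero_iff] at ht
          have h2 : ‖t 0 • v‖ ≤ r₁ * ‖v‖ := by
            rw [norm_smul]
            exact mul_le_mul_of_nonneg_right ((norm_le_pi_norm t 0).trans ht.le) (norm_nonneg _)
          have h3 : x - z = (x + t 0 • v - z) - t 0 • v := by abel
          calc ‖x - z‖ = ‖(x + t 0 • v - z) - t 0 • v‖ := by rw [← h3]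
            _ ≤ ‖x + t 0 • v - z‖ + ‖t 0 • v‖ := norm_sub_le _ _
            _ < ρ + r₁ * ‖v‖ := by linarith
            _ ≤ δ₁ := hρ
    _ = M * volume (ball z δ₁) := by
        rw [lintegral_indicator isOpen_ball.measurableSet, setLIntegral_const]

theorem loc_rpow_neg_one_le (X : ENNReal) (ε : ℝ) (hε : 0 < ε) :
    X ^ (-1 : ℝ) ≤ 1 + X ^ (-(1 + ε)) := by
  rcases le_total X 1 with h | h
  · exact le_add_left (ENNReal.rpow_le_rpow_of_exponent_ge h (by linarith))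
  · refine le_add_right ?_
    rw [ENNReal.rpow_neg_one]
    exact ENNReal.inv_le_one.2 h

/-- `lct ≥ 1 / mult`. -/
theorem loc_lct_mult {n : ℕ} (z : Cn n) (f : Cn n → ℂ) (r : ℝ) (hr : 0 < r)
    (hf : DifferentiableOn ℂ f (ball z r)) (hne : tay z f ≠ 0) (a : ℝ) (ha : 0 < a)
    (h : a * wOrd (fun _ => 1) (tay z f) < 1) :
    ∃ ρ > 0, ∫⁻ x in ball z ρ, (sumPow (fun _ : Unit => a) fun _ => f x) ^ (-1 : ℝ) < ⊤ := by
  classical
  obtain ⟨v, m, ψ, hm, hψc, hψ0, hev⟩ := loc_dir z f r hr hf hne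
  have ham : a * m < 1 := lt_of_le_of_lt (mul_le_mul_of_nonneg_left hm ha.le) h
  obtain ⟨R₀, hR₀, hint₀⟩ := loc_one_var a ha m ham (fun t => f (z + t • v)) ψ hψc hψ0 hev
  have hv1 : 0 < ‖v‖ + 1 := by positivity
  set R : ℝ := min R₀ (r / (2 * (‖v‖ + 1))) with hRdef
  have hR : 0 < R := lt_min hR₀ (by positivity)
  have hRv : R * ‖v‖ ≤ r / 2 := by
    have h1 : R ≤ r / (2 * (‖v‖ + 1)) := min_le_right _ _
    have h2 : r / (2 * (‖v‖ + 1)) * (‖v‖ + 1) = r / 2 := by field_simp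
    nlinarith [norm_nonneg v]
  set δ : ℝ := r / 2 with hδ
  have hδ0 : 0 < δ := by positivity
  have hmaps : ∀ (t : Cn 1) (w : Cn n), t ∈ ball (0 : Cn 1) R → w ∈ ball (0 : Cn n) δ →
      z + t 0 • v + w ∈ ball z r := by
    intro t w ht hw
    rw [mem_ball_zero_iff] at ht hw
    rw [mem_ball_iff_norm]
    have h1 : z + t 0 • v + w - z = t 0 • v + w := by abel
    have h2 : ‖t 0 • v‖ ≤ R * ‖v‖ := by
      rw [norm_smul]
      exact mul_le_mul_of_nonneg_right ((norm_le_pi_norm t 0).trans ht.le) (norm_nonneg _)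
    rw [h1]
    calc ‖t 0 • v + w‖ ≤ ‖t 0 • v‖ + ‖w‖ := norm_add_le _ _
      _ < r := by linarith
  obtain ⟨ε, hε, r₁, hr₁, M, hM, hevs⟩ := semicontinuity (ι := Unit)
    (S := ↥(ball (0 : Cn n) δ)) 1 R hR (fun _ => a) (fun _ => ha)
    (fun _ t s => f (z + t 0 • v + s.1))
    (fun _ => by
      refine hf.continuousOn.comp (by fun_prop) ?_
      rintro ⟨t, s⟩ ⟨ht, -⟩
      exact hmaps t s.1 ht s.2)
    (fun _ s => by
      refine hf.comp (by fun_prop) ?_
      intro t ht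
      exact hmaps t s.1 ht s.2)
    1 one_pos ⟨0, mem_ball_self hδ0⟩
    (by
      simp only [add_zero]
      exact lt_of_le_of_lt (lintegral_mono_set (ball_subset_ball (min_le_left _ _))) hint₀)
  obtain ⟨δ', hδ', hall⟩ := Metric.eventually_nhds_iff.1 hevs
  set δ₁ : ℝ := min δ δ' with hδ₁def
  have hδ₁ : 0 < δ₁ := lt_min hδ0 hδ'
  set r₂ : ℝ := min r₁ (δ₁ / (2 * (‖v‖ + 1))) with hr₂def
  have hr₂ : 0 < r₂ := lt_min hr₁ (by positivity)
  have hr₂v : r₂ * ‖v‖ ≤ δ₁ / 2 := by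
    have h1 : r₂ ≤ δ₁ / (2 * (‖v‖ + 1)) := min_le_right _ _
    have h2 : δ₁ / (2 * (‖v‖ + 1)) * (‖v‖ + 1) = δ₁ / 2 := by field_simp
    nlinarith [norm_nonneg v]
  refine ⟨δ₁ / 2, by positivity, ?_⟩
  set ρ : ℝ := δ₁ / 2 with hρ
  have hρr : ρ ≤ r := by
    have : δ₁ ≤ δ := min_le_left _ _
    linarith
  set Φ : Cn n → ENNReal := fun x => (sumPow (fun _ : Unit => a) fun _ => f x) ^ (-1 : ℝ) with hΦ
  set Ψ : Cn n → ENNReal := (ball z ρ).indicator Φ with hΨ
  have hΨm : Measurable Ψ := by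
    have hpw : Measurable ((ball z ρ).piecewise f fun _ => 0) :=
      ContinuousOn.measurable_piecewise (hf.continuousOn.mono (ball_subset_ball hρr))
        continuousOn_const isOpen_ball.measurableSet
    have heq : Ψ = (ball z ρ).indicator
        fun x => (‖(ball z ρ).piecewise f (fun _ => 0) x‖ₑ ^ (2 * a)) ^ (-1 : ℝ) := by
      refine Set.indicator_congr fun x hx => ?_
      rw [hΦ]
      simp only
      rw [loc_sumPow_unit, Set.piecewise_eq_of_mem _ _ _ hx]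
    rw [heq]
    exact ((hpw.enorm.pow_const _).pow_const _).indicator isOpen_ball.measurableSet
  have hΨΦ : ∀ x, Ψ x ≤ Φ x := fun x => Set.indicator_le_self _ _ x
  have hbound := loc_avg Ψ hΨm v z ρ r₂ δ₁ (volume (ball (0 : Cn 1) r₁) + M)
    (fun x hx => Set.indicator_of_notMem hx _)
    (fun w hw => by
      have hwδ : w ∈ ball (0 : Cn n) δ := ball_subset_ball (min_le_left _ _) hw
      have hwδ' : dist (⟨w, hwδ⟩ : ↥(ball (0 : Cn n) δ)) ⟨0, mem_ball_self hδ0⟩ < δ' := by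
        rw [Subtype.dist_eq]
        exact lt_of_lt_of_le (mem_ball.1 hw) (min_le_right _ _)
      have h1 := hall hwδ'
      calc ∫⁻ t in ball (0 : Cn 1) r₂, Ψ (z + t 0 • v + w)
          ≤ ∫⁻ t in ball (0 : Cn 1) r₁, Ψ (z + t 0 • v + w) :=
            lintegral_mono_set (ball_subset_ball (min_le_left _ _))
        _ ≤ ∫⁻ t in ball (0 : Cn 1) r₁, (1 + (sumPow (fun _ : Unit => a)
              fun _ => f (z + t 0 • v + w)) ^ (-(1 + ε))) :=
            lintegral_mono fun t => (hΨΦ _).trans (loc_rpow_neg_one_le _ ε hε)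
        _ = volume (ball (0 : Cn 1) r₁) + ∫⁻ t in ball (0 : Cn 1) r₁, (sumPow (fun _ : Unit => a)
              fun _ => f (z + t 0 • v + w)) ^ (-(1 + ε)) := by
            rw [lintegral_add_left measurable_const, setLIntegral_one]
        _ ≤ volume (ball (0 : Cn 1) r₁) + M := by gcongr)
    (by linarith)
  have hfin : (volume (ball (0 : Cn 1) r₁) + M) * volume (ball z δ₁) < ⊤ :=
    ENNReal.mul_lt_top (ENNReal.add_lt_top.2 ⟨measure_ball_lt_top, hM⟩) measure_ball_lt_top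
  have hI : ∫⁻ x in ball z ρ, Φ x = ∫⁻ x, Ψ x := by
    rw [hΨ, lintegral_indicator isOpen_ball.measurableSet]
  rw [hI]
  by_contra hcon
  rw [not_lt, top_le_iff] at hcon
  rw [hcon, ENNReal.mul_top (measure_ball_pos volume _ hr₂).ne'] at hbound
  exact absurd (lt_of_le_of_lt hbound hfin) (lt_irrefl _)

end Claimed.Agent.R242
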