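/-
R242 / Loc / P1  (LOC-B): a test forces non-integrability ("elementary direction" of the valuative criterion).   Owner: helper73.

PLAN.  Choose `0 < R ≤ c.r/2` with `c.π (ball 0 R) ⊆ ball z ρ` (continuity).  Put `Φ x = (sumPow a fun i => f i x)^(-1)` and
`Ψ y = ‖cjac c.π y‖ₑ^2 * Φ (c.π y)`.
 (1) TAY (5): `‖f i (c.π y)‖ ≤ C_i exp (-s * wOrd u (tay 0 (f i ∘ c.π)))` if `‖y j‖ ≤ R exp (-s u_j)` for all `j`.   Hence on the tube of
     `r242_tube_eq_top` (ρ := R):  `sumPow .. ≤ C exp (-2 s disc)`  (use `disc ≤ a i * wOrd`).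
 (2) `‖cjac c.π y‖^2 = ‖unit y‖^2 ∏ ‖y j‖^(2 k j) ≥ c₀ ∏ (R exp (-(s u_j) - 1))^(2 k j) = c₁ exp (-2 s ∑ u_j k_j)`
     (`unit` is continuous and nowhere zero on the compact `closedBall 0 R`).
 (3) so `Ψ y ≥ κ exp (2 s ∑ u_j)` on the tube: `r242_tube_eq_top` gives `∫ ball 0 R, Ψ = ⊤`.
 (4) `r242_lintegral_le_card_image` (with `c.inj`): `∫ ball 0 R, Ψ ≤ N * ∫ c.π '' ball 0 R, Φ ≤ N * ∫ ball z ρ, Φ`.
-/
import Claimed.Agent.R242.Loc.Defs
import Claimed.Agent.R242.SCV.Main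
import Claimed.Agent.R242.SCV.Howald
import Claimed.Agent.R242.Tay.Tube

set_option autoImplicit false

namespace Claimed.Agent.R242

open Metric Filter Topology MeasureTheory
open scoped ENNReal

/-- upper bound of the weight on a tube -/
theorem p1_sumPow_le {ι : Type*} [Fintype ι] (a : ι → ℝ) (ha : ∀ i, 0 < a i) (g : ι → ℂ) (C w : ι → ℝ)
    (hC : ∀ i, 0 ≤ C i) (τ d : ℝ) (hτ : 0 ≤ τ) (hd : ∀ i, d ≤ a i * w i)
    (hg : ∀ i, ‖g i‖ ≤ C i * Real.exp (-τ * w i)) :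
    sumPow a g ≤ ENNReal.ofReal ((∑ i, C i ^ (2 * a i) + 1) * Real.exp (-(2 * τ * d))) := by
  unfold sumPow
  have h1 : ∀ i, ENNReal.ofReal ‖g i‖ ^ (2 * a i)
      ≤ ENNReal.ofReal (C i ^ (2 * a i) * Real.exp (-(2 * τ * d))) := by
    intro i
    have hai := ha i
    rw [ENNReal.ofReal_rpow_of_nonneg (norm_nonneg _) (by positivity)]
    refine ENNReal.ofReal_le_ofReal ?_
    calc ‖g i‖ ^ (2 * a i) ≤ (C i * Real.exp (-τ * w i)) ^ (2 * a i) :=
          Real.rpow_le_rpow (norm_nonneg _) (hg i) (by positivity)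
      _ = C i ^ (2 * a i) * Real.exp (-τ * w i * (2 * a i)) := by
          rw [Real.mul_rpow (hC i) (Real.exp_pos _).le, ← Real.exp_mul]
      _ ≤ C i ^ (2 * a i) * Real.exp (-(2 * τ * d)) := by
          refine mul_le_mul_of_nonneg_left (Real.exp_le_exp.2 ?_) (Real.rpow_nonneg (hC i) _)
          have := mul_le_mul_of_nonneg_left (hd i) hτ
          nlinarith
  calc ∑ i, ENNReal.ofReal ‖g i‖ ^ (2 * a i)
      ≤ ∑ i, ENNReal.ofReal (C i ^ (2 * a i) * Real.exp (-(2 * τ * d))) :=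
        Finset.sum_le_sum fun i _ => h1 i
    _ = ENNReal.ofReal (∑ i, C i ^ (2 * a i) * Real.exp (-(2 * τ * d))) :=
        (ENNReal.ofReal_sum_of_nonneg fun i _ =>
          mul_nonneg (Real.rpow_nonneg (hC i) _) (Real.exp_pos _).le).symm
    _ ≤ _ := by
        refine ENNReal.ofReal_le_ofReal ?_
        rw [← Finset.sum_mul, add_mul]
        have := Real.exp_pos (-(2 * τ * d))
        linarith

/-- lower bound of a monomial on a tube -/
theorem p1_mono_ge {n : ℕ} (k : Fin n → ℕ) (u : Fin n → ℝ) (y : Cn n) (R τ : ℝ) (hR : 0 < R)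
    (hy : ∀ j, R * Real.exp (-(τ * u j) - 1) < ‖y j‖) :
    (∏ j, (R * Real.exp (-1)) ^ k j) * Real.exp (-(τ * ∑ j, u j * k j)) ≤ ∏ j, ‖y j‖ ^ k j := by
  have h1 : Real.exp (-(τ * ∑ j, u j * k j)) = ∏ j, Real.exp (-(τ * u j)) ^ k j := by
    rw [Finset.mul_sum, ← Finset.sum_neg_distrib, Real.exp_sum]
    refine Finset.prod_congr rfl fun j _ => ?_
    rw [← Real.exp_nat_mul]
    congr 1
    ring
  rw [h1, ← Finset.prod_mul_distrib]
  refine Finset.prod_le_prod (fun j _ => by positivity) fun j _ => ?_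
  rw [← mul_pow]
  refine pow_le_pow_left₀ (by positivity) ?_ _
  have h2 : R * Real.exp (-1) * Real.exp (-(τ * u j)) = R * Real.exp (-(τ * u j) - 1) := by
    rw [mul_assoc, ← Real.exp_add]
    congr 2
    ring
  rw [h2]
  exact (hy j).le

/-- **(P1)** -/
theorem loc_p1 {n : ℕ} {D : Set (Cn n)} (hD : IsOpen D) {z : Cn n} (c : MChart n D z)
    (u : Fin n → ℝ) (hu : ∀ i, 0 ≤ u i) (hu0 : u ≠ 0)
    {ι : Type*} [Fintype ι] (f : ι → Cn n → ℂ) (hf : ∀ i, DifferentiableOn ℂ (f i) D)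
    (a : ι → ℝ) (ha : ∀ i, 0 < a i)
    (h : ∀ i, disc c.k u ≤ a i * wOrd u (tay 0 (fun y => f i (c.π y)))) (ρ : ℝ) (hρ : 0 < ρ) :
    ∫⁻ x in ball z ρ, (sumPow a fun i => f i x) ^ (-1 : ℝ) = ⊤ := by
  -- the radius
  have hπc : ContinuousAt c.π 0 :=
    (c.hol.continuousOn).continuousAt (ball_mem_nhds _ c.r_pos)
  have hnh : c.π ⁻¹' ball z ρ ∈ 𝓝 (0 : Cn n) := by
    refine hπc.preimage_mem_nhds ?_
    rw [c.center]
    exact ball_mem_nhds _ hρ
  obtain ⟨R₀, hR₀, hR₀sub⟩ := Metric.nhds_basis_ball.mem_iff.1 hnh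
  set R : ℝ := min R₀ (c.r / 2) with hRdef
  have hR : 0 < R := lt_min hR₀ (by linarith [c.r_pos])
  have hRr : R < c.r := lt_of_le_of_lt (min_le_right _ _) (by linarith [c.r_pos])
  have hRsub : ball (0 : Cn n) R ⊆ c.π ⁻¹' ball z ρ :=
    (ball_subset_ball (min_le_left _ _)).trans hR₀sub
  have hbr : ball (0 : Cn n) R ⊆ ball 0 c.r := ball_subset_ball hRr.le
  have hcbr : closedBall (0 : Cn n) R ⊆ ball 0 c.r := closedBall_subset_ball hRr
  set Φ : Cn n → ℝ≥0∞ := fun x => (sumPow a fun i => f i x) ^ (-1 : ℝ) with hΦ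
  -- (1) the tube bounds
  have hF : ∀ i, DifferentiableOn ℂ (fun y => f i (c.π y)) (ball 0 c.r) := fun i =>
    (hf i).comp c.hol c.maps
  have htube := fun i => tay_tube_bound (hF i) hR.le hRr hu
  choose C hC hCb using htube
  set B : ℝ := ∑ i, C i ^ (2 * a i) + 1 with hB
  have hB0 : 0 < B := by
    have : 0 ≤ ∑ i, C i ^ (2 * a i) := Finset.sum_nonneg fun i _ => Real.rpow_nonneg (hC i) _
    linarith
  -- (2) the unit of the Jacobian
  obtain ⟨M, hM, hMb⟩ := r242_common_bounds (κ := Unit) _ (isCompact_closedBall (0 : Cn n) R)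
    (fun _ y => ‖c.unit y‖) (fun _ => (c.unit_hol.continuousOn.mono hcbr).norm)
    (fun _ y hy => norm_pos_iff.2 (c.unit_ne y (hcbr hy)))
  set A : ℝ := M⁻¹ * ∏ j, (R * Real.exp (-1)) ^ c.k j with hA
  have hA0 : 0 < A := by positivity
  -- (3) divergence upstairs
  have hup : ∫⁻ y in ball (0 : Cn n) R, ‖(fderiv ℂ c.π y).det‖ₑ ^ 2 * Φ (c.π y) = ⊤ := by
    refine r242_tube_eq_top _ R R (A ^ 2 / B) hR le_rfl (by positivity) u hu hu0 fun τ y hτ hy => ?_
    have hyR : ∀ j, ‖y j‖ < R := fun j => by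
      refine lt_of_lt_of_le (hy j).2 ?_
      have : Real.exp (-(τ * u j)) ≤ 1 := Real.exp_le_one_iff.2 (by have := hu j; nlinarith)
      nlinarith
    have hyb : y ∈ ball (0 : Cn n) R := by
      rw [mem_ball_zero_iff, pi_norm_lt_iff hR]
      exact hyR
    -- the weight
    have h1 : (sumPow a fun i => f i (c.π y))
        ≤ ENNReal.ofReal (B * Real.exp (-(2 * τ * disc c.k u))) :=
      p1_sumPow_le a ha _ C _ hC τ _ hτ h fun i => hCb i τ hτ y fun j => by
        rw [Pi.zero_apply, sub_zero, neg_mul]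
        exact (hy j).2.le
    have h2 : ENNReal.ofReal (B⁻¹ * Real.exp (2 * τ * disc c.k u)) ≤ Φ (c.π y) := by
      simp only [hΦ]
      rw [ENNReal.rpow_neg_one]
      refine le_trans (le_of_eq ?_) (ENNReal.inv_le_inv.2 h1)
      rw [← ENNReal.ofReal_inv_of_pos (by positivity), mul_inv, Real.exp_neg, inv_inv]
    -- the Jacobian
    have h3 : A * Real.exp (-(τ * ∑ j, u j * c.k j)) ≤ ‖(fderiv ℂ c.π y).det‖ := by
      have hj := c.jac_eq y (hbr hyb)
      rw [cjac] at hj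
      rw [hj, norm_mul, norm_prod, hA, mul_assoc]
      simp only [norm_pow]
      exact mul_le_mul (hMb () y (ball_subset_closedBall hyb)).1
        (p1_mono_ge c.k u y R τ hR fun j => (hy j).1) (by positivity) (norm_nonneg _)
    have h4 : ENNReal.ofReal (A ^ 2 * Real.exp (-(2 * τ * ∑ j, u j * c.k j)))
        ≤ ‖(fderiv ℂ c.π y).det‖ₑ ^ 2 := by
      rw [← ofReal_norm, ← ENNReal.ofReal_pow (norm_nonneg _)]
      refine ENNReal.ofReal_le_ofReal ?_
      calc A ^ 2 * Real.exp (-(2 * τ * ∑ j, u j * c.k j))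
          = (A * Real.exp (-(τ * ∑ j, u j * c.k j))) ^ 2 := by
            rw [mul_pow A, ← Real.exp_nat_mul]
            congr 2
            push_cast
            ring
        _ ≤ _ := pow_le_pow_left₀ (by positivity) h3 2
    refine le_trans (le_of_eq ?_) (mul_le_mul' h4 h2)
    rw [← ENNReal.ofReal_mul (by positivity)]
    congr 1
    have hdisc : disc c.k u = ∑ j, u j + ∑ j, u j * c.k j := by
      unfold disc
      rw [← Finset.sum_add_distrib]
      exact Finset.sum_congr rfl fun j _ => by ring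
    have hexp : Real.exp (2 * τ * ∑ i, u i)
        = Real.exp (-(2 * τ * ∑ j, u j * c.k j)) * Real.exp (2 * τ * disc c.k u) := by
      rw [← Real.exp_add, hdisc]
      congr 1
      ring
    rw [hexp]
    field_simp
  -- (4) push forward
  obtain ⟨N, Aset, hAm, hAinj, hAcov⟩ := c.inj
  have hpush := r242_lintegral_le_card_image (ball (0 : Cn n) c.r) (ball (0 : Cn n) R) isOpen_ball hbr
    isOpen_ball.measurableSet c.π c.hol Finset.univ Aset hAm hAinj
    (fun y hy hne => by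
      have := hAcov ⟨hbr hy, hne⟩
      simpa using this) Φ
  rw [hup] at hpush
  have hmono : ∫⁻ x in c.π '' ball (0 : Cn n) R, Φ x ≤ ∫⁻ x in ball z ρ, Φ x :=
    lintegral_mono_set (Set.image_subset_iff.2 hRsub)
  by_contra hne
  have hlt : ∫⁻ x in ball z ρ, Φ x < ⊤ := lt_top_iff_ne_top.2 hne
  have : (⊤ : ℝ≥0∞) < ⊤ := lt_of_le_of_lt hpush
    (ENNReal.mul_lt_top (by simp) (lt_of_le_of_lt hmono hlt))
  exact lt_irrefl _ this

end Claimed.Agent.R242
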