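/-
R242 / Loc / Mult  (LOC-C): `lct ≥ 1/mult` and paper Lemma 4.1 (`v(s) ≤ A(v) mult_z(s)`).   Owner: helper73.

PLAN `lct_mult` (no Weierstrass preparation: semicontinuity in one variable + Fubini).  `μ = wOrd 1 (tay z f)` is the multiplicity, a natural number.
 `μ = 0`: `f z ≠ 0`, trivial.  Otherwise the leading form `P_μ` is a nonzero polynomial: choose `v` with `P_μ v ≠ 0`, and (after permuting coordinates) `v_0 ≠ 0`.
 The linear isomorphism `A (t, s) = t v + (0, s)` of `ℂ × ℂ^(n-1)`: `g t s = f (z + A (t, s))` is continuous, holomorphic in `t`, and `g t 0 = t^μ * unit`.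
 `∫_{|t|<R} |g t 0|^(-2a) < ∞` because `a μ < 1` (`r242_howald_units` with `n = 1`).  `semicontinuity` (with `n = 1`, parameter `s`) gives `r, M` with
 `∫_{|t|<r} |g t s|^(-2(a+ε)) ≤ M` for `s` near `0`; `|g| ≤ C` turns the exponent `a+ε` into `a`; Tonelli over a small ball in `s`; linear change of variables.
PLAN `loc_val_le`.  If not, put `α = wOrd u (G.T j s) / disc k u > μ`, `a = 1/α`: `loc_p1` (one function) says that `|hol j s|^(-2a)` is not integrable near `z`, `lct_mult` that it is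
 (`a μ < 1`).  (`u = 0` or `disc = 0`: both sides vanish.)
-/
import Claimed.Agent.R242.Loc.P1
import Claimed.Agent.R242.Loc.Rep
import Claimed.Agent.R242.Loc.MultAux

set_option autoImplicit false

namespace Claimed.Agent.R242

open Metric Filter Topology MeasureTheory

theorem lct_mult {n : ℕ} (z : Cn n) (f : Cn n → ℂ) (r : ℝ) (hr : 0 < r) (hf : DifferentiableOn ℂ f (ball z r))
    (hne : tay z f ≠ 0) (a : ℝ) (ha : 0 < a) (h : a * wOrd (fun _ => 1) (tay z f) < 1) :
    ∃ ρ > 0, ∫⁻ x in ball z ρ, (sumPow (fun _ : Unit => a) fun _ => f x) ^ (-1 : ℝ) < ⊤ :=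
  loc_lct_mult z f r hr hf hne a ha h

variable {K : Type*} [Field K] [Algebra ℂ K] {S : SecRing K} {n : ℕ} (L : LocReal S n)

/-- the weighted order for the weight `0` vanishes -/
theorem loc_wOrd_zero {n : ℕ} (f : MvPowerSeries (Fin n) ℂ) : wOrd (0 : Fin n → ℝ) f = 0 := by
  unfold wOrd
  rcases Set.eq_empty_or_nonempty {γ | MvPowerSeries.coeff γ f ≠ 0} with h | h
  · rw [h, Set.image_empty, Real.sInf_empty]
  · have : wdeg (0 : Fin n → ℝ) '' {γ | MvPowerSeries.coeff γ f ≠ 0} = {0} := by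
      ext x
      constructor
      · rintro ⟨γ, -, rfl⟩
        simp [wdeg]
      · rintro rfl
        obtain ⟨γ, hγ⟩ := h
        exact ⟨γ, hγ, by simp [wdeg]⟩
    rw [this, csInf_singleton]

theorem loc_disc_nonneg {n : ℕ} (k : Fin n → ℕ) {u : Fin n → ℝ} (hu : ∀ i, 0 ≤ u i) : 0 ≤ disc k u :=
  Finset.sum_nonneg fun i _ => mul_nonneg (hu i) (by positivity)

theorem loc_disc_pos {n : ℕ} (k : Fin n → ℕ) {u : Fin n → ℝ} (hu : ∀ i, 0 ≤ u i) (hu0 : u ≠ 0) :
    0 < disc k u := by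
  obtain ⟨i, hi⟩ := Function.ne_iff.1 hu0
  have hi' : 0 < u i := lt_of_le_of_ne (hu i) (Ne.symm hi)
  exact Finset.sum_pos' (fun i _ => mul_nonneg (hu i) (by positivity))
    ⟨i, Finset.mem_univ i, mul_pos hi' (by positivity)⟩

/-- field `val_le` -/
theorem loc_val_le (z : L.Pt) (G : GChart S n) (k : Fin n → ℕ) (u : Fin n → ℝ) (hTC : L.TC z G k) (hu : ∀ i, 0 ≤ u i)
    (j : ℕ) (s : K) (hs : s ∈ S.R j) (hs0 : s ≠ 0) :
    wOrd u (G.T j s) ≤ disc k u * wOrd (fun _ => 1) ((L.chart z).T j s) := by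
  obtain ⟨c, rfl, hRep⟩ := hTC
  have hμ : 0 ≤ wOrd (fun _ => 1) ((L.chart z).T j s) := wOrd_nonneg (fun _ => zero_le_one) _
  by_cases hu0 : u = 0
  · subst hu0
    rw [loc_wOrd_zero]
    exact mul_nonneg (loc_disc_nonneg _ hu) hμ
  have hA : 0 < disc c.k u := loc_disc_pos _ hu hu0
  by_contra hcon
  push Not at hcon
  have hv : 0 < wOrd u (G.T j s) := lt_of_le_of_lt (mul_nonneg hA.le hμ) hcon
  have hne : tay (z : Cn n) (L.hol j s) ≠ 0 := by
    rw [← L.chart_T z j s hs]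
    exact fun h => hs0 ((L.chart z).inj j s hs h)
  have hz : ‖(z : Cn n)‖ < L.r₀ := mem_ball_zero_iff.1 z.2
  have hsub : ball (z : Cn n) (L.r₀ - ‖(z : Cn n)‖) ⊆ ball 0 L.r₀ := by
    apply ball_subset_ball'
    rw [dist_zero_right]
    linarith
  obtain ⟨ρ, hρ, hfin⟩ := lct_mult (z : Cn n) (L.hol j s) (L.r₀ - ‖(z : Cn n)‖) (by linarith)
    ((L.hol_diff j s hs).mono hsub) hne (disc c.k u / wOrd u (G.T j s)) (div_pos hA hv) (by
      rw [← L.chart_T z j s hs, div_mul_eq_mul_div, div_lt_one hv]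
      exact hcon)
  have htop := loc_p1 (D := L.D) isOpen_ball c u hu hu0 (fun _ : Unit => L.hol j s)
    (fun _ => L.hol_diff j s hs) (fun _ => disc c.k u / wOrd u (G.T j s)) (fun _ => div_pos hA hv)
    (fun _ => by
      rw [← hRep j s hs, div_mul_cancel₀ _ hv.ne']) ρ hρ
  rw [htop] at hfin
  exact lt_irrefl _ hfin

end Claimed.Agent.R242
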