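/-
R242 / Loc / RL  (LOC-E): clause (RL) of the contract = (P1) + semicontinuity (SC) + (P2).     Owner: helper73.

PLAN.  Index set `ι = {i // 0 < α i}`, `a i = 1/α i`.  Parameter space `P = Matrix × ↥(ball (0 : Cn n) (r₀/2))`, `R = r₀/2`,
 `g i y (U', z') = ∑ j, U' i j * L.hol m (e j) (z' + y)`: continuous on `ball 0 R ×ˢ univ`, holomorphic in `y`.
 (1) for each `l`: `L.TC (z l) (Gs l) (ks l)` gives a chart `c`; `Rep` rewrites the hypothesis as `α i * disc c.k (us l) ≤ wOrd (us l) (tay 0 (f_i ∘ c.π))`, `f_i = L.hol m (∑ j, Us l i j • e j)`;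
     `loc_p1`: `∫ ball (z l) ρ, (sumPow a f)^(-1) = ⊤` for all `ρ > 0`;  by `hol_add`, `hol_smul` and translation this is `∫ ball 0 ρ, (sumPow a (g · y (Us l, z l)))^(-1) = ⊤` (`ρ` small).
 (2) Suppose `∫ ball 0 R', (sumPow a (g · y (U, 0)))^(-1) < ⊤` for some `0 < R' ≤ R`.  `semicontinuity` (with `c = 1`) gives `ε, r, M` and, for `l` large,
     `∫ ball 0 r, (sumPow ..(Us l, z l))^(-(1+ε)) ≤ M < ⊤`.  As `sumPow ≤ C_l < ⊤` on the ball (continuity on a compact), `G^(-1) ≤ C_l^ε G^(-(1+ε))`: contradiction with (1).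
 (3) so `∫ ball 0 ρ, (sumPow a fun i => L.hol m (s i) x)^(-1) = ⊤` for all `ρ > 0` (`s i = ∑ U i j • e j`); `loc_p2` gives the cell with `α i * disc k u ≤ ow o u i ≤ c * ow o u i`.
-/
import Claimed.Agent.R242.Loc.Cell
import Claimed.Agent.R242.Loc.P1
import Claimed.Agent.R242.SCV.ScDefs

set_option autoImplicit false

namespace Claimed.Agent.R242

open Metric Filter Topology MeasureTheory
open scoped ENNReal

variable {K : Type*} [Field K] [Algebra ℂ K] {S : SecRing K} {n : ℕ} {L : LocReal S n} {m : ℕ} {s : Fin (S.N m) → K}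

/-- `hol` is linear on the polydisc -/
theorem loc_hol_sum (L : LocReal S n) (j : ℕ) {κ : Type*} (t : Finset κ) (c : κ → ℂ) (v : κ → K)
    (hv : ∀ k ∈ t, v k ∈ S.R j) (x : Cn n) (hx : x ∈ ball (0 : Cn n) L.r₀) :
    L.hol j (∑ k ∈ t, c k • v k) x = ∑ k ∈ t, c k * L.hol j (v k) x := by
  classical
  induction t using Finset.induction_on with
  | empty =>
    have h := L.hol_smul j 0 0 (S.R j).zero_mem x hx
    simpa using h
  | insert k t hk ih =>
    rw [Finset.sum_insert hk, Finset.sum_insert hk,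
      L.hol_add j _ _ ((S.R j).smul_mem _ (hv k (Finset.mem_insert_self _ _)))
        ((S.R j).sum_mem fun k' hk' => (S.R j).smul_mem _ (hv k' (Finset.mem_insert_of_mem hk'))) x hx,
      L.hol_smul j _ _ (hv k (Finset.mem_insert_self _ _)) x hx,
      ih fun k' hk' => hv k' (Finset.mem_insert_of_mem hk')]

theorem loc_RL (F : CellFam L m s) (hs : S.IsBasis m s) : RLClause L m s F.data := by
  intro e U he hsU z Us Gs ks us α c hz hUs hTC hus hus0 hα hα0 hord hc
  set a : {i // 0 < α i} → ℝ := fun i => 1 / α i with ha_def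
  have ha : ∀ i, 0 < a i := fun i => by have := i.2; simp only [ha_def]; positivity
  set R : ℝ := L.r₀ / 2 with hRdef
  have hR : 0 < R := by have := L.r₀_pos; positivity
  -- the parameter space and the family
  let P := Matrix (Fin (S.N m)) (Fin (S.N m)) ℂ × ↥(ball (0 : Cn n) R)
  let g : {i // 0 < α i} → Cn n → P → ℂ := fun i y p =>
    ∑ j, p.1 i j * L.hol m (e j) ((p.2 : Cn n) + y)
  have hmem : ∀ y ∈ ball (0 : Cn n) R, ∀ w : ↥(ball (0 : Cn n) R), (w : Cn n) + y ∈ ball (0 : Cn n) L.r₀ := by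
    intro y hy w
    have h1 := mem_ball_zero_iff.1 hy
    have h2 := mem_ball_zero_iff.1 w.2
    rw [mem_ball_zero_iff]
    calc ‖(w : Cn n) + y‖ ≤ ‖(w : Cn n)‖ + ‖y‖ := norm_add_le _ _
      _ < R + R := add_lt_add h2 h1
      _ = L.r₀ := by rw [hRdef]; ring
  have hgc : ∀ i, ContinuousOn (fun q : Cn n × P => g i q.1 q.2) (ball 0 R ×ˢ Set.univ) := by
    intro i
    refine continuousOn_finsetSum _ fun j _ => ContinuousOn.mul ?_ ?_
    · have : Continuous fun q : Cn n × P => q.2.1 i j :=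
        (continuous_fst.comp continuous_snd).matrix_elem (i : Fin (S.N m)) j
      exact this.continuousOn
    · have h1 : ContinuousOn (fun q : Cn n × P => ((q.2.2 : Cn n) + q.1)) (ball 0 R ×ˢ Set.univ) := by
        have : Continuous fun q : Cn n × P => ((q.2.2 : Cn n) + q.1) :=
          (continuous_subtype_val.comp (continuous_snd.comp continuous_snd)).add continuous_fst
        exact this.continuousOn
      exact (L.hol_diff m (e j) (he.1 j)).continuousOn.comp h1 fun q hq => hmem q.1 hq.1 q.2.2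
  have hgh : ∀ i p, DifferentiableOn ℂ (fun y => g i y p) (ball 0 R) := by
    intro i p
    refine DifferentiableOn.fun_sum fun j _ => DifferentiableOn.const_mul ?_ _
    have h1 : DifferentiableOn ℂ (fun y : Cn n => (p.2 : Cn n) + y) (ball 0 R) := by fun_prop
    exact (L.hol_diff m (e j) (he.1 j)).comp h1 fun y hy => hmem y hy p.2
  let p₀ : P := (U, ⟨0, mem_ball_self hR⟩)
  -- (1) divergence at the points `z l`
  have hdivl : ∀ l, (z l : Cn n) ∈ ball (0 : Cn n) R → ∀ w : ↥(ball (0 : Cn n) R), (w : Cn n) = z l →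
      ∀ ρ > 0, ρ ≤ R → ∫⁻ y in ball (0 : Cn n) ρ, (sumPow a fun i => g i y (Us l, w)) ^ (-1 : ℝ) = ⊤ := by
    intro l _ w hw ρ hρ hρR
    obtain ⟨cl, hck, hrep⟩ := hTC l
    have htm : ∀ i, ∑ j, Us l i j • e j ∈ S.R m := fun i =>
      (S.R m).sum_mem fun j _ => (S.R m).smul_mem _ (he.1 j)
    have h1 := loc_p1 (D := L.D) (show IsOpen (ball (0 : Cn n) L.r₀) from isOpen_ball) cl (us l) (hus l)
      (hus0 l) (fun i : {i // 0 < α i} => L.hol m (∑ j, Us l i j • e j))
      (fun i => L.hol_diff m _ (htm i)) a ha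
      (fun i => by
        have h2 := hord l i
        rw [hrep m _ (htm i), ← hck] at h2
        have hi := i.2
        simp only [ha_def]
        rw [one_div, ← div_eq_inv_mul, le_div_iff₀ hi]
        linarith) ρ hρ
    have h3 := r242_setLIntegral_ball_sub (z l : Cn n) ρ (fun y =>
      (sumPow a fun i => L.hol m (∑ j, Us l i j • e j) (y + (z l : Cn n))) ^ (-1 : ℝ))
    simp only [sub_add_cancel] at h3
    rw [h1] at h3
    rw [h3]
    refine setLIntegral_congr_fun isOpen_ball.measurableSet fun y hy => ?_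
    have hy' : y ∈ ball (0 : Cn n) R := ball_subset_ball hρR hy
    have hyw := hmem y hy' w
    congr 2
    funext i
    simp only [g]
    rw [hw] at hyw ⊢
    rw [add_comm y, loc_hol_sum L m Finset.univ (fun j => Us l i j) e (fun j _ => he.1 j) _ hyw]
  -- (2) semicontinuity
  have hz0 : Tendsto (fun l => (z l : Cn n)) atTop (𝓝 0) :=
    (continuous_subtype_val.tendsto L.x).comp hz
  have hzev : ∀ᶠ l in atTop, (z l : Cn n) ∈ ball (0 : Cn n) R := hz0 (ball_mem_nhds _ hR)
  have hdiv0 : ∀ ρ > 0, ρ ≤ R →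
      ∫⁻ y in ball (0 : Cn n) ρ, (sumPow a fun i => g i y p₀) ^ (-1 : ℝ) = ⊤ := by
    intro ρ hρ hρR
    by_contra hne
    obtain ⟨ε, hε, r, hr, M, hM, hev⟩ := semicontinuity n ρ hρ a ha g
      (fun i => (hgc i).mono (Set.prod_mono (ball_subset_ball hρR) subset_rfl))
      (fun i p => (hgh i p).mono (ball_subset_ball hρR)) 1 one_pos p₀ (lt_top_iff_ne_top.2 hne)
    classical
    let w : ℕ → ↥(ball (0 : Cn n) R) := fun l =>
      if h : (z l : Cn n) ∈ ball (0 : Cn n) R then ⟨z l, h⟩ else ⟨0, mem_ball_self hR⟩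
    have hw : ∀ l, (z l : Cn n) ∈ ball (0 : Cn n) R → (w l : Cn n) = z l := by
      intro l hl
      simp only [w, dif_pos hl]
    have hwt : Tendsto w atTop (𝓝 ⟨0, mem_ball_self hR⟩) := by
      rw [tendsto_subtype_rng]
      refine hz0.congr' ?_
      filter_upwards [hzev] with l hl using (hw l hl).symm
    have hpt : Tendsto (fun l => ((Us l, w l) : P)) atTop (𝓝 p₀) := hUs.prodMk_nhds hwt
    obtain ⟨l, hl1, hl2⟩ := ((hpt.eventually hev).and hzev).exists
    set ρ' : ℝ := min r R with hρ'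
    have hρ'0 : 0 < ρ' := lt_min hr hR
    have htop := hdivl l hl2 (w l) (hw l hl2) ρ' hρ'0 (min_le_right _ _)
    have hfin : ∫⁻ y in ball (0 : Cn n) ρ', (sumPow a fun i => g i y (Us l, w l)) ^ (-1 : ℝ) < ⊤ := by
      calc ∫⁻ y in ball (0 : Cn n) ρ', (sumPow a fun i => g i y (Us l, w l)) ^ (-1 : ℝ)
          ≤ ∫⁻ y in ball (0 : Cn n) ρ', (1 + (sumPow a fun i => g i y (Us l, w l)) ^ (-(1 + ε))) :=
            lintegral_mono fun y => sc_rpow_le_one_add _ 1 (1 + ε) zero_le_one (by linarith)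
        _ = volume (ball (0 : Cn n) ρ')
            + ∫⁻ y in ball (0 : Cn n) ρ', (sumPow a fun i => g i y (Us l, w l)) ^ (-(1 + ε)) := by
            rw [lintegral_add_left measurable_const, lintegral_const,
              Measure.restrict_apply MeasurableSet.univ, Set.univ_inter, one_mul]
        _ ≤ volume (ball (0 : Cn n) ρ')
            + ∫⁻ y in ball (0 : Cn n) r, (sumPow a fun i => g i y (Us l, w l)) ^ (-(1 + ε)) :=
            add_le_add le_rfl (lintegral_mono_set (ball_subset_ball (min_le_left _ _)))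
        _ < ⊤ := ENNReal.add_lt_top.2 ⟨measure_ball_lt_top, lt_of_le_of_lt hl1 hM⟩
    exact hfin.ne htop
  -- (3) Howald on the cells
  have hdiv : ∀ ρ > 0, ∫⁻ x in ball (0 : Cn n) ρ,
      (sumPow (fun i : {i // 0 < α i} => 1 / α i) fun i => L.hol m (s i) x) ^ (-1 : ℝ) = ⊤ := by
    intro ρ hρ
    refine top_le_iff.1 ?_
    rw [← hdiv0 (min ρ R) (lt_min hρ hR) (min_le_right _ _)]
    refine le_trans (le_of_eq ?_) (lintegral_mono_set (ball_subset_ball (min_le_left ρ R)))
    refine setLIntegral_congr_fun isOpen_ball.measurableSet fun y hy => ?_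
    have hy' : y ∈ ball (0 : Cn n) L.r₀ :=
      ball_subset_ball ((min_le_right _ _).trans (by rw [hRdef]; linarith [L.r₀_pos])) hy
    congr 2
    funext i
    simp only [g, p₀, zero_add]
    rw [hsU i, loc_hol_sum L m Finset.univ (fun j => U i j) e (fun j _ => he.1 j) _ hy']
  obtain ⟨G, k, o, u, hmemD, hTCx, hmono, hu, hu0, hineq⟩ := loc_p2 F hs.1 α hα hα0 hdiv
  refine ⟨G, k, o, u, hmemD, hTCx, hmono, hu, hu0, fun i => (hineq i).trans ?_⟩
  have how : 0 ≤ ow o u i := Finset.sum_nonneg fun j _ => mul_nonneg (hu j) (Nat.cast_nonneg _)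
  nlinarith

end Claimed.Agent.R242
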