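/-
R242 / Loc / Main : ASSEMBLY of helper100's contract `Core/Iface.lean` from the packages LOC, ALG (`res_main`, `res_upper`), LM (through `exists_cellFam`) and
LIFT (the two clauses `Lift32Clause`, `LTClause`), and the consequence `loc_main : Gen`.        Owner: helper73.
Everything in this file is proved (glue only).
-/
import Claimed.Agent.R242.Loc.Rep
import Claimed.Agent.R242.Loc.Mult
import Claimed.Agent.R242.Loc.RL
import Claimed.Agent.R242.Loc.Fam
import Claimed.Agent.R242.Loc.Tan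
import Claimed.Agent.R242.Core.S6

set_option autoImplicit false

namespace Claimed.Agent.R242

open Metric Filter Topology

variable {K : Type} [Field K] [Algebra ℂ K] {S : SecRing K} {n : ℕ}

/-- the contract holds for a local realisation, given ALG and LIFT -/
theorem loc_iface_exists (L : LocReal S n) (hn : 1 ≤ n) (mm : ℕ) (hmm : n + 1 ≤ mm) (Gen : Prop)
    (k e₀ b₀ : ℕ) (hk : 1 ≤ k) (hres : ResHyp K S.R k e₀ b₀ n)
    (h32 : Lift32Clause S n (L.chart L.x) Gen)
    (hLT : ∀ (m : ℕ) (s : Fin (S.N m) → K), S.IsBasis m s → ∀ F : CellFam L m s, LTClause L mm Gen m s F.data) :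
    ∃ I : Iface K L.Pt, I.Gen = Gen := by
  obtain ⟨C₁, H₁, h₁⟩ := res_main k e₀ b₀ n hk
  obtain ⟨C₂, H₂, h₂⟩ := res_main k e₀ L.b₀ n hk
  obtain ⟨CN, hCN⟩ := res_upper k e₀ b₀ n hk K S.R hres
  refine ⟨{
    n := n
    hn := hn
    mm := mm
    hmm := hmm
    S := S
    x := L.x
    Gen := Gen
    TC := L.TC
    IsPt := GChart.IsPt
    chart := L.chart
    chart_tc := L.chart_tc
    val_le := fun z G k u hTC hu j s hs hs0 => loc_val_le L z G k u hTC hu j s hs hs0
    Clow := C₁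
    j₁ := H₁
    card_low := fun j hj => h₁ K S.R hres n hn L.k₀ L.σ L.σ_mem (loc_homIndep L) j hj
    CN := CN
    card_up := hCN
    k₀ := L.k₀
    hk₀ := L.hk₀
    jets := loc_jets L
    b₀ := L.b₀
    bpf := loc_bpf L
    lift32 := h32
    Cres := fun _ => C₂
    Hres := fun _ => H₂
    tan := loc_tan L k e₀ b₀ hres C₂ H₂ h₂
    mono := fun m s hs => by
      obtain ⟨F⟩ := exists_cellFam L m s hs
      exact ⟨F.data, loc_RL F hs, hLT m s hs F⟩ }, rfl⟩

/-- **LOC + CORE**: generation at `x` from ALG and LIFT -/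
theorem loc_main (L : LocReal S n) (hn : 1 ≤ n) (mm : ℕ) (hmm : n + 1 ≤ mm) (Gen : Prop)
    (k e₀ b₀ : ℕ) (hk : 1 ≤ k) (hres : ResHyp K S.R k e₀ b₀ n)
    (h32 : Lift32Clause S n (L.chart L.x) Gen)
    (hLT : ∀ (m : ℕ) (s : Fin (S.N m) → K), S.IsBasis m s → ∀ F : CellFam L m s, LTClause L mm Gen m s F.data) :
    Gen := by
  obtain ⟨I, hI⟩ := loc_iface_exists L hn mm hmm Gen k e₀ b₀ hk hres h32 hLT
  exact hI ▸ I.main

end Claimed.Agent.R242
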