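/-
R242 / Loc / TanChart : helper file for `tan_chart` of Loc/Tan.lean (LOC-TAN-CHART, #6148).   Proof: helper62.   Paper free.

 * `loc_cjac_comp`, `loc_cjac_differentiableOn` : chain rule for / holomorphy of the complex Jacobian determinant;
 * `loc_inverse` : the holomorphic inverse function theorem on `Cn n` (local inverse on a ball, with non vanishing Jacobian);
 * `locPsi` : `Ψ y = (y_i (i ∈ σ);  π_{it a}(y) - π_{it a}(ζ) (i = tn a);  y_i - ζ_i (otherwise))`, `loc_cjac_psi_ne`;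
 * `loc_tan_chart_main` : the statement of `tan_chart` (with `jminor` unfolded).
-/
import Claimed.Agent.R242.Loc.Defs
import Claimed.Agent.R242.Tay.Osgood

set_option autoImplicit false

namespace Claimed.Agent.R242

open Metric Filter Topology

variable {n : ℕ}

theorem loc_cjac_comp {f g : Cn n → Cn n} {y : Cn n} (hf : DifferentiableAt ℂ f (g y))
    (hg : DifferentiableAt ℂ g y) : cjac (fun x => f (g x)) y = cjac f (g y) * cjac g y := by
  unfold cjac
  have h := fderiv_comp y hf hg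
  have h2 : fderiv ℂ (fun x => f (g x)) y = (fderiv ℂ f (g y)).comp (fderiv ℂ g y) := h
  rw [h2]
  unfold ContinuousLinearMap.det
  exact LinearMap.det_comp _ _

theorem loc_cjac_eq_det (f : Cn n → Cn n) (y : Cn n) :
    cjac f y = (Matrix.of fun i j => fderiv ℂ f y (Pi.single j 1) i).det := by
  unfold cjac ContinuousLinearMap.det
  rw [← LinearMap.det_toMatrix']
  congr 1

theorem loc_differentiableOn_prod {ι : Type*} (u : Finset ι) {f : ι → Cn n → ℂ} {U : Set (Cn n)}
    (h : ∀ i ∈ u, DifferentiableOn ℂ (f i) U) : DifferentiableOn ℂ (fun y => ∏ i ∈ u, f i y) U := by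
  classical
  induction u using Finset.induction_on with
  | empty => simp
  | insert a s ha ih =>
    simp only [Finset.prod_insert ha]
    exact (h a (Finset.mem_insert_self _ _)).mul (ih fun i hi => h i (Finset.mem_insert_of_mem hi))

theorem loc_cjac_differentiableOn {f : Cn n → Cn n} {U : Set (Cn n)} (hU : IsOpen U)
    (hf : DifferentiableOn ℂ f U) : DifferentiableOn ℂ (cjac f) U := by
  have hA : AnalyticOnNhd ℂ (fderiv ℂ f) U := (tay_osgood_pi hU hf).fderiv
  have hd : DifferentiableOn ℂ (fderiv ℂ f) U := hA.differentiableOn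
  have hent : ∀ i j : Fin n, DifferentiableOn ℂ (fun y => fderiv ℂ f y (Pi.single j 1) i) U := by
    intro i j
    have h1 : DifferentiableOn ℂ (fun y => fderiv ℂ f y (Pi.single j 1)) U :=
      hd.clm_apply (differentiableOn_const _)
    exact differentiableOn_pi.1 h1 i
  have he : cjac f = fun y => (Matrix.of fun i j => fderiv ℂ f y (Pi.single j 1) i).det :=
    funext fun y => loc_cjac_eq_det f y
  rw [he]
  simp only [Matrix.det_apply, Matrix.of_apply]
  refine DifferentiableOn.fun_sum fun τ _ => ?_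
  refine DifferentiableOn.const_smul ?_ _
  exact loc_differentiableOn_prod _ fun i _ => hent (τ i) i

/-- the holomorphic inverse function theorem on `Cn n` -/
theorem loc_inverse {Ψ : Cn n → Cn n} {U : Set (Cn n)} (hU : IsOpen U) (hΨ : DifferentiableOn ℂ Ψ U)
    {ζ : Cn n} (hζ : ζ ∈ U) (hj : cjac Ψ ζ ≠ 0) {W : Set (Cn n)} (hW : W ∈ 𝓝 ζ) :
    ∃ (φ : Cn n → Cn n) (ρ : ℝ), 0 < ρ ∧ DifferentiableOn ℂ φ (ball (Ψ ζ) ρ) ∧ φ (Ψ ζ) = ζ ∧
      ∀ y ∈ ball (Ψ ζ) ρ, φ y ∈ W ∧ φ y ∈ U ∧ Ψ (φ y) = y ∧ cjac φ y ≠ 0 := by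
  have hA : AnalyticAt ℂ Ψ ζ := tay_osgood_pi hU hΨ ζ hζ
  have hC : ContDiffAt ℂ 1 Ψ ζ := hA.contDiffAt
  have hj : (fderiv ℂ Ψ ζ).det ≠ 0 := hj
  have hf' : HasFDerivAt Ψ
      (((fderiv ℂ Ψ ζ).toContinuousLinearEquivOfDetNeZero hj : Cn n ≃L[ℂ] Cn n) : Cn n →L[ℂ] Cn n) ζ := by
    rw [ContinuousLinearMap.coe_toContinuousLinearEquivOfDetNeZero]
    exact hA.differentiableAt.hasFDerivAt
  obtain ⟨e, he⟩ : ∃ e : OpenPartialHomeomorph (Cn n) (Cn n),
      e = hC.toOpenPartialHomeomorph Ψ hf' one_ne_zero := ⟨_, rfl⟩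
  have hecoe : ∀ y, e y = Ψ y := by
    intro y
    rw [he]
    rfl
  have hsrc : ζ ∈ e.source := by
    rw [he]
    exact hC.mem_toOpenPartialHomeomorph_source hf' one_ne_zero
  have htgt : Ψ ζ ∈ e.target := by
    rw [he]
    exact hC.image_mem_toOpenPartialHomeomorph_target hf' one_ne_zero
  have hφC : ContDiffAt ℂ 1 e.symm (Ψ ζ) := by
    rw [he]
    exact hC.to_localInverse hf' one_ne_zero
  have hφζ : e.symm (Ψ ζ) = ζ := by
    rw [← hecoe]
    exact e.left_inv hsrc
  have ev1 : ∀ᶠ y in 𝓝 (Ψ ζ), ContDiffAt ℂ 1 e.symm y := hφC.eventually (by simp)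
  have ev2 : ∀ᶠ y in 𝓝 (Ψ ζ), y ∈ e.target := e.open_target.mem_nhds htgt
  have hcont : ContinuousAt e.symm (Ψ ζ) := hφC.continuousAt
  have ev3 : ∀ᶠ y in 𝓝 (Ψ ζ), e.symm y ∈ W ∩ U := by
    apply hcont.eventually
    rw [hφζ]
    exact Filter.inter_mem hW (hU.mem_nhds hζ)
  obtain ⟨ρ, hρ, hball⟩ := Metric.eventually_nhds_iff_ball.1 (ev1.and (ev2.and ev3))
  refine ⟨e.symm, ρ, hρ, ?_, hφζ, ?_⟩
  · intro y hy
    exact ((hball y hy).1.differentiableAt one_ne_zero).differentiableWithinAt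
  · intro y hy
    obtain ⟨h1, h2, h3, h4⟩ := hball y hy
    have hinv : Ψ (e.symm y) = y := by
      rw [← hecoe]
      exact e.right_inv h2
    refine ⟨h3, h4, hinv, ?_⟩
    have hd1 : DifferentiableAt ℂ e.symm y := h1.differentiableAt one_ne_zero
    have hd2 : DifferentiableAt ℂ Ψ (e.symm y) := (hΨ _ h4).differentiableAt (hU.mem_nhds h4)
    have hcomp := loc_cjac_comp hd2 hd1
    have hid : (fun x => Ψ (e.symm x)) =ᶠ[𝓝 y] fun x => x := by
      filter_upwards [e.open_target.mem_nhds h2] with x hx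
      rw [← hecoe]
      exact e.right_inv hx
    have h5 : cjac (fun x => Ψ (e.symm x)) y = 1 := by
      unfold cjac
      rw [hid.fderiv_eq]
      have : fderiv ℂ (fun x : Cn n => x) y = ContinuousLinearMap.id ℂ (Cn n) := fderiv_fun_id
      rw [this]
      unfold ContinuousLinearMap.det
      simp
    rw [h5] at hcomp
    intro h0
    rw [h0, mul_zero] at hcomp
    exact one_ne_zero hcomp

/-! ### the map `Ψ` -/

open Classical in
/-- `Ψ y = (y_i (i ∈ σ);  π_{it a}(y) - π_{it a}(ζ) (i = tn a);  y_i - ζ_i (otherwise))` -/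
noncomputable def locPsi (π : Cn n → Cn n) (σ : Finset (Fin n)) {d : ℕ} (tn it : Fin d → Fin n) (ζ : Cn n)
    (y : Cn n) : Cn n :=
  fun i => if i ∈ σ then y i else
    if h : ∃ a, tn a = i then π y (it h.choose) - π ζ (it h.choose) else y i - ζ i

section Psi

variable (π : Cn n → Cn n) (σ : Finset (Fin n)) {d : ℕ} (tn it : Fin d → Fin n) (ζ : Cn n)

theorem locPsi_of_mem {i : Fin n} (hi : i ∈ σ) (y : Cn n) : locPsi π σ tn it ζ y i = y i := by
  unfold locPsi
  rw [if_pos hi]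

theorem locPsi_tn (htn : Function.Injective tn) (htσ : ∀ a, tn a ∉ σ) (a : Fin d) (y : Cn n) :
    locPsi π σ tn it ζ y (tn a) = π y (it a) - π ζ (it a) := by
  unfold locPsi
  have h : ∃ b, tn b = tn a := ⟨a, rfl⟩
  rw [if_neg (htσ a), dif_pos h, htn h.choose_spec]

theorem locPsi_other {i : Fin n} (hi : i ∉ σ) (hi' : i ∉ Set.range tn) (y : Cn n) :
    locPsi π σ tn it ζ y i = y i - ζ i := by
  unfold locPsi
  have h : ¬ ∃ a, tn a = i := fun h => hi' h
  rw [if_neg hi, dif_neg h]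

theorem locPsi_center (htn : Function.Injective tn) (htσ : ∀ a, tn a ∉ σ) (hζσ : ∀ i ∈ σ, ζ i = 0) :
    locPsi π σ tn it ζ ζ = 0 := by
  funext i
  by_cases hi : i ∈ σ
  · rw [locPsi_of_mem π σ tn it ζ hi, hζσ i hi]
    rfl
  by_cases hi' : i ∈ Set.range tn
  · obtain ⟨a, rfl⟩ := hi'
    rw [locPsi_tn π σ tn it ζ htn htσ]
    simp
  · rw [locPsi_other π σ tn it ζ hi hi']
    simp

theorem locPsi_differentiableOn (htn : Function.Injective tn) (htσ : ∀ a, tn a ∉ σ) {U : Set (Cn n)}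
    (hπ : DifferentiableOn ℂ π U) : DifferentiableOn ℂ (locPsi π σ tn it ζ) U := by
  rw [differentiableOn_pi]
  intro i
  by_cases hi : i ∈ σ
  · have : (fun y => locPsi π σ tn it ζ y i) = fun y => y i :=
      funext fun y => locPsi_of_mem π σ tn it ζ hi y
    rw [this]
    exact (differentiable_apply i).differentiableOn
  by_cases hi' : i ∈ Set.range tn
  · obtain ⟨a, rfl⟩ := hi'
    have : (fun y => locPsi π σ tn it ζ y (tn a)) = fun y => π y (it a) - π ζ (it a) :=
      funext fun y => locPsi_tn π σ tn it ζ htn htσ a y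
    rw [this]
    exact (differentiableOn_pi.1 hπ (it a)).sub_const _
  · have : (fun y => locPsi π σ tn it ζ y i) = fun y => y i - ζ i :=
      funext fun y => locPsi_other π σ tn it ζ hi hi' y
    rw [this]
    exact ((differentiable_apply i).sub_const _).differentiableOn

end Psi

theorem loc_clm_apply_eq_sum (L : Cn n →L[ℂ] ℂ) (v : Cn n) : L v = ∑ j, v j * L (Pi.single j 1) := by
  have hv : v = ∑ j, v j • (Pi.single j (1 : ℂ) : Cn n) := by
    funext i
    simp [Finset.sum_apply, Pi.single_apply]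
  calc L v = L (∑ j, v j • (Pi.single j (1 : ℂ) : Cn n)) := by rw [← hv]
    _ = ∑ j, v j * L (Pi.single j 1) := by
        rw [map_sum]
        simp

theorem loc_cjac_psi_ne (π : Cn n → Cn n) (σ : Finset (Fin n)) {d : ℕ} (tn it : Fin d → Fin n) (ζ : Cn n)
    (htn : Function.Injective tn) (htσ : ∀ a, tn a ∉ σ) {U : Set (Cn n)} (hU : IsOpen U)
    (hπ : DifferentiableOn ℂ π U) (hζ : ζ ∈ U)
    (hmin : (Matrix.of fun a b => pd (tn b) (fun y' => π y' (it a)) ζ).det ≠ 0) :
    cjac (locPsi π σ tn it ζ) ζ ≠ 0 := by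
  have hΨ : DifferentiableAt ℂ (locPsi π σ tn it ζ) ζ :=
    (locPsi_differentiableOn π σ tn it ζ htn htσ hπ ζ hζ).differentiableAt (hU.mem_nhds hζ)
  intro h0
  have hker := LinearMap.bot_lt_ker_of_det_eq_zero
    (f := ((fderiv ℂ (locPsi π σ tn it ζ) ζ : Cn n →L[ℂ] Cn n) : Cn n →ₗ[ℂ] Cn n)) h0
  obtain ⟨v, hv, hv0⟩ := SetLike.exists_of_lt hker
  apply hv0
  have hv' : fderiv ℂ (locPsi π σ tn it ζ) ζ v = 0 := hv
  have hcoord : ∀ i, fderiv ℂ (fun y => locPsi π σ tn it ζ y i) ζ v = 0 := by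
    intro i
    have h1 := (hasFDerivAt_pi'.1 hΨ.hasFDerivAt i).fderiv
    rw [h1]
    simp [hv']
  -- the coordinates outside `range tn` vanish
  have hout : ∀ i, i ∉ Set.range tn → v i = 0 := by
    intro i hi'
    have h1 := hcoord i
    by_cases hi : i ∈ σ
    · have : (fun y => locPsi π σ tn it ζ y i) = fun y => y i :=
        funext fun y => locPsi_of_mem π σ tn it ζ hi y
      rw [this, (hasFDerivAt_apply i ζ).fderiv] at h1
      simpa using h1
    · have : (fun y => locPsi π σ tn it ζ y i) = fun y => y i - ζ i :=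
        funext fun y => locPsi_other π σ tn it ζ hi hi' y
      rw [this, ((hasFDerivAt_apply i ζ).sub_const (ζ i)).fderiv] at h1
      simpa using h1
  -- the tangential coordinates
  have htan : (Matrix.of fun a b => pd (tn b) (fun y' => π y' (it a)) ζ).mulVec (fun b => v (tn b)) = 0 := by
    funext a
    have h1 := hcoord (tn a)
    have : (fun y => locPsi π σ tn it ζ y (tn a)) = fun y => π y (it a) - π ζ (it a) :=
      funext fun y => locPsi_tn π σ tn it ζ htn htσ a y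
    rw [this, fderiv_sub_const, loc_clm_apply_eq_sum] at h1
    rw [Matrix.mulVec, dotProduct]
    simp only [Matrix.of_apply, Pi.zero_apply]
    rw [← h1]
    refine Finset.sum_of_injOn tn htn.injOn (fun _ _ => Finset.mem_coe.2 (Finset.mem_univ _)) ?_ ?_
    · intro j _ hj
      rw [hout j (fun ⟨b, hb⟩ => hj ⟨b, Finset.mem_coe.2 (Finset.mem_univ _), hb⟩), zero_mul]
    · intro b _
      unfold pd
      ring
  have hw := Matrix.eq_zero_of_mulVec_eq_zero hmin htan
  rw [Submodule.mem_bot]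
  funext i
  by_cases hi' : i ∈ Set.range tn
  · obtain ⟨a, rfl⟩ := hi'
    exact congrFun hw a
  · exact hout i hi'

/-- preimages of measurable sets under a map which is continuous on an open set -/
theorem loc_measurableSet_preimage_inter {φ : Cn n → Cn n} {B : Set (Cn n)} (hB : IsOpen B)
    (hφ : ContinuousOn φ B) {A : Set (Cn n)} (hA : MeasurableSet A) : MeasurableSet (φ ⁻¹' A ∩ B) := by
  classical
  have hm : Measurable (B.piecewise φ (fun _ => (0 : Cn n))) :=
    hφ.measurable_piecewise continuousOn_const hB.measurableSet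
  have he : φ ⁻¹' A ∩ B = (B.piecewise φ (fun _ => (0 : Cn n))) ⁻¹' A ∩ B := by
    ext y
    constructor
    · rintro ⟨h1, h2⟩
      refine ⟨?_, h2⟩
      rw [Set.mem_preimage, Set.piecewise_eq_of_mem _ _ _ h2]
      exact h1
    · rintro ⟨h1, h2⟩
      refine ⟨?_, h2⟩
      rw [Set.mem_preimage, Set.piecewise_eq_of_mem _ _ _ h2] at h1
      exact h1
  rw [he]
  exact (hm hA).inter hB.measurableSet

/-- the statement of `tan_chart` (Loc/Tan.lean), with `jminor` unfolded -/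
theorem loc_tan_chart_main {D : Set (Cn n)} {z : Cn n} (c : MChart n D z) (σ : Finset (Fin n)) {d : ℕ}
    (tn it : Fin d → Fin n) (htn : Function.Injective tn) (htσ : ∀ a, tn a ∉ σ) (ζ : Cn n)
    (hζ : ζ ∈ ball (0 : Cn n) c.r) (hζσ : ∀ i ∈ σ, ζ i = 0) (hζn : ∀ i, i ∉ σ → ζ i ≠ 0)
    (hmin : (Matrix.of fun a b => pd (tn b) (fun y' => c.π y' (it a)) ζ).det ≠ 0) :
    ∃ (c' : MChart n D (c.π ζ)) (φ : Cn n → Cn n), DifferentiableOn ℂ φ (ball 0 c'.r) ∧
      Set.MapsTo φ (ball 0 c'.r) (ball 0 c.r) ∧ φ 0 = ζ ∧ cjac φ 0 ≠ 0 ∧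
      (∀ y ∈ ball (0 : Cn n) c'.r, c'.π y = c.π (φ y)) ∧
      (∀ y ∈ ball (0 : Cn n) c'.r, ∀ i ∈ σ, φ y i = y i) ∧
      (∀ y ∈ ball (0 : Cn n) c'.r, ∀ a, c.π (φ y) (it a) - c.π ζ (it a) = y (tn a)) ∧
      (∀ y ∈ ball (0 : Cn n) c'.r, ∀ i, i ∉ σ → i ∉ Set.range tn → φ y i = ζ i + y i) ∧
      (∀ i ∈ σ, c'.k i = c.k i) ∧ (∀ i, i ∉ σ → c'.k i = 0) := by
  classical
  have hW : {y : Cn n | ∀ i, i ∉ σ → y i ≠ 0} ∈ 𝓝 ζ := by
    have : ∀ᶠ y in 𝓝 ζ, ∀ i, i ∉ σ → y i ≠ 0 := by
      rw [Filter.eventually_all]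
      intro i
      by_cases hi : i ∈ σ
      · exact Filter.Eventually.of_forall fun y h => absurd hi h
      · filter_upwards [(continuous_apply i).continuousAt.eventually_ne (hζn i hi)] with y hy _
        exact hy
    exact this
  obtain ⟨φ, ρ, hρ, hφd, hφ0, hφ⟩ := loc_inverse isOpen_ball
    (locPsi_differentiableOn c.π σ tn it ζ htn htσ c.hol) hζ
    (loc_cjac_psi_ne c.π σ tn it ζ htn htσ isOpen_ball c.hol hζ hmin) hW
  rw [locPsi_center c.π σ tn it ζ htn htσ hζσ] at hφd hφ0 hφ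
  have hmaps : Set.MapsTo φ (ball 0 ρ) (ball 0 c.r) := fun y hy => (hφ y hy).2.1
  have hφat : ∀ y ∈ ball (0 : Cn n) ρ, DifferentiableAt ℂ φ y := fun y hy =>
    (hφd y hy).differentiableAt (isOpen_ball.mem_nhds hy)
  have hπat : ∀ y ∈ ball (0 : Cn n) ρ, DifferentiableAt ℂ c.π (φ y) := fun y hy =>
    (c.hol _ (hmaps hy)).differentiableAt (isOpen_ball.mem_nhds (hmaps hy))
  have hσ : ∀ y ∈ ball (0 : Cn n) ρ, ∀ i ∈ σ, φ y i = y i := by
    intro y hy i hi
    have h1 := congrFun (hφ y hy).2.2.1 i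
    rwa [locPsi_of_mem c.π σ tn it ζ hi] at h1
  have htan : ∀ y ∈ ball (0 : Cn n) ρ, ∀ a, c.π (φ y) (it a) - c.π ζ (it a) = y (tn a) := by
    intro y hy a
    have h1 := congrFun (hφ y hy).2.2.1 (tn a)
    rwa [locPsi_tn c.π σ tn it ζ htn htσ] at h1
  have hoth : ∀ y ∈ ball (0 : Cn n) ρ, ∀ i, i ∉ σ → i ∉ Set.range tn → φ y i = ζ i + y i := by
    intro y hy i hi hi'
    have h1 := congrFun (hφ y hy).2.2.1 i
    rw [locPsi_other c.π σ tn it ζ hi hi'] at h1
    rw [← h1]
    ring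
  have hinj : Set.InjOn φ (ball 0 ρ) := by
    intro y hy y' hy' h
    rw [← (hφ y hy).2.2.1, ← (hφ y' hy').2.2.1, h]
  have hjac : ∀ y ∈ ball (0 : Cn n) ρ, cjac (fun y => c.π (φ y)) y = cjac c.π (φ y) * cjac φ y :=
    fun y hy => loc_cjac_comp (hπat y hy) (hφat y hy)
  obtain ⟨N, A, hAm, hAi, hAc⟩ := c.inj
  refine ⟨{ r := ρ
            r_pos := hρ
            π := fun y => c.π (φ y)
            hol := c.hol.comp hφd hmaps
            maps := fun y hy => c.maps (hmaps hy)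
            center := by rw [hφ0]
            k := fun i => if i ∈ σ then c.k i else 0
            unit := fun y => c.unit (φ y) * (∏ j, if j ∈ σ then 1 else (φ y j) ^ c.k j) * cjac φ y
            unit_hol := ?_
            unit_ne := ?_
            jac_eq := ?_
            inj := ⟨N, fun i => φ ⁻¹' (A i) ∩ ball 0 ρ, ?_, ?_, ?_⟩ }, φ, hφd, hmaps, hφ0,
          (hφ 0 (mem_ball_self hρ)).2.2.2, fun _ _ => rfl, hσ, htan, hoth, ?_, ?_⟩
  · refine ((c.unit_hol.comp hφd hmaps).mul ?_).mul (loc_cjac_differentiableOn isOpen_ball hφd)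
    refine loc_differentiableOn_prod _ fun j _ => ?_
    by_cases hj : j ∈ σ
    · simp only [if_pos hj]
      exact differentiableOn_const _
    · simp only [if_neg hj]
      exact (differentiableOn_pi.1 hφd j).pow _
  · intro y hy
    refine mul_ne_zero (mul_ne_zero (c.unit_ne _ (hmaps hy)) ?_) (hφ y hy).2.2.2
    refine Finset.prod_ne_zero_iff.2 fun j _ => ?_
    by_cases hj : j ∈ σ
    · rw [if_pos hj]
      exact one_ne_zero
    · rw [if_neg hj]
      exact pow_ne_zero _ ((hφ y hy).1 j hj)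
  · intro y hy
    rw [hjac y hy, c.jac_eq _ (hmaps hy)]
    have hprod : ∏ j, φ y j ^ c.k j
        = (∏ j, if j ∈ σ then 1 else (φ y j) ^ c.k j) * ∏ j, y j ^ (if j ∈ σ then c.k j else 0) := by
      rw [← Finset.prod_mul_distrib]
      refine Finset.prod_congr rfl fun j _ => ?_
      by_cases hj : j ∈ σ
      · rw [if_pos hj, if_pos hj, hσ y hy j hj, one_mul]
      · rw [if_neg hj, if_neg hj, pow_zero, mul_one]
    rw [hprod]
    ring
  · intro i
    exact loc_measurableSet_preimage_inter isOpen_ball hφd.continuousOn (hAm i)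
  · intro i y hy y' hy' h
    exact hinj hy.2 hy'.2 (hAi i hy.1 hy'.1 h)
  · rintro y ⟨hy, hne⟩
    rw [hjac y hy] at hne
    have h1 : φ y ∈ ⋃ i, A i := hAc ⟨hmaps hy, left_ne_zero_of_mul hne⟩
    obtain ⟨i, hi⟩ := Set.mem_iUnion.1 h1
    exact Set.mem_iUnion.2 ⟨i, hi, hy⟩
  · intro i hi
    exact if_pos hi
  · intro i hi
    exact if_neg hi

end Claimed.Agent.R242
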