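/-
R242 / Loc / TanW  (LOC-TAN-WORD, helper188): proof of `tan_wOrd` (paper Lemma 2.1) by SCALING LIMITS; no partial Taylor expansions.

 * `LocwConv A ρ` : the power series `A` converges (unconditionally = absolutely) at every point of the polydisc `ball 0 ρ`; `locwEval A w` its sum.
 * `locwSc u τ w = (e^{-τ u_i} w_i)_i`;  `tayMono γ (locwSc u τ w) = e^{-τ <u,γ>} tayMono γ w`.
 * `locwLead u m A` : the part of `A` of weight exactly `m`.
 * `locw_scaling_limit` : if `m ≤ <u,γ>` on the support of `A` and `w τ → w0` in the polydisc, then `e^{τ m} A(locwSc u τ (w τ)) → (locwLead u m A)(w0)`  (Tannery).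
 * `locw_eval_differentiableOn` : the sum of a convergent power series is holomorphic on the polydisc.
 * `locw_series_zero_of_ball`, `locw_series_zero_of_open` : a convergent power series whose sum vanishes on a nonempty open subset of the polydisc is `0`
   (two scaling limits isolate one monomial: total degree, then the integral weight `lex_weight`).
 * `locw_tan_wOrd` : with `G = F ∘ φ`, `m = wOrd u (tay 0 F)`:  `e^{τ m} G(locwSc u τ y) → F_m(Φ₀ y)`, `Φ₀ y = (y_σ, φ'(0_σ, y'))` is open at `0` (inverse function theorem), so the limit is not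
   identically `0`; comparison with the scaling limit of the Taylor series of `G`.
 TAY facts used: `tay_hasSum` (the Taylor series at the centre converges to `f` on the whole polydisc), `tay_osgood`, Tay/Mono.
-/
import Claimed.Agent.R242.Loc.Rep
import Claimed.Agent.R242.Tay.Basic
import Claimed.Agent.R242.Tay.Osgood

set_option autoImplicit false

namespace Claimed.Agent.R242

open Metric Filter Topology

variable {n : ℕ}

/-- TAY fact (`tay_hasSum`, helper233): the Taylor series at the centre converges to `f` on the whole polydisc. -/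
theorem tayw_hasSum {f : Cn n → ℂ} {r : ℝ} (hf : DifferentiableOn ℂ f (ball 0 r)) {w : Cn n}
    (hw : w ∈ ball (0 : Cn n) r) :
    HasSum (fun γ : Fin n →₀ ℕ => MvPowerSeries.coeff γ (tay 0 f) * tayMono γ w) (f w) := by
  have h := tay_hasSum hf hw
  simpa only [sub_zero] using h

/-! ### convergent power series, scaling -/

/-- the power series `A` converges at every point of the polydisc `ball 0 ρ` -/
def LocwConv (A : MvPowerSeries (Fin n) ℂ) (ρ : ℝ) : Prop :=
  ∀ w ∈ ball (0 : Cn n) ρ, Summable fun γ : Fin n →₀ ℕ => MvPowerSeries.coeff γ A * tayMono γ w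

/-- the sum of the power series `A` at `w` -/
noncomputable def locwEval (A : MvPowerSeries (Fin n) ℂ) (w : Cn n) : ℂ :=
  ∑' γ : Fin n →₀ ℕ, MvPowerSeries.coeff γ A * tayMono γ w

/-- the scaling `w_i ↦ e^{-τ u_i} w_i` -/
noncomputable def locwSc (u : Fin n → ℝ) (τ : ℝ) (w : Cn n) : Cn n :=
  fun i => (Real.exp (-(τ * u i)) : ℂ) * w i

open Classical in
/-- the part of weight `m` -/
noncomputable def locwLead (u : Fin n → ℝ) (m : ℝ) (A : MvPowerSeries (Fin n) ℂ) :
    MvPowerSeries (Fin n) ℂ :=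
  fun γ => if wdeg u γ = m then MvPowerSeries.coeff γ A else 0

open Classical in
theorem locw_coeff_lead (u : Fin n → ℝ) (m : ℝ) (A : MvPowerSeries (Fin n) ℂ) (γ : Fin n →₀ ℕ) :
    MvPowerSeries.coeff γ (locwLead u m A) = if wdeg u γ = m then MvPowerSeries.coeff γ A else 0 :=
  rfl

theorem locw_tayMono_sc (u : Fin n → ℝ) (τ : ℝ) (γ : Fin n →₀ ℕ) (w : Cn n) :
    tayMono γ (locwSc u τ w) = (Real.exp (-(τ * wdeg u γ)) : ℂ) * tayMono γ w := by
  unfold tayMono locwSc wdeg
  simp only [mul_pow]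
  rw [Finset.prod_mul_distrib]
  congr 1
  rw [Finset.mul_sum, ← Finset.sum_neg_distrib, Real.exp_sum, Complex.ofReal_prod]
  refine Finset.prod_congr rfl fun i _ => ?_
  rw [← Complex.ofReal_pow, ← Real.exp_nat_mul]
  congr 2
  ring

theorem locw_norm_sc_le {u : Fin n → ℝ} (hu : ∀ i, 0 ≤ u i) {τ : ℝ} (hτ : 0 ≤ τ) (w : Cn n) :
    ‖locwSc u τ w‖ ≤ ‖w‖ := by
  rw [pi_norm_le_iff_of_nonneg (norm_nonneg _)]
  intro i
  unfold locwSc
  rw [norm_mul, Complex.norm_real, Real.norm_eq_abs, abs_of_pos (Real.exp_pos _)]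
  have h1 : Real.exp (-(τ * u i)) ≤ 1 := by
    rw [Real.exp_le_one_iff]
    have := mul_nonneg hτ (hu i)
    linarith
  calc Real.exp (-(τ * u i)) * ‖w i‖ ≤ 1 * ‖w i‖ := by gcongr
    _ ≤ ‖w‖ := by rw [one_mul]; exact norm_le_pi_norm w i

theorem locw_sc_mem_ball {u : Fin n → ℝ} (hu : ∀ i, 0 ≤ u i) {τ : ℝ} (hτ : 0 ≤ τ) {w : Cn n} {ρ : ℝ}
    (hw : w ∈ ball (0 : Cn n) ρ) : locwSc u τ w ∈ ball (0 : Cn n) ρ := by
  rw [mem_ball_zero_iff] at hw ⊢
  exact (locw_norm_sc_le hu hτ w).trans_lt hw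

theorem locw_summable_bound {A : MvPowerSeries (Fin n) ℂ} {ρ R : ℝ} (hA : LocwConv A ρ) (hR0 : 0 ≤ R)
    (hR : R < ρ) : Summable fun γ : Fin n →₀ ℕ => ‖MvPowerSeries.coeff γ A‖ * R ^ γ.degree := by
  have hmem : (fun _ => (R : ℂ)) ∈ ball (0 : Cn n) ρ := by
    rw [mem_ball_zero_iff]
    refine lt_of_le_of_lt ?_ hR
    rw [pi_norm_le_iff_of_nonneg hR0]
    intro i
    rw [Complex.norm_real, Real.norm_eq_abs, abs_of_nonneg hR0]
  refine (hA _ hmem).norm.congr fun γ => ?_
  rw [norm_mul, tayMono_const, norm_pow, Complex.norm_real, Real.norm_eq_abs, abs_of_nonneg hR0]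

theorem LocwConv.lead {A : MvPowerSeries (Fin n) ℂ} {ρ : ℝ} (hA : LocwConv A ρ) (u : Fin n → ℝ)
    (m : ℝ) : LocwConv (locwLead u m A) ρ := by
  intro w hw
  refine Summable.of_norm_bounded (g := fun γ => ‖MvPowerSeries.coeff γ A * tayMono γ w‖)
    (hA w hw).norm fun γ => ?_
  rw [locw_coeff_lead]
  split_ifs
  · exact le_rfl
  · rw [zero_mul, norm_zero]
    exact norm_nonneg _

theorem locw_tendsto_exp_neg {δ : ℝ} (hδ : 0 < δ) :
    Tendsto (fun τ : ℝ => (Real.exp (-(τ * δ)) : ℂ)) atTop (𝓝 0) := by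
  have h1 : Tendsto (fun τ : ℝ => τ * δ) atTop atTop := tendsto_id.atTop_mul_const hδ
  have h2 := Real.tendsto_exp_neg_atTop_nhds_zero.comp h1
  have h3 := (Complex.continuous_ofReal.tendsto 0).comp h2
  rw [Complex.ofReal_zero] at h3
  exact h3

/-- **scaling limit** (Tannery) -/
theorem locw_scaling_limit {A : MvPowerSeries (Fin n) ℂ} {ρ : ℝ} (hA : LocwConv A ρ) {u : Fin n → ℝ}
    {m : ℝ} (hm : ∀ γ, MvPowerSeries.coeff γ A ≠ 0 → m ≤ wdeg u γ) {w : ℝ → Cn n} {w0 : Cn n}
    (hw0 : w0 ∈ ball (0 : Cn n) ρ) (hw : Tendsto w atTop (𝓝 w0)) :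
    Tendsto (fun τ => (Real.exp (τ * m) : ℂ) * locwEval A (locwSc u τ (w τ))) atTop
      (𝓝 (locwEval (locwLead u m A) w0)) := by
  obtain ⟨R, hR1, hR2⟩ := exists_between (mem_ball_zero_iff.1 hw0)
  have hR0 : 0 ≤ R := (norm_nonneg _).trans hR1.le
  have hsum := locw_summable_bound hA hR0 hR2
  have hterm : ∀ (τ : ℝ) (γ : Fin n →₀ ℕ),
      (Real.exp (τ * m) : ℂ) * (MvPowerSeries.coeff γ A * tayMono γ (locwSc u τ (w τ))) =
        (Real.exp (-(τ * (wdeg u γ - m))) : ℂ) * (MvPowerSeries.coeff γ A * tayMono γ (w τ)) := by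
    intro τ γ
    rw [locw_tayMono_sc]
    have : (Real.exp (-(τ * (wdeg u γ - m))) : ℂ) =
        (Real.exp (τ * m) : ℂ) * (Real.exp (-(τ * wdeg u γ)) : ℂ) := by
      rw [← Complex.ofReal_mul, ← Real.exp_add]
      congr 2
      ring
    rw [this]
    ring
  have key := tendsto_tsum_of_dominated_convergence (𝓕 := atTop)
    (f := fun τ γ => (Real.exp (τ * m) : ℂ) *
      (MvPowerSeries.coeff γ A * tayMono γ (locwSc u τ (w τ))))
    (g := fun γ => MvPowerSeries.coeff γ (locwLead u m A) * tayMono γ w0) hsum ?_ ?_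
  · refine key.congr fun τ => ?_
    rw [tsum_mul_left]
    rfl
  · intro γ
    simp only [hterm]
    have hcont : Tendsto (fun τ => tayMono γ (w τ)) atTop (𝓝 (tayMono γ w0)) :=
      ((tayMono_differentiable γ).continuous.tendsto w0).comp hw
    rw [locw_coeff_lead]
    by_cases hc : MvPowerSeries.coeff γ A = 0
    · simp [hc]
    · split_ifs with hγ
      · simp only [hγ, sub_self, mul_zero, neg_zero, Real.exp_zero, Complex.ofReal_one, one_mul]
        exact hcont.const_mul _
      · have hδ : 0 < wdeg u γ - m := by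
          have := hm γ hc
          rcases lt_or_eq_of_le this with h | h
          · linarith
          · exact absurd h.symm hγ
        have := (locw_tendsto_exp_neg hδ).mul (hcont.const_mul (MvPowerSeries.coeff γ A))
        simpa using this
  · have hev : ∀ᶠ τ in atTop, ‖w τ‖ < R := by
      have : ∀ᶠ x in 𝓝 w0, ‖x‖ < R :=
        (continuous_norm.tendsto w0).eventually (gt_mem_nhds hR1)
      exact hw.eventually this
    filter_upwards [eventually_ge_atTop (0 : ℝ), hev] with τ hτ hwτ γ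
    rw [hterm]
    by_cases hc : MvPowerSeries.coeff γ A = 0
    · simp only [hc, zero_mul, mul_zero, norm_zero]
      exact le_rfl
    · rw [norm_mul, norm_mul, Complex.norm_real, Real.norm_eq_abs, abs_of_pos (Real.exp_pos _)]
      have h1 : Real.exp (-(τ * (wdeg u γ - m))) ≤ 1 := by
        rw [Real.exp_le_one_iff]
        have := mul_nonneg hτ (sub_nonneg.2 (hm γ hc))
        linarith
      have h2 : ‖tayMono γ (w τ)‖ ≤ R ^ γ.degree :=
        (norm_tayMono_le_norm γ (w τ)).trans (pow_le_pow_left₀ (norm_nonneg _) hwτ.le _)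
      calc Real.exp (-(τ * (wdeg u γ - m))) * (‖MvPowerSeries.coeff γ A‖ * ‖tayMono γ (w τ)‖)
          ≤ 1 * (‖MvPowerSeries.coeff γ A‖ * R ^ γ.degree) := by gcongr
        _ = ‖MvPowerSeries.coeff γ A‖ * R ^ γ.degree := one_mul _

/-! ### the sum of a convergent power series -/

/-- the sum of a convergent power series is holomorphic on the polydisc -/
theorem locw_eval_differentiableOn {A : MvPowerSeries (Fin n) ℂ} {ρ : ℝ} (hA : LocwConv A ρ) :
    DifferentiableOn ℂ (locwEval A) (ball 0 ρ) := by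
  intro w hw
  obtain ⟨R, hR1, hR2⟩ := exists_between (mem_ball_zero_iff.1 hw)
  obtain ⟨R', hR3, hR4⟩ := exists_between hR2
  have hR0 : 0 ≤ R := (norm_nonneg _).trans hR1.le
  have hRpos : 0 < R := lt_of_le_of_lt (norm_nonneg _) hR1
  obtain ⟨C, hC0, hC⟩ := tay_pow_bound hR0 hR3
  have hsum : Summable fun γ : Fin n →₀ ℕ => C * (‖MvPowerSeries.coeff γ A‖ * R' ^ γ.degree) :=
    (locw_summable_bound hA (hR0.trans hR3.le) hR4).mul_left C
  have h := hasFDerivAt_tsum_of_isPreconnected (𝕜 := ℂ) (x₀ := (0 : Cn n)) (x := w)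
    (f := fun (γ : Fin n →₀ ℕ) (y : Cn n) => MvPowerSeries.coeff γ A * tayMono γ y)
    (f' := fun γ y => MvPowerSeries.coeff γ A • fderiv ℂ (tayMono γ) y)
    hsum (isOpen_ball (x := (0 : Cn n)) (ε := R)) (convex_ball (0 : Cn n) R).isPreconnected
    (fun γ y _ => ((tayMono_differentiable γ y).hasFDerivAt).const_mul _)
    (fun γ y hy => ?_) (mem_ball_self hRpos)
    (hA 0 (mem_ball_self (hRpos.trans hR2))) (mem_ball_zero_iff.2 hR1)
  · exact h.differentiableAt.differentiableWithinAt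
  · rw [norm_smul]
    have h1 : ‖fderiv ℂ (tayMono γ) y‖ ≤ (γ.degree : ℝ) * R ^ (γ.degree - 1) :=
      norm_fderiv_tayMono_le γ (mem_ball_zero_iff.1 hy).le
    calc ‖MvPowerSeries.coeff γ A‖ * ‖fderiv ℂ (tayMono γ) y‖
        ≤ ‖MvPowerSeries.coeff γ A‖ * (C * R' ^ γ.degree) := by
          gcongr
          exact h1.trans (hC _)
      _ = C * (‖MvPowerSeries.coeff γ A‖ * R' ^ γ.degree) := by ring

/-- the leading part of a series with vanishing sum has vanishing sum -/
theorem locw_lead_eval_zero {A : MvPowerSeries (Fin n) ℂ} {ρ : ℝ} (hA : LocwConv A ρ)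
    (h0 : ∀ w ∈ ball (0 : Cn n) ρ, locwEval A w = 0) {u : Fin n → ℝ} (hu : ∀ i, 0 ≤ u i) {m : ℝ}
    (hm : ∀ γ, MvPowerSeries.coeff γ A ≠ 0 → m ≤ wdeg u γ) :
    ∀ w ∈ ball (0 : Cn n) ρ, locwEval (locwLead u m A) w = 0 := by
  intro w hw
  have h1 := locw_scaling_limit hA hm hw (tendsto_const_nhds (x := w))
  have h2 : Tendsto (fun τ => (Real.exp (τ * m) : ℂ) * locwEval A (locwSc u τ w)) atTop (𝓝 0) := by
    refine tendsto_const_nhds.congr' ?_
    filter_upwards [eventually_ge_atTop (0 : ℝ)] with τ hτ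
    rw [h0 _ (locw_sc_mem_ball hu hτ hw), mul_zero]
  exact tendsto_nhds_unique h1 h2

/-- the order is attained -/
theorem locw_exists_min {A : MvPowerSeries (Fin n) ℂ} (hA : A ≠ 0) {u : Fin n → ℝ}
    (hu : ∀ i, 0 ≤ u i) :
    ∃ γ, MvPowerSeries.coeff γ A ≠ 0 ∧ wOrd u A = wdeg u γ ∧
      ∀ δ, MvPowerSeries.coeff δ A ≠ 0 → wdeg u γ ≤ wdeg u δ := by
  have h0 : ∀ i : Fin n, (0 : ℝ) ≤ (0 : Fin n → ℝ) i := fun _ => le_rfl
  have : IsWellOrder (Fin n →₀ ℕ) (monoLT u 0) := monoLT_isWellOrder hu h0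
  obtain ⟨γ, hγ⟩ := isIni_exists (monoLT u 0) (f := (A : (Fin n →₀ ℕ) → ℂ)) hA
  refine ⟨γ, hγ.1, wOrd_eq_of_isIni hu hγ, fun δ hδ => ?_⟩
  by_contra hlt
  exact hγ.2 δ hδ (Or.inl (not_le.1 hlt))

theorem locw_wdeg_natCast (w : Fin n → ℕ) (γ : Fin n →₀ ℕ) :
    wdeg (fun i => (w i : ℝ)) γ = ((∑ i, w i * γ i : ℕ) : ℝ) := by
  unfold wdeg
  push_cast
  rfl

/-- a convergent power series with vanishing sum is zero -/
theorem locw_series_zero_of_ball {A : MvPowerSeries (Fin n) ℂ} {ρ : ℝ} (hρ : 0 < ρ)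
    (hA : LocwConv A ρ) (h0 : ∀ w ∈ ball (0 : Cn n) ρ, locwEval A w = 0) : A = 0 := by
  by_contra hne
  -- first stage: total degree
  have hu1 : ∀ i : Fin n, (0 : ℝ) ≤ (fun _ => ((1 : ℕ) : ℝ)) i := fun _ => by positivity
  obtain ⟨γ1, hγ1, -, hmin1⟩ := locw_exists_min hne hu1
  set u1 : Fin n → ℝ := fun _ => ((1 : ℕ) : ℝ) with hu1def
  set A1 := locwLead u1 (wdeg u1 γ1) A with hA1
  have hA1c : LocwConv A1 ρ := hA.lead _ _
  have hA10 := locw_lead_eval_zero hA h0 hu1 hmin1
  have hA1ne : A1 ≠ 0 := by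
    intro h
    have : MvPowerSeries.coeff γ1 A1 = 0 := by rw [h, map_zero]
    rw [hA1, locw_coeff_lead, if_pos rfl] at this
    exact hγ1 this
  -- second stage: the weight of the lexicographic order
  obtain ⟨wt, hwt⟩ := lex_weight (n := n) (∑ i, γ1 i)
  have hu2 : ∀ i : Fin n, (0 : ℝ) ≤ (fun i => (wt i : ℝ)) i := fun _ => by positivity
  obtain ⟨γ2, hγ2, -, hmin2⟩ := locw_exists_min hA1ne hu2
  set u2 : Fin n → ℝ := fun i => (wt i : ℝ) with hu2def
  set A2 := locwLead u2 (wdeg u2 γ2) A1 with hA2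
  have hA20 := locw_lead_eval_zero hA1c hA10 hu2 hmin2
  have hdeg : ∀ γ, MvPowerSeries.coeff γ A1 ≠ 0 → ∑ i, γ i = ∑ i, γ1 i := by
    intro γ hγ
    rw [hA1, locw_coeff_lead] at hγ
    split_ifs at hγ with h
    · rw [hu1def, locw_wdeg_natCast, locw_wdeg_natCast] at h
      have := Nat.cast_injective h
      simpa using this
    · exact absurd rfl hγ
  have huniq : ∀ γ, MvPowerSeries.coeff γ A2 ≠ 0 → γ = γ2 := by
    intro γ hγ
    rw [hA2, locw_coeff_lead] at hγ
    split_ifs at hγ with h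
    · rw [hu2def, locw_wdeg_natCast, locw_wdeg_natCast] at h
      have h' : ∑ i, wt i * γ i = ∑ i, wt i * γ2 i := Nat.cast_injective h
      by_contra hne'
      have hne'' : toLex (γ : Fin n → ℕ) ≠ toLex (γ2 : Fin n → ℕ) := by
        intro e
        exact hne' (DFunLike.coe_injective (toLex.injective e))
      rcases lt_or_gt_of_ne hne'' with hl | hl
      · exact absurd h' (ne_of_lt (hwt γ γ2 (hdeg γ hγ) (hdeg γ2 hγ2) hl))
      · exact absurd h'.symm (ne_of_lt (hwt γ2 γ (hdeg γ2 hγ2) (hdeg γ hγ) hl))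
    · exact absurd rfl hγ
  -- evaluate at the point `(ρ/2, …, ρ/2)`
  have hmem : (fun _ => ((ρ / 2 : ℝ) : ℂ)) ∈ ball (0 : Cn n) ρ := by
    rw [mem_ball_zero_iff]
    refine lt_of_le_of_lt ?_ (half_lt_self hρ)
    rw [pi_norm_le_iff_of_nonneg (by positivity)]
    intro i
    rw [Complex.norm_real, Real.norm_eq_abs, abs_of_pos (by positivity)]
  have hev := hA20 _ hmem
  unfold locwEval at hev
  rw [tsum_eq_single γ2] at hev
  · rw [locw_coeff_lead, if_pos rfl, tayMono_const] at hev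
    rcases mul_eq_zero.1 hev with h | h
    · exact hγ2 h
    · have : ((ρ / 2 : ℝ) : ℂ) ≠ 0 := by
        rw [Ne, Complex.ofReal_eq_zero]
        positivity
      exact pow_ne_zero _ this h
  · intro γ hγ
    have : MvPowerSeries.coeff γ A2 = 0 := by
      by_contra h
      exact hγ (huniq γ h)
    rw [this, zero_mul]

/-- **identity theorem for convergent power series** -/
theorem locw_series_zero_of_open {A : MvPowerSeries (Fin n) ℂ} {ρ : ℝ} (hA : LocwConv A ρ)
    {V : Set (Cn n)} (hV : IsOpen V) {p : Cn n} (hpV : p ∈ V) (hp : p ∈ ball (0 : Cn n) ρ)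
    (h0 : ∀ w ∈ V, w ∈ ball (0 : Cn n) ρ → locwEval A w = 0) : A = 0 := by
  have hρ : 0 < ρ := lt_of_le_of_lt (norm_nonneg _) (mem_ball_zero_iff.1 hp)
  have han : AnalyticOnNhd ℂ (locwEval A) (ball 0 ρ) :=
    tay_osgood isOpen_ball (locw_eval_differentiableOn hA)
  have hev : locwEval A =ᶠ[𝓝 p] 0 := by
    filter_upwards [hV.mem_nhds hpV, isOpen_ball.mem_nhds hp] with w h1 h2
    exact h0 w h1 h2
  have := han.eqOn_zero_of_preconnected_of_eventuallyEq_zero
    (convex_ball (0 : Cn n) ρ).isPreconnected hp hev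
  exact locw_series_zero_of_ball hρ hA fun w hw => this hw

/-! ### Taylor series of holomorphic functions on a polydisc -/

theorem locw_conv_tay {f : Cn n → ℂ} {r : ℝ} (hf : DifferentiableOn ℂ f (ball 0 r)) :
    LocwConv (tay 0 f) r := fun _ hw => (tayw_hasSum hf hw).summable

theorem locw_eval_tay {f : Cn n → ℂ} {r : ℝ} (hf : DifferentiableOn ℂ f (ball 0 r)) {w : Cn n}
    (hw : w ∈ ball (0 : Cn n) r) : locwEval (tay 0 f) w = f w := (tayw_hasSum hf hw).tsum_eq

theorem locw_limit_zero {a b : ℝ} (hab : a < b) {g : ℝ → ℂ} {l : ℂ}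
    (h : Tendsto (fun τ => (Real.exp (τ * b) : ℂ) * g τ) atTop (𝓝 l)) :
    Tendsto (fun τ => (Real.exp (τ * a) : ℂ) * g τ) atTop (𝓝 0) := by
  have h1 := (locw_tendsto_exp_neg (sub_pos.2 hab)).mul h
  rw [zero_mul] at h1
  refine h1.congr fun τ => ?_
  rw [← mul_assoc, ← Complex.ofReal_mul, ← Real.exp_add]
  congr 3
  ring

/-- the projection onto the coordinates of weight zero -/
noncomputable def locwPr (u : Fin n → ℝ) : Cn n →L[ℂ] Cn n :=
  ContinuousLinearMap.pi fun i => if u i = 0 then ContinuousLinearMap.proj i else 0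

theorem locwPr_apply (u : Fin n → ℝ) (y : Cn n) (i : Fin n) :
    locwPr u y i = if u i = 0 then y i else 0 := by
  unfold locwPr
  rw [ContinuousLinearMap.pi_apply]
  split_ifs <;> rfl

theorem locw_norm_pr_le (u : Fin n → ℝ) (y : Cn n) : ‖locwPr u y‖ ≤ ‖y‖ := by
  rw [pi_norm_le_iff_of_nonneg (norm_nonneg _)]
  intro i
  rw [locwPr_apply]
  split_ifs
  · exact norm_le_pi_norm y i
  · rw [norm_zero]
    exact norm_nonneg _

theorem locw_tendsto_sc {u : Fin n → ℝ} (hu : ∀ i, 0 ≤ u i) (y : Cn n) :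
    Tendsto (fun τ => locwSc u τ y) atTop (𝓝 (locwPr u y)) := by
  rw [tendsto_pi_nhds]
  intro i
  rw [locwPr_apply]
  unfold locwSc
  split_ifs with h
  · simp only [h, mul_zero, neg_zero, Real.exp_zero, Complex.ofReal_one, one_mul]
    exact tendsto_const_nhds
  · have hpos : 0 < u i := lt_of_le_of_ne (hu i) (Ne.symm h)
    have := (locw_tendsto_exp_neg hpos).mul_const (y i)
    rwa [zero_mul] at this

/-- the map `Φ₀ y = (y_σ, φ'(0_σ, y'))` -/
noncomputable def locwPhi (u : Fin n → ℝ) (φ : Cn n → Cn n) (y : Cn n) : Cn n :=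
  fun i => if u i = 0 then φ (locwPr u y) i else y i

/-- `Φ₀` is open at `0` -/
theorem locw_phi_open {u : Fin n → ℝ} {φ : Cn n → Cn n} {r' : ℝ} (hr' : 0 < r')
    (hφ : DifferentiableOn ℂ φ (ball 0 r'))
    (hσ : ∀ y ∈ ball (0 : Cn n) r', ∀ i, u i ≠ 0 → φ y i = y i) (hjac : cjac φ 0 ≠ 0) :
    Filter.map (locwPhi u φ) (𝓝 0) = 𝓝 (locwPhi u φ 0) := by
  have hφan : AnalyticAt ℂ φ 0 := tay_osgood_pi isOpen_ball hφ 0 (mem_ball_self hr')
  set L := fderiv ℂ φ 0 with hL
  have hstr : HasStrictFDerivAt φ L 0 := hφan.hasStrictFDerivAt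
  have hrow : ∀ i, u i ≠ 0 → ∀ v, L v i = v i := by
    intro i hi v
    have h1 : HasFDerivAt (fun y => φ y i)
        ((ContinuousLinearMap.proj i : Cn n →L[ℂ] ℂ).comp L) 0 :=
      (ContinuousLinearMap.proj i : Cn n →L[ℂ] ℂ).hasFDerivAt.comp 0 hstr.hasFDerivAt
    have h2 : HasFDerivAt (fun y : Cn n => y i) (ContinuousLinearMap.proj i : Cn n →L[ℂ] ℂ) 0 :=
      (ContinuousLinearMap.proj i : Cn n →L[ℂ] ℂ).hasFDerivAt
    have h3 : (fun y => φ y i) =ᶠ[𝓝 0] fun y => y i := by
      filter_upwards [ball_mem_nhds (0 : Cn n) hr'] with y hy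
      exact hσ y hy i hi
    have h4 := (h2.congr_of_eventuallyEq h3).unique h1
    have := congrArg (fun T : Cn n →L[ℂ] ℂ => T v) h4
    exact this.symm
  let L0 : Cn n →L[ℂ] Cn n := ContinuousLinearMap.pi fun i =>
    if u i = 0 then ((ContinuousLinearMap.proj i : Cn n →L[ℂ] ℂ).comp L).comp (locwPr u)
    else ContinuousLinearMap.proj i
  have hL0app : ∀ v i, L0 v i = if u i = 0 then L (locwPr u v) i else v i := by
    intro v i
    show (if u i = 0 then ((ContinuousLinearMap.proj i : Cn n →L[ℂ] ℂ).comp L).comp (locwPr u)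
      else ContinuousLinearMap.proj i) v = _
    split_ifs <;> rfl
  have hL0 : HasStrictFDerivAt (locwPhi u φ) L0 0 := by
    rw [hasStrictFDerivAt_pi']
    intro i
    by_cases hi : u i = 0
    · have e1 : (fun y => locwPhi u φ y i) = fun y => φ (locwPr u y) i := by
        funext y
        simp only [locwPhi, if_pos hi]
      have e2 : (ContinuousLinearMap.proj i : Cn n →L[ℂ] ℂ).comp L0 =
          ((ContinuousLinearMap.proj i : Cn n →L[ℂ] ℂ).comp L).comp (locwPr u) := by
        ext v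
        show L0 v i = L (locwPr u v) i
        rw [hL0app, if_pos hi]
      rw [e1, e2]
      have hstr' : HasStrictFDerivAt φ L (locwPr u 0) := by
        rw [map_zero]
        exact hstr
      exact ((ContinuousLinearMap.proj i : Cn n →L[ℂ] ℂ).hasStrictFDerivAt.comp 0
        (hstr'.comp 0 (locwPr u).hasStrictFDerivAt))
    · have e1 : (fun y => locwPhi u φ y i) = fun y => y i := by
        funext y
        simp only [locwPhi, if_neg hi]
      have e2 : (ContinuousLinearMap.proj i : Cn n →L[ℂ] ℂ).comp L0 =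
          (ContinuousLinearMap.proj i : Cn n →L[ℂ] ℂ) := by
        ext v
        show L0 v i = v i
        rw [hL0app, if_neg hi]
      rw [e1, e2]
      exact (ContinuousLinearMap.proj i : Cn n →L[ℂ] ℂ).hasStrictFDerivAt
  have hLinj : Function.Injective L := by
    have h1 : LinearMap.det (L : Cn n →ₗ[ℂ] Cn n) ≠ 0 := hjac
    have h2 : LinearMap.ker (L : Cn n →ₗ[ℂ] Cn n) = ⊥ := by
      by_contra h
      exact h1 (LinearMap.det_eq_zero_iff_ker_ne_bot.2 h)
    exact LinearMap.ker_eq_bot.1 h2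
  have hinj : Function.Injective (L0 : Cn n →ₗ[ℂ] Cn n) := by
    rw [← LinearMap.ker_eq_bot, LinearMap.ker_eq_bot']
    intro v hv
    have hv' : ∀ i, L0 v i = 0 := fun i => congrFun hv i
    have hvσ : ∀ i, u i ≠ 0 → v i = 0 := by
      intro i hi
      have := hv' i
      rwa [hL0app, if_neg hi] at this
    have hPv : locwPr u v = v := by
      funext i
      rw [locwPr_apply]
      split_ifs with hi
      · rfl
      · exact (hvσ i hi).symm
    apply hLinj
    rw [map_zero]
    funext i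
    by_cases hi : u i = 0
    · have := hv' i
      rwa [hL0app, if_pos hi, hPv] at this
    · rw [hrow i hi, hvσ i hi]
      rfl
  let e : Cn n ≃L[ℂ] Cn n :=
    (LinearEquiv.ofInjectiveEndo (L0 : Cn n →ₗ[ℂ] Cn n) hinj).toContinuousLinearEquiv
  have he : (e : Cn n →L[ℂ] Cn n) = L0 := by
    ext v i
    rfl
  rw [← he] at hL0
  exact hL0.map_nhds_eq_of_equiv

/-- paper Lemma 2.1 -/
theorem locw_tan_wOrd (F : Cn n → ℂ) (r : ℝ) (hF : DifferentiableOn ℂ F (ball 0 r)) (u : Fin n → ℝ)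
    (hu : ∀ i, 0 ≤ u i) (φ : Cn n → Cn n) (r' : ℝ) (hr' : 0 < r')
    (hφ : DifferentiableOn ℂ φ (ball 0 r')) (hmaps : Set.MapsTo φ (ball 0 r') (ball 0 r))
    (hσ : ∀ y ∈ ball (0 : Cn n) r', ∀ i, u i ≠ 0 → φ y i = y i) (hjac : cjac φ 0 ≠ 0) :
    wOrd u (tay 0 (fun y => F (φ y))) = wOrd u (tay 0 F) := by
  have hr : 0 < r :=
    lt_of_le_of_lt (norm_nonneg _) (mem_ball_zero_iff.1 (hmaps (mem_ball_self hr')))
  have hG : DifferentiableOn ℂ (fun y => F (φ y)) (ball 0 r') := hF.comp hφ hmaps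
  set A := tay 0 F with hAdef
  set B := tay 0 (fun y => F (φ y)) with hBdef
  have hAc : LocwConv A r := locw_conv_tay hF
  have hBc : LocwConv B r' := locw_conv_tay hG
  have hAe : ∀ w ∈ ball (0 : Cn n) r, locwEval A w = F w := fun w hw => locw_eval_tay hF hw
  have hBe : ∀ y ∈ ball (0 : Cn n) r', locwEval B y = F (φ y) := fun y hy => locw_eval_tay hG hy
  by_cases hA0 : A = 0
  · -- `F = 0`
    have hB0 : B = 0 := by
      refine locw_series_zero_of_ball hr' hBc fun y hy => ?_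
      rw [hBe y hy, ← hAe _ (hmaps hy), hA0]
      simp [locwEval]
    rw [hA0, hB0]
  obtain ⟨γ0, hγ0, hm, hmin⟩ := locw_exists_min hA0 hu
  set m := wdeg u γ0 with hmdef
  set Am := locwLead u m A with hAm
  have hAmc : LocwConv Am r := hAc.lead u m
  have hAmne : Am ≠ 0 := by
    intro h
    have : MvPowerSeries.coeff γ0 Am = 0 := by rw [h, map_zero]
    rw [hAm, locw_coeff_lead, if_pos rfl] at this
    exact hγ0 this
  -- `Φ₀` maps the small polydisc to the large one
  have hPr : ∀ y ∈ ball (0 : Cn n) r', locwPr u y ∈ ball (0 : Cn n) r' := by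
    intro y hy
    rw [mem_ball_zero_iff] at hy ⊢
    exact (locw_norm_pr_le u y).trans_lt hy
  have hPhi : ∀ y ∈ ball (0 : Cn n) r', locwPhi u φ y ∈ ball (0 : Cn n) r := by
    intro y hy
    rw [mem_ball_zero_iff, pi_norm_lt_iff hr]
    intro i
    unfold locwPhi
    split_ifs with hi
    · exact (norm_le_pi_norm _ i).trans_lt (mem_ball_zero_iff.1 (hmaps (hPr y hy)))
    · rw [← hσ y hy i hi]
      exact (norm_le_pi_norm _ i).trans_lt (mem_ball_zero_iff.1 (hmaps hy))
  -- first scaling limit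
  have T1 : ∀ y ∈ ball (0 : Cn n) r', Tendsto
      (fun τ => (Real.exp (τ * m) : ℂ) * F (φ (locwSc u τ y))) atTop
      (𝓝 (locwEval Am (locwPhi u φ y))) := by
    intro y hy
    let w : ℝ → Cn n := fun τ i => if u i = 0 then φ (locwSc u τ y) i else y i
    have hw : Tendsto w atTop (𝓝 (locwPhi u φ y)) := by
      rw [tendsto_pi_nhds]
      intro i
      by_cases hi : u i = 0
      · have e1 : (fun τ => w τ i) = fun τ => φ (locwSc u τ y) i := by
          funext τ
          simp only [w, if_pos hi]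
        have e2 : locwPhi u φ y i = φ (locwPr u y) i := by simp only [locwPhi, if_pos hi]
        rw [e1, e2]
        have hc : ContinuousAt φ (locwPr u y) :=
          (hφ.differentiableAt (isOpen_ball.mem_nhds (hPr y hy))).continuousAt
        exact ((continuous_apply i).tendsto _).comp (hc.tendsto.comp (locw_tendsto_sc hu y))
      · have e1 : (fun τ => w τ i) = fun _ => y i := by
          funext τ
          simp only [w, if_neg hi]
        have e2 : locwPhi u φ y i = y i := by simp only [locwPhi, if_neg hi]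
        rw [e1, e2]
        exact tendsto_const_nhds
    have h1 := locw_scaling_limit hAc hmin (hPhi y hy) hw
    refine h1.congr' ?_
    filter_upwards [eventually_ge_atTop (0 : ℝ)] with τ hτ
    have hsc := locw_sc_mem_ball hu hτ hy
    have e : locwSc u τ (w τ) = φ (locwSc u τ y) := by
      funext i
      by_cases hi : u i = 0
      · simp only [locwSc, w, if_pos hi, hi, mul_zero, neg_zero, Real.exp_zero, Complex.ofReal_one,
          one_mul]
      · rw [hσ _ hsc i hi]
        simp only [locwSc, w, if_neg hi]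
    rw [e, hAe _ (hmaps hsc)]
  -- the limit does not vanish identically
  have hy0 : ∃ y0 ∈ ball (0 : Cn n) r', locwEval Am (locwPhi u φ y0) ≠ 0 := by
    by_contra hcon
    push Not at hcon
    have hopen := locw_phi_open hr' hφ hσ hjac
    have himg : locwPhi u φ '' ball (0 : Cn n) r' ∈ 𝓝 (locwPhi u φ 0) := by
      rw [← hopen]
      exact Filter.image_mem_map (ball_mem_nhds 0 hr')
    obtain ⟨V, hVsub, hVo, hV0⟩ := _root_.mem_nhds_iff.1 himg
    refine hAmne (locw_series_zero_of_open hAmc hVo hV0 (hPhi 0 (mem_ball_self hr')) ?_)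
    intro w hwV _
    obtain ⟨y, hy, rfl⟩ := hVsub hwV
    exact hcon y hy
  obtain ⟨y0, hy0, hne0⟩ := hy0
  -- `B ≠ 0`
  have hB0 : B ≠ 0 := by
    intro h
    have h2 : Tendsto (fun τ => (Real.exp (τ * m) : ℂ) * F (φ (locwSc u τ y0))) atTop (𝓝 0) := by
      refine tendsto_const_nhds.congr' ?_
      filter_upwards [eventually_ge_atTop (0 : ℝ)] with τ hτ
      rw [← hBe _ (locw_sc_mem_ball hu hτ hy0), h]
      simp [locwEval]
    exact hne0 (tendsto_nhds_unique (T1 y0 hy0) h2)
  obtain ⟨γ1, hγ1, hm', hmin'⟩ := locw_exists_min hB0 hu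
  set m' := wdeg u γ1 with hm'def
  set Bm := locwLead u m' B with hBm
  have hBmne : Bm ≠ 0 := by
    intro h
    have : MvPowerSeries.coeff γ1 Bm = 0 := by rw [h, map_zero]
    rw [hBm, locw_coeff_lead, if_pos rfl] at this
    exact hγ1 this
  -- second scaling limit
  have T2 : ∀ y ∈ ball (0 : Cn n) r', Tendsto
      (fun τ => (Real.exp (τ * m') : ℂ) * F (φ (locwSc u τ y))) atTop (𝓝 (locwEval Bm y)) := by
    intro y hy
    have h1 := locw_scaling_limit hBc hmin' hy (tendsto_const_nhds (x := y))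
    refine h1.congr' ?_
    filter_upwards [eventually_ge_atTop (0 : ℝ)] with τ hτ
    rw [hBe _ (locw_sc_mem_ball hu hτ hy)]
  rw [hm, hm']
  rcases lt_trichotomy m' m with hlt | heq | hgt
  · exfalso
    refine hBmne (locw_series_zero_of_ball hr' (hBc.lead u m') fun y hy => ?_)
    exact tendsto_nhds_unique (T2 y hy) (locw_limit_zero hlt (T1 y hy))
  · exact heq
  · exfalso
    exact hne0 (tendsto_nhds_unique (T1 y0 hy0) (locw_limit_zero hgt (T2 y0 hy0)))

end Claimed.Agent.R242
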