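/-
R242 / Loc / Tan  (LOC-G): the geometry of Section 5 of the paper at generic points of the stratum of a test whose centre is not a point.     Owner: helper73.

SETTING.  `c : MChart n D z`, `σ` = support of the weights, stratum `Z = {y ∈ ball 0 c.r | y_i = 0 for i ∈ σ}` (a polydisc, connected).  `c.π` is not constant on `Z`.

 * `tan_generic`: let `d` be the largest size of a minor (rows `it`, columns `tn ∉ σ`) of the Jacobian matrix `(pd j (π_i))` that does not vanish identically on `Z`.  `d ≥ 1` because `π` is not constant on the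
   convex set `Z` (some `pd j π_i`, `j ∉ σ`, is not identically `0` on `Z`).  The product of this minor with `∏_{i ∉ σ} y_i` is holomorphic and not identically `0` on `Z`, so its zero set is nowhere dense in `Z`
   (identity theorem in the coordinates `y_i`, `i ∉ σ`): points `ζ l → 0` of `Z` off the zero set.  All minors of size `d+1` with columns `∉ σ` vanish on `Z`.
 * `tan_chart`: `Ψ y = (y_i (i ∈ σ);  π_{it a}(y) - π_{it a}(ζ) (i = tn a);  y_i - ζ_i (otherwise))`, `cjac Ψ ζ = ± minor ≠ 0`; holomorphic inverse function theorem: `φ` on a small ball, `Ψ ∘ φ = id`, `φ 0 = ζ`, injective,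
   `cjac φ ≠ 0`, image in a neighbourhood of `ζ` on which `y_i ≠ 0` (`i ∉ σ`).  `c'.π = c.π ∘ φ`, `c'.unit = (c.unit ∘ φ) * ∏_{i ∉ σ} (φ_i)^(k i) * cjac φ`, injectivity sets `φ⁻¹ A_i ∩ ball`.
 * `tan_wOrd` (paper Lemma 2.1): expansion `F = ∑_α c_α(y') y_σ^α`, `c_α` holomorphic on `Z`; `wOrd u (tay 0 F) = min {<u,α> : c_α ≢ 0}`.  Every term `c_α(φ'(y)) y_σ^α` has weight `≥ <u,α>`: `≥`.
   For `≤`: `α₀` of minimal weight with `c_α₀ ≢ 0`; the coefficient of `y_σ^α₀` in `F ∘ φ` restricted to `y_σ = 0` is `c_α₀ ∘ φ'|_Z`, not identically `0` since `φ'|_Z` is a local biholomorphism of `Z` (block triangular Jacobian)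
   and `c_α₀` is not identically `0` near `ζ` (identity theorem on `Z`).
 * `tan_restrict`: `H(y') = c'.π (0_σ, y')`.  For `i ∉ σ ∪ range tn` and every row `i'`: the minor of `H` with rows `(it, i')`, columns `(tn, i)` is `pd i H_{i'}` (the rows `it` are `y_{tn a} + const`); it vanishes since the Jacobian matrix of `H` is
   (Jacobian of `π|_Z` at `φ`) * (Jacobian of `φ|_Z`) and the first factor has rank `≤ d`.  So `H`, hence `f ∘ H`, does not depend on `y_i`; Taylor coefficients with `γ_σ = 0`, `γ_i > 0` vanish.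
 * `tan_res`: ALG.  `P` = "put all variables outside `range tn` equal to `0`" is a ring hom of `MvPowerSeries`; `S' h = P (G'.T h (R h))` satisfies `ResHyp` (images of products; `h3b` pulls back to `K`), `ℓ_0 = P (T σ₀)` (unit),
   `ℓ_a = ℓ_0 X_(tn a)` are homogeneously independent, `finrank (S' h) = resRank`.  `res_main`.
-/
import Claimed.Agent.R242.Loc.Rep
import Claimed.Agent.R242.Loc.TanW
import Claimed.Agent.R242.Loc.TanChart
import Claimed.Agent.R242.Loc.TanRestr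
import Claimed.Agent.R242.Tay.Main
import Claimed.Agent.R242.Tay.Osgood

set_option autoImplicit false

namespace Claimed.Agent.R242

open Metric Filter Topology

section Geometry

variable {n : ℕ} {D : Set (Cn n)} {z : Cn n}

/-- the minor of the Jacobian matrix of `π` with rows `rows` and columns `cols` -/
noncomputable def jminor {d : ℕ} (π : Cn n → Cn n) (rows cols : Fin d → Fin n) (y : Cn n) : ℂ :=
  (Matrix.of fun a b => pd (cols b) (fun y' => π y' (rows a)) y).det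

/-- the linear projection onto the stratum `{y_i = 0, i ∈ σ}` -/
noncomputable def loc_strat (σ : Finset (Fin n)) : Cn n →L[ℂ] Cn n :=
  ContinuousLinearMap.pi fun i => if i ∈ σ then 0 else ContinuousLinearMap.proj i

theorem loc_strat_apply (σ : Finset (Fin n)) (w : Cn n) (i : Fin n) :
    loc_strat σ w i = if i ∈ σ then 0 else w i := by
  unfold loc_strat
  split_ifs with h <;> simp [h]

theorem loc_strat_norm_le (σ : Finset (Fin n)) (w : Cn n) : ‖loc_strat σ w‖ ≤ ‖w‖ := by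
  rw [pi_norm_le_iff_of_nonneg (norm_nonneg _)]
  intro i
  rw [loc_strat_apply]
  split_ifs
  · simp
  · exact norm_le_pi_norm w i

theorem loc_strat_eq_self {σ : Finset (Fin n)} {y : Cn n} (hy : ∀ i ∈ σ, y i = 0) : loc_strat σ y = y := by
  ext i
  rw [loc_strat_apply]
  split_ifs with h
  · exact (hy i h).symm
  · rfl

theorem loc_strat_mapsTo (σ : Finset (Fin n)) (r : ℝ) :
    Set.MapsTo (loc_strat σ) (ball (0 : Cn n) r) (ball (0 : Cn n) r) := by
  intro w hw
  rw [mem_ball_zero_iff] at hw ⊢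
  exact (loc_strat_norm_le σ w).trans_lt hw

theorem loc_fderiv_apply_eq_sum (f : Cn n → ℂ) (p v : Cn n) :
    fderiv ℂ f p v = ∑ j, v j * pd j f p := by
  unfold pd
  conv_lhs => rw [← Finset.univ_sum_single v]
  rw [map_sum]
  refine Finset.sum_congr rfl fun j _ => ?_
  have : (Pi.single j (v j) : Cn n) = v j • Pi.single j 1 := by
    ext i
    by_cases h : i = j
    · subst h; simp
    · simp [Pi.single_eq_of_ne h]
  rw [this, map_smul, smul_eq_mul]

theorem loc_pd_analyticOnNhd {π : Cn n → Cn n} {r : ℝ} (hπ : DifferentiableOn ℂ π (ball 0 r)) (i j : Fin n) :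
    AnalyticOnNhd ℂ (pd j (fun y => π y i)) (ball 0 r) := by
  have h1 : AnalyticOnNhd ℂ (fun y => π y i) (ball 0 r) :=
    tay_osgood isOpen_ball (differentiableOn_pi.mp hπ i)
  exact (ContinuousLinearMap.apply ℂ ℂ (Pi.single j 1 : Cn n)).comp_analyticOnNhd h1.fderiv

theorem loc_jminor_analyticOnNhd {d : ℕ} {π : Cn n → Cn n} {r : ℝ} (hπ : DifferentiableOn ℂ π (ball 0 r))
    (rows cols : Fin d → Fin n) : AnalyticOnNhd ℂ (jminor π rows cols) (ball 0 r) := by
  intro y hy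
  unfold jminor
  simp only [Matrix.det_apply, Matrix.of_apply]
  refine Finset.analyticAt_fun_sum _ fun τ _ => ?_
  have h1 : AnalyticAt ℂ (fun y => ∏ a, pd (cols a) (fun y' => π y' (rows (τ a))) y) y :=
    Finset.analyticAt_fun_prod _ fun a _ => loc_pd_analyticOnNhd hπ _ _ y hy
  simp only [Units.smul_def, zsmul_eq_mul]
  exact analyticAt_const.mul h1

theorem loc_jminor_cols_injective {d : ℕ} {π : Cn n → Cn n} {rows cols : Fin d → Fin n} {y : Cn n}
    (h : jminor π rows cols y ≠ 0) : Function.Injective cols := by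
  intro a b hab
  by_contra hne
  apply h
  unfold jminor
  exact Matrix.det_zero_of_column_eq hne fun k => by simp [Matrix.of_apply, hab]

/-- if all partial derivatives along the stratum vanish on the stratum, the map is constant on it -/
theorem loc_const_on_strat {π : Cn n → Cn n} {r : ℝ} (hr : 0 < r) (hπ : DifferentiableOn ℂ π (ball 0 r))
    (σ : Finset (Fin n))
    (h : ∀ i j, j ∉ σ → ∀ y ∈ ball (0 : Cn n) r, (∀ i ∈ σ, y i = 0) → pd j (fun y' => π y' i) y = 0)
    {y : Cn n} (hy : y ∈ ball (0 : Cn n) r) (hyσ : ∀ i ∈ σ, y i = 0) : π y = π 0 := by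
  ext i
  have hd : DifferentiableOn ℂ (fun y' => π y' i) (ball 0 r) := differentiableOn_pi.mp hπ i
  have hF : DifferentiableOn ℂ (fun w => π (loc_strat σ w) i) (ball 0 r) :=
    hd.comp (loc_strat σ).differentiableOn (loc_strat_mapsTo σ r)
  have hF' : (ball (0 : Cn n) r).EqOn (fderiv ℂ (fun w => π (loc_strat σ w) i)) 0 := by
    intro w hw
    have hw' := loc_strat_mapsTo σ r hw
    have h1 : HasFDerivAt (fun w => π (loc_strat σ w) i)
        ((fderiv ℂ (fun y' => π y' i) (loc_strat σ w)).comp (loc_strat σ)) w :=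
      ((hd.differentiableAt (isOpen_ball.mem_nhds hw')).hasFDerivAt).comp w (loc_strat σ).hasFDerivAt
    rw [h1.fderiv]
    ext v
    rw [ContinuousLinearMap.comp_apply, loc_fderiv_apply_eq_sum]
    simp only [Pi.zero_apply, zero_apply]
    refine Finset.sum_eq_zero fun j _ => ?_
    by_cases hj : j ∈ σ
    · rw [loc_strat_apply, if_pos hj, zero_mul]
    · rw [h i j hj _ hw' (fun i hi => by rw [loc_strat_apply, if_pos hi]), mul_zero]
  have := isOpen_ball.is_const_of_fderiv_eq_zero (convex_ball (0 : Cn n) r).isPreconnected hF hF' hy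
    (mem_ball_self hr)
  simpa [loc_strat_eq_self hyσ] using this

theorem tan_generic (c : MChart n D z) (σ : Finset (Fin n))
    (hnc : ¬ ∀ y ∈ ball (0 : Cn n) c.r, (∀ i ∈ σ, y i = 0) → c.π y = z) :
    ∃ (d : ℕ) (tn it : Fin d → Fin n) (ζ : ℕ → Cn n), 1 ≤ d ∧ Function.Injective tn ∧ (∀ a, tn a ∉ σ) ∧
      Tendsto ζ atTop (𝓝 0) ∧
      (∀ l, ζ l ∈ ball (0 : Cn n) c.r ∧ (∀ i ∈ σ, ζ l i = 0) ∧ (∀ i, i ∉ σ → ζ l i ≠ 0) ∧ jminor c.π it tn (ζ l) ≠ 0) ∧
      ∀ y ∈ ball (0 : Cn n) c.r, (∀ i ∈ σ, y i = 0) → ∀ rows cols : Fin (d + 1) → Fin n, (∀ b, cols b ∉ σ) →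
        jminor c.π rows cols y = 0 := by
  classical
  have hrpos := c.r_pos
  let P : ℕ → Prop := fun d => ∃ rows cols : Fin d → Fin n, (∀ b, cols b ∉ σ) ∧
    ∃ y ∈ ball (0 : Cn n) c.r, (∀ i ∈ σ, y i = 0) ∧ jminor c.π rows cols y ≠ 0
  have hPn : ∀ d, P d → d ≤ n := by
    rintro d ⟨rows, cols, _, y, _, _, hne⟩
    simpa using Fintype.card_le_of_injective cols (loc_jminor_cols_injective hne)
  have hP1 : P 1 := by
    by_contra hP1
    apply hnc
    intro y hy hyσ
    refine (loc_const_on_strat hrpos c.hol σ ?_ hy hyσ).trans c.center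
    intro i j hj y' hy' hyσ'
    by_contra hne
    refine hP1 ⟨fun _ => i, fun _ => j, fun _ => hj, y', hy', hyσ', ?_⟩
    unfold jminor
    rw [Matrix.det_fin_one]
    exact hne
  obtain ⟨d, hd⟩ : ∃ d, d = Nat.findGreatest P n := ⟨_, rfl⟩
  have hd1 : 1 ≤ d := hd ▸ Nat.le_findGreatest (hPn 1 hP1) hP1
  have hPd : P d := hd ▸ Nat.findGreatest_spec (hPn 1 hP1) hP1
  have hPd1 : ¬ P (d + 1) := fun h =>
    Nat.findGreatest_is_greatest (hd ▸ Nat.lt_succ_self d) (hPn _ h) h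
  obtain ⟨it, tn, htσ, y₀, hy₀, hy₀σ, hne₀⟩ := hPd
  have hA : AnalyticOnNhd ℂ (fun w => jminor c.π it tn (loc_strat σ w)) (ball 0 c.r) :=
    (loc_jminor_analyticOnNhd c.hol it tn).comp ((loc_strat σ).analyticOnNhd _) (loc_strat_mapsTo σ c.r)
  have hfreq : ∃ᶠ w in 𝓝 (0 : Cn n), jminor c.π it tn (loc_strat σ w) ≠ 0 := by
    by_contra h
    rw [not_frequently] at h
    have h0 : (fun w => jminor c.π it tn (loc_strat σ w)) =ᶠ[𝓝 0] 0 := by
      filter_upwards [h] with w hw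
      simpa using hw
    have := hA.eqOn_zero_of_preconnected_of_eventuallyEq_zero (convex_ball (0 : Cn n) c.r).isPreconnected
      (mem_ball_self hrpos) h0 hy₀
    apply hne₀
    simpa [loc_strat_eq_self hy₀σ] using this
  have hex : ∀ l : ℕ, ∃ ζ : Cn n, ‖ζ‖ < 1 / ((l : ℝ) + 1) ∧ ζ ∈ ball (0 : Cn n) c.r ∧ (∀ i ∈ σ, ζ i = 0) ∧
      (∀ i, i ∉ σ → ζ i ≠ 0) ∧ jminor c.π it tn ζ ≠ 0 := by
    intro l
    have hρ : 0 < min c.r (1 / ((l : ℝ) + 1)) := lt_min hrpos (by positivity)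
    obtain ⟨w, hAw, hw⟩ := (hfreq.and_eventually (ball_mem_nhds (0 : Cn n) hρ)).exists
    have hwr : w ∈ ball (0 : Cn n) c.r := ball_subset_ball (min_le_left _ _) hw
    have hev : ∀ᶠ w' in 𝓝 w, jminor c.π it tn (loc_strat σ w') ≠ 0 ∧
        w' ∈ ball (0 : Cn n) (min c.r (1 / ((l : ℝ) + 1))) :=
      ((hA w hwr).continuousAt.eventually_ne hAw).and (isOpen_ball.mem_nhds hw)
    obtain ⟨δ, hδ, hball⟩ := Metric.eventually_nhds_iff_ball.mp hev
    let w' : Cn n := fun i => if w i = 0 then ((δ / 2 : ℝ) : ℂ) else w i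
    have hw' : w' ∈ ball w δ := by
      rw [mem_ball, dist_pi_lt_iff hδ]
      intro i
      simp only [w']
      split_ifs with h0
      · rw [h0, dist_zero_right, Complex.norm_real, Real.norm_eq_abs, abs_of_pos (by positivity)]
        linarith
      · simpa using hδ
    have hw'ne : ∀ i, w' i ≠ 0 := by
      intro i
      simp only [w']
      split_ifs with h0
      · exact_mod_cast (by positivity : (δ / 2 : ℝ) ≠ 0)
      · exact h0
    obtain ⟨h1, h2⟩ := hball w' hw'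
    have h3 : ‖loc_strat σ w'‖ < min c.r (1 / ((l : ℝ) + 1)) :=
      (loc_strat_norm_le σ w').trans_lt (mem_ball_zero_iff.mp h2)
    refine ⟨loc_strat σ w', h3.trans_le (min_le_right _ _),
      mem_ball_zero_iff.mpr (h3.trans_le (min_le_left _ _)), ?_, ?_, h1⟩
    · intro i hi
      rw [loc_strat_apply, if_pos hi]
    · intro i hi
      rw [loc_strat_apply, if_neg hi]
      exact hw'ne i
  choose ζ hζ using hex
  refine ⟨d, tn, it, ζ, hd1, loc_jminor_cols_injective hne₀, htσ, ?_, fun l => (hζ l).2, ?_⟩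
  · rw [tendsto_zero_iff_norm_tendsto_zero]
    exact squeeze_zero (fun l => norm_nonneg _) (fun l => (hζ l).1.le)
      tendsto_one_div_add_atTop_nhds_zero_nat
  · intro y hy hyσ rows cols hcols
    by_contra hne
    exact hPd1 ⟨rows, cols, hcols, y, hy, hyσ, hne⟩

/-- the new chart at the generic point `ζ` of the stratum -/
theorem tan_chart (hD : IsOpen D) (c : MChart n D z) (σ : Finset (Fin n)) {d : ℕ} (tn it : Fin d → Fin n)
    (htn : Function.Injective tn) (htσ : ∀ a, tn a ∉ σ) (ζ : Cn n) (hζ : ζ ∈ ball (0 : Cn n) c.r)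
    (hζσ : ∀ i ∈ σ, ζ i = 0) (hζn : ∀ i, i ∉ σ → ζ i ≠ 0) (hmin : jminor c.π it tn ζ ≠ 0) :
    ∃ (c' : MChart n D (c.π ζ)) (φ : Cn n → Cn n), DifferentiableOn ℂ φ (ball 0 c'.r) ∧
      Set.MapsTo φ (ball 0 c'.r) (ball 0 c.r) ∧ φ 0 = ζ ∧ cjac φ 0 ≠ 0 ∧
      (∀ y ∈ ball (0 : Cn n) c'.r, c'.π y = c.π (φ y)) ∧
      (∀ y ∈ ball (0 : Cn n) c'.r, ∀ i ∈ σ, φ y i = y i) ∧
      (∀ y ∈ ball (0 : Cn n) c'.r, ∀ a, c.π (φ y) (it a) - c.π ζ (it a) = y (tn a)) ∧
      (∀ y ∈ ball (0 : Cn n) c'.r, ∀ i, i ∉ σ → i ∉ Set.range tn → φ y i = ζ i + y i) ∧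
      (∀ i ∈ σ, c'.k i = c.k i) ∧ (∀ i, i ∉ σ → c'.k i = 0) := by
  unfold jminor at hmin
  exact loc_tan_chart_main c σ tn it htn htσ ζ hζ hζσ hζn hmin

/-- paper Lemma 2.1 -/
theorem tan_wOrd (F : Cn n → ℂ) (r : ℝ) (hF : DifferentiableOn ℂ F (ball 0 r)) (u : Fin n → ℝ) (hu : ∀ i, 0 ≤ u i)
    (φ : Cn n → Cn n) (r' : ℝ) (hr' : 0 < r') (hφ : DifferentiableOn ℂ φ (ball 0 r'))
    (hmaps : Set.MapsTo φ (ball 0 r') (ball 0 r)) (hσ : ∀ y ∈ ball (0 : Cn n) r', ∀ i, u i ≠ 0 → φ y i = y i)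
    (hjac : cjac φ 0 ≠ 0) :
    wOrd u (tay 0 (fun y => F (φ y))) = wOrd u (tay 0 F) :=
  locw_tan_wOrd F r hF u hu φ r' hr' hφ hmaps hσ hjac

/-- restrictions to the stratum depend on the tangential variables only -/
theorem tan_restrict (hD : IsOpen D) (c : MChart n D z) (σ : Finset (Fin n)) {d : ℕ} (tn it : Fin d → Fin n)
    (htn : Function.Injective tn) (htσ : ∀ a, tn a ∉ σ)
    (hrank : ∀ y ∈ ball (0 : Cn n) c.r, (∀ i ∈ σ, y i = 0) → ∀ rows cols : Fin (d + 1) → Fin n, (∀ b, cols b ∉ σ) →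
      jminor c.π rows cols y = 0)
    (φ : Cn n → Cn n) (r' : ℝ) (hr' : 0 < r') (hφ : DifferentiableOn ℂ φ (ball 0 r'))
    (hmaps : Set.MapsTo φ (ball 0 r') (ball 0 c.r))
    (hφσ : ∀ y ∈ ball (0 : Cn n) r', ∀ i ∈ σ, φ y i = y i)
    (hφt : ∀ y ∈ ball (0 : Cn n) r', ∀ a, c.π (φ y) (it a) - c.π (φ 0) (it a) = y (tn a))
    (f : Cn n → ℂ) (hf : DifferentiableOn ℂ f D) (γ : Fin n →₀ ℕ)
    (hγ : MvPowerSeries.coeff γ (tay 0 (fun y => f (c.π (φ y)))) ≠ 0) (hγσ : ∀ i ∈ σ, γ i = 0) :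
    γ ∈ pureExp tn :=
  loc_tr_main hD c σ tn it htn htσ hrank φ r' hr' hφ hmaps hφσ hφt f hf γ hγ hγσ

end Geometry

section Alg

variable {K : Type} [Field K] [Algebra ℂ K] {S : SecRing K} {n : ℕ}

theorem loc_pure_add {n d : ℕ} (tn : Fin d → Fin n) (a b : Fin n →₀ ℕ) :
    a + b ∈ pureExp tn ↔ a ∈ pureExp tn ∧ b ∈ pureExp tn := by
  constructor
  · intro h
    refine ⟨fun i hi => ?_, fun i hi => ?_⟩
    · have := h i hi
      rw [Finsupp.add_apply] at this
      omega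
    · have := h i hi
      rw [Finsupp.add_apply] at this
      omega
  · rintro ⟨ha, hb⟩ i hi
    rw [Finsupp.add_apply, ha i hi, hb i hi]

theorem loc_pure_zero {n d : ℕ} (tn : Fin d → Fin n) : (0 : Fin n →₀ ℕ) ∈ pureExp tn := fun _ _ => rfl

theorem loc_pure_single {n d : ℕ} (tn : Fin d → Fin n) (a : Fin d) (e : ℕ) :
    Finsupp.single (tn a) e ∈ pureExp tn := by
  intro i hi
  rw [Finsupp.single_apply, if_neg]
  rintro rfl
  exact hi ⟨a, rfl⟩

open Classical in
/-- put all the variables outside `range tn` equal to `0` (underlying function) -/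
noncomputable def locKillFun {n d : ℕ} (tn : Fin d → Fin n) (f : MvPowerSeries (Fin n) ℂ) :
    MvPowerSeries (Fin n) ℂ :=
  fun γ => if γ ∈ pureExp tn then MvPowerSeries.coeff γ f else 0

open Classical in
theorem loc_coeff_killFun {n d : ℕ} (tn : Fin d → Fin n) (f : MvPowerSeries (Fin n) ℂ) (γ : Fin n →₀ ℕ) :
    MvPowerSeries.coeff γ (locKillFun tn f) = if γ ∈ pureExp tn then MvPowerSeries.coeff γ f else 0 := rfl

/-- put all the variables outside `range tn` equal to `0` -/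
noncomputable def locKill {n d : ℕ} (tn : Fin d → Fin n) :
    MvPowerSeries (Fin n) ℂ →ₐ[ℂ] MvPowerSeries (Fin n) ℂ where
  toFun := locKillFun tn
  map_one' := by
    classical
    ext γ
    rw [loc_coeff_killFun]
    split_ifs with h
    · rfl
    · rw [MvPowerSeries.coeff_one, if_neg]
      rintro rfl
      exact h (loc_pure_zero tn)
  map_mul' f g := by
    classical
    ext γ
    rw [loc_coeff_killFun, MvPowerSeries.coeff_mul, MvPowerSeries.coeff_mul]
    split_ifs with h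
    · refine Finset.sum_congr rfl fun p hp => ?_
      rw [Finset.HasAntidiagonal.mem_antidiagonal] at hp
      rw [← hp, loc_pure_add] at h
      rw [loc_coeff_killFun, loc_coeff_killFun, if_pos h.1, if_pos h.2]
    · symm
      refine Finset.sum_eq_zero fun p hp => ?_
      rw [Finset.HasAntidiagonal.mem_antidiagonal] at hp
      rw [← hp, loc_pure_add, not_and_or] at h
      rw [loc_coeff_killFun, loc_coeff_killFun]
      rcases h with h | h
      · rw [if_neg h, zero_mul]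
      · rw [if_neg h, mul_zero]
  map_zero' := by
    classical
    ext γ
    rw [loc_coeff_killFun]
    split_ifs <;> simp
  map_add' f g := by
    classical
    ext γ
    rw [map_add, loc_coeff_killFun, loc_coeff_killFun, loc_coeff_killFun]
    split_ifs <;> simp
  commutes' c := by
    classical
    ext γ
    rw [loc_coeff_killFun]
    split_ifs with h
    · rfl
    · rw [MvPowerSeries.algebraMap_apply, MvPowerSeries.coeff_C, if_neg]
      rintro rfl
      exact h (loc_pure_zero tn)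

theorem loc_coeff_kill {n d : ℕ} (tn : Fin d → Fin n) (f : MvPowerSeries (Fin n) ℂ) {γ : Fin n →₀ ℕ}
    (hγ : γ ∈ pureExp tn) : MvPowerSeries.coeff γ (locKill tn f) = MvPowerSeries.coeff γ f := by
  classical
  exact (loc_coeff_killFun tn f γ).trans (if_pos hγ)

theorem loc_coeff_kill_of_not {n d : ℕ} (tn : Fin d → Fin n) (f : MvPowerSeries (Fin n) ℂ) {γ : Fin n →₀ ℕ}
    (hγ : γ ∉ pureExp tn) : MvPowerSeries.coeff γ (locKill tn f) = 0 := by
  classical
  exact (loc_coeff_killFun tn f γ).trans (if_neg hγ)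

theorem loc_kill_X {n d : ℕ} (tn : Fin d → Fin n) (a : Fin d) :
    locKill tn (MvPowerSeries.X (tn a)) = MvPowerSeries.X (tn a) := by
  classical
  ext γ
  by_cases h : γ ∈ pureExp tn
  · rw [loc_coeff_kill tn _ h]
  · rw [loc_coeff_kill_of_not tn _ h, MvPowerSeries.coeff_X, if_neg]
    rintro rfl
    exact h (loc_pure_single tn a 1)

theorem loc_kill_eq_zero_iff {n d : ℕ} (tn : Fin d → Fin n) (f : MvPowerSeries (Fin n) ℂ) :
    locKill tn f = 0 ↔ ∀ γ ∈ pureExp tn, MvPowerSeries.coeff γ f = 0 := by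
  constructor
  · intro h γ hγ
    rw [← loc_coeff_kill tn f hγ, h]
    simp
  · intro h
    ext γ
    by_cases hγ : γ ∈ pureExp tn
    · rw [loc_coeff_kill tn _ hγ, h γ hγ]; simp
    · rw [loc_coeff_kill_of_not tn _ hγ]; simp

theorem loc_hom_sum {r e : ℕ} {Q : MvPolynomial (Fin r) ℂ} (hQ : Q.IsHomogeneous e) {m : Fin r →₀ ℕ}
    (hm : m ∈ Q.support) : ∑ i, m i = e := by
  rw [← Finsupp.degree_eq_sum, Finsupp.degree_apply]
  exact (hQ.degree_eq_sum_deg_support hm).symm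

/-- dehomogenisation is injective on homogeneous polynomials -/
theorem loc_dehom {d e : ℕ} {Q : MvPolynomial (Fin (d + 1)) ℂ} (hQ : Q.IsHomogeneous e)
    (h : MvPolynomial.aeval (Fin.cons 1 MvPolynomial.X : Fin (d + 1) → MvPolynomial (Fin d) ℂ) Q = 0) :
    Q = 0 := by
  classical
  have h1 : ∀ m : Fin (d + 1) →₀ ℕ, algebraMap ℂ (MvPolynomial (Fin d) ℂ) (Q.coeff m) *
      ∏ i, (Fin.cons 1 MvPolynomial.X : Fin (d + 1) → MvPolynomial (Fin d) ℂ) i ^ m i =
      MvPolynomial.monomial (Finsupp.tail m) (Q.coeff m) := by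
    intro m
    rw [Fin.prod_univ_succ, Fin.cons_zero, one_pow, one_mul, MvPolynomial.monomial_eq,
      Finsupp.prod_fintype _ _ (fun i => pow_zero _)]
    rfl
  rw [MvPolynomial.aeval_def, MvPolynomial.eval₂_eq', Finset.sum_congr rfl (fun m _ => h1 m)] at h
  by_contra hne
  obtain ⟨m₀, hm₀⟩ := MvPolynomial.exists_coeff_ne_zero hne
  have hm₀' : m₀ ∈ Q.support := MvPolynomial.mem_support_iff.2 hm₀
  have h2 := congrArg (MvPolynomial.coeff (Finsupp.tail m₀)) h
  rw [MvPolynomial.coeff_sum, MvPolynomial.coeff_zero, Finset.sum_eq_single m₀] at h2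
  · rw [MvPolynomial.coeff_monomial, if_pos rfl] at h2
    exact hm₀ h2
  · intro m hm hmne
    rw [MvPolynomial.coeff_monomial, if_neg]
    intro htail
    apply hmne
    have e1 := loc_hom_sum hQ hm
    have e2 := loc_hom_sum hQ hm₀'
    rw [Fin.sum_univ_succ] at e1 e2
    have e3 : ∀ i : Fin d, m i.succ = m₀ i.succ := fun i => by
      have := DFunLike.congr_fun htail i
      rwa [Finsupp.tail_apply, Finsupp.tail_apply] at this
    have e4 : m 0 = m₀ 0 := by
      rw [Finset.sum_congr rfl (fun i _ => e3 i)] at e1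
      omega
    ext i
    refine Fin.cases e4 e3 i
  · intro hn
    exact absurd hm₀' hn

theorem loc_aeval_mul {B : Type} [CommRing B] [Algebra ℂ B] {r e : ℕ} {Q : MvPolynomial (Fin r) ℂ}
    (hQ : Q.IsHomogeneous e) (ℓ : B) (σ : Fin r → B) :
    MvPolynomial.aeval (fun i => ℓ * σ i) Q = ℓ ^ e * MvPolynomial.aeval σ Q := by
  rw [MvPolynomial.aeval_def, MvPolynomial.eval₂_eq', MvPolynomial.aeval_def, MvPolynomial.eval₂_eq',
    Finset.mul_sum]
  refine Finset.sum_congr rfl fun m hm => ?_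
  simp only [mul_pow]
  rw [Finset.prod_mul_distrib, Finset.prod_pow_eq_pow_sum, loc_hom_sum hQ hm]
  ring

theorem loc_homIndep_cons {n d : ℕ} (tn : Fin d → Fin n) (htn : Function.Injective tn)
    (ℓ : MvPowerSeries (Fin n) ℂ) (hℓ : ℓ ≠ 0) :
    HomIndep (Fin.cons ℓ (fun a => ℓ * MvPowerSeries.X (tn a)) : Fin (d + 1) → MvPowerSeries (Fin n) ℂ) := by
  intro e Q hQ hz
  have h0 : (Fin.cons ℓ (fun a => ℓ * MvPowerSeries.X (tn a)) : Fin (d + 1) → MvPowerSeries (Fin n) ℂ) =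
      fun i => ℓ * (Fin.cons 1 (fun a => MvPowerSeries.X (tn a)) : Fin (d + 1) → MvPowerSeries (Fin n) ℂ) i := by
    funext i
    refine Fin.cases ?_ (fun a => ?_) i
    · simp
    · simp
  rw [h0, loc_aeval_mul hQ] at hz
  have h1 : MvPolynomial.aeval
      (Fin.cons 1 (fun a => MvPowerSeries.X (tn a)) : Fin (d + 1) → MvPowerSeries (Fin n) ℂ) Q = 0 :=
    (mul_eq_zero.1 hz).resolve_left (pow_ne_zero _ hℓ)
  have h2 : (MvPolynomial.aeval
      (Fin.cons 1 (fun a => MvPowerSeries.X (tn a)) : Fin (d + 1) → MvPowerSeries (Fin n) ℂ)).toRingHom =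
      MvPolynomial.coeToMvPowerSeries.ringHom.comp ((MvPolynomial.rename (R := ℂ) tn).toRingHom.comp
        (MvPolynomial.aeval (R := ℂ)
          (Fin.cons 1 MvPolynomial.X : Fin (d + 1) → MvPolynomial (Fin d) ℂ)).toRingHom) := by
    apply MvPolynomial.ringHom_ext
    · intro c
      simp [MvPowerSeries.algebraMap_apply]
    · intro i
      refine Fin.cases ?_ (fun a => ?_) i
      · simp
      · simp
  have h3 := congrArg (fun f => f Q) h2
  simp only [AlgHom.toRingHom_eq_coe, RingHom.coe_coe, RingHom.comp_apply,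
    MvPolynomial.coeToMvPowerSeries.ringHom_apply] at h3
  rw [h1] at h3
  have h4 : MvPolynomial.rename tn
      (MvPolynomial.aeval (Fin.cons 1 MvPolynomial.X : Fin (d + 1) → MvPolynomial (Fin d) ℂ) Q) = 0 := by
    apply MvPolynomial.coe_injective
    rw [← h3]
    simp
  have h5 : MvPolynomial.aeval (Fin.cons 1 MvPolynomial.X : Fin (d + 1) → MvPolynomial (Fin d) ℂ) Q = 0 := by
    apply MvPolynomial.rename_injective tn htn
    rw [h4, map_zero]
  exact loc_dehom hQ h5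

theorem loc_T_zero (G : GChart S n) (j : ℕ) : G.T j 0 = 0 := by
  have h := G.smul j 0 0 (S.R j).zero_mem
  simpa using h

theorem loc_T_sum (G : GChart S n) (N : ℕ) {ι : Type} (F : Finset ι) (c : ι → ℂ) (x : ι → K)
    (hx : ∀ i ∈ F, x i ∈ S.R N) : G.T N (∑ i ∈ F, c i • x i) = ∑ i ∈ F, c i • G.T N (x i) := by
  classical
  induction F using Finset.induction_on with
  | empty => simp [loc_T_zero]
  | insert a F ha ih =>
    rw [Finset.sum_insert ha, Finset.sum_insert ha,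
      G.add N _ _ (Submodule.smul_mem _ _ (hx a (Finset.mem_insert_self _ _)))
        (Submodule.sum_mem _ fun i hi => Submodule.smul_mem _ _ (hx i (Finset.mem_insert_of_mem hi))),
      G.smul N _ _ (hx a (Finset.mem_insert_self _ _)), ih (fun i hi => hx i (Finset.mem_insert_of_mem hi))]

theorem loc_seed_pow (G : GChart S n) {j : ℕ} {s : K} (hs : s ∈ S.R j) (e : ℕ) :
    ∀ (i₀ : ℕ) (a : K), a ∈ S.R i₀ → a * s ^ e ∈ S.R (i₀ + e * j) ∧
      G.T (i₀ + e * j) (a * s ^ e) = G.T i₀ a * G.T j s ^ e := by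
  induction e with
  | zero =>
    intro i₀ a ha
    simpa using ha
  | succ e ih =>
    intro i₀ a ha
    obtain ⟨h1, h2⟩ := ih i₀ a ha
    have hidx : i₀ + (e + 1) * j = (i₀ + e * j) + j := by ring
    rw [hidx, pow_succ, ← mul_assoc, pow_succ, ← mul_assoc, ← h2]
    exact ⟨S.mul_mem _ _ _ _ h1 hs, G.mul _ _ _ _ h1 hs⟩

theorem loc_seed_prod (G : GChart S n) {j r : ℕ} {s : Fin r → K} (hs : ∀ i, s i ∈ S.R j) (m : Fin r → ℕ)
    (F : Finset (Fin r)) :
    ∀ (i₀ : ℕ) (a : K), a ∈ S.R i₀ → a * ∏ i ∈ F, s i ^ m i ∈ S.R (i₀ + (∑ i ∈ F, m i) * j) ∧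
      G.T (i₀ + (∑ i ∈ F, m i) * j) (a * ∏ i ∈ F, s i ^ m i) = G.T i₀ a * ∏ i ∈ F, G.T j (s i) ^ m i := by
  classical
  induction F using Finset.induction_on with
  | empty =>
    intro i₀ a ha
    simpa using ha
  | insert b F hb ih =>
    intro i₀ a ha
    obtain ⟨h1, h2⟩ := loc_seed_pow G (hs b) (m b) i₀ a ha
    obtain ⟨h3, h4⟩ := ih _ _ h1
    have hidx : i₀ + (∑ i ∈ insert b F, m i) * j = i₀ + m b * j + (∑ i ∈ F, m i) * j := by
      rw [Finset.sum_insert hb]; ring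
    rw [hidx, Finset.prod_insert hb, Finset.prod_insert hb, ← mul_assoc, ← mul_assoc, ← h2]
    exact ⟨h3, h4⟩

/-- a graded chart commutes with homogeneous polynomials (with a seed `a`, since `1 ∈ R 0` is not assumed) -/
theorem loc_seed_aeval (G : GChart S n) {j r e : ℕ} {s : Fin r → K} (hs : ∀ i, s i ∈ S.R j)
    {Q : MvPolynomial (Fin r) ℂ} (hQ : Q.IsHomogeneous e) {i₀ : ℕ} {a : K} (ha : a ∈ S.R i₀) :
    G.T (i₀ + e * j) (a * MvPolynomial.aeval s Q) =
      G.T i₀ a * MvPolynomial.aeval (fun i => G.T j (s i)) Q := by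
  rw [MvPolynomial.aeval_def, MvPolynomial.eval₂_eq', MvPolynomial.aeval_def, MvPolynomial.eval₂_eq',
    Finset.mul_sum, Finset.mul_sum]
  have h1 : ∀ m ∈ Q.support, a * (algebraMap ℂ K (Q.coeff m) * ∏ i, s i ^ m i) =
      Q.coeff m • (a * ∏ i, s i ^ m i) := by
    intro m _
    rw [Algebra.smul_def]; ring
  rw [Finset.sum_congr rfl h1, loc_T_sum G _ _ _ _ (fun m hm => ?_)]
  · refine Finset.sum_congr rfl fun m hm => ?_
    have h2 := (loc_seed_prod G hs m Finset.univ i₀ a ha).2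
    rw [loc_hom_sum hQ hm] at h2
    rw [h2, Algebra.smul_def]; ring
  · have h2 := (loc_seed_prod G hs m Finset.univ i₀ a ha).1
    rwa [loc_hom_sum hQ hm] at h2

/-- `R_h → power series in the tangential variables` -/
noncomputable def locLin (G : GChart S n) {d : ℕ} (tn : Fin d → Fin n) (h : ℕ) :
    S.R h →ₗ[ℂ] MvPowerSeries (Fin n) ℂ where
  toFun a := locKill tn (G.T h a)
  map_add' a b := by rw [Submodule.coe_add, G.add h a b a.2 b.2, map_add]
  map_smul' c a := by rw [Submodule.coe_smul, G.smul h c a a.2, map_smul]; rfl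

theorem loc_mem_range (G : GChart S n) {d : ℕ} (tn : Fin d → Fin n) (h : ℕ) (x : MvPowerSeries (Fin n) ℂ) :
    x ∈ LinearMap.range (locLin G tn h) ↔ ∃ a ∈ S.R h, locKill tn (G.T h a) = x := by
  constructor
  · rintro ⟨a, rfl⟩
    exact ⟨a, a.2, rfl⟩
  · rintro ⟨a, ha, rfl⟩
    exact ⟨⟨a, ha⟩, rfl⟩

theorem loc_finrank_range (G : GChart S n) {d : ℕ} (tn : Fin d → Fin n) (h : ℕ) :
    Module.finrank ℂ (LinearMap.range (locLin G tn h)) = G.resRank tn h := by
  have := S.fin h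
  have h1 := LinearMap.finrank_range_add_finrank_ker (locLin G tn h)
  have h2 := LinearMap.finrank_range_add_finrank_ker
    ((LinearMap.funLeft ℂ ℂ (fun x : pureExp tn => (x : Fin n →₀ ℕ))).comp (G.lin h))
  have h3 : LinearMap.ker (locLin G tn h) = LinearMap.ker
      ((LinearMap.funLeft ℂ ℂ (fun x : pureExp tn => (x : Fin n →₀ ℕ))).comp (G.lin h)) := by
    ext a
    rw [LinearMap.mem_ker, LinearMap.mem_ker]
    show locKill tn (G.T h a) = 0 ↔ _
    rw [loc_kill_eq_zero_iff]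
    constructor
    · intro hz
      funext γ
      exact hz γ.1 γ.2
    · intro hz γ hγ
      exact congrFun hz ⟨γ, hγ⟩
  rw [h3] at h1
  unfold GChart.resRank
  omega

theorem loc_mul_le (G : GChart S n) {d : ℕ} (tn : Fin d → Fin n) (i j : ℕ) (a : K) (ha : a ∈ S.R i * S.R j) :
    a ∈ S.R (i + j) ∧
      locKill tn (G.T (i + j) a) ∈ LinearMap.range (locLin G tn i) * LinearMap.range (locLin G tn j) := by
  induction ha using Submodule.mul_induction_on' with
  | mem_mul_mem x hx y hy =>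
    refine ⟨S.mul_mem _ _ _ _ hx hy, ?_⟩
    rw [G.mul _ _ _ _ hx hy, map_mul]
    exact Submodule.mul_mem_mul ((loc_mem_range G tn i _).2 ⟨x, hx, rfl⟩)
      ((loc_mem_range G tn j _).2 ⟨y, hy, rfl⟩)
  | add x _ y _ ihx ihy =>
    refine ⟨Submodule.add_mem _ ihx.1 ihy.1, ?_⟩
    rw [G.add _ _ _ ihx.1 ihy.1, map_add]
    exact Submodule.add_mem _ ihx.2 ihy.2

/-- Lemma 5.2 in a graded Taylor chart (pure algebra: `res_main` applied to the images of the `R h`). -/
theorem tan_res (k e₀ b₀ b₁ : ℕ) (hres : ResHyp K S.R k e₀ b₀ n) (C : ℝ) (H : ℕ)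
    (hCH : ∀ (B : Type) [CommRing B] [IsDomain B] [Algebra ℂ B] (S' : ℕ → Submodule ℂ B),
      ResHyp B S' k e₀ b₁ n → ∀ (d : ℕ), 1 ≤ d → ∀ (k' : ℕ) (σ : Fin (d + 1) → B), (∀ i, σ i ∈ S' k') → HomIndep σ →
      ∀ h : ℕ, H ≤ h → (h : ℝ) - C ≤ ((d.factorial : ℝ) * Module.finrank ℂ (S' h)) ^ (1 / (d : ℝ)))
    (G' : GChart S n) {d : ℕ} (hd : 1 ≤ d) (tn : Fin d → Fin n) (htn : Function.Injective tn) (k₀ : ℕ)
    (hσ : ∃ σ₀ ∈ S.R k₀, MvPowerSeries.coeff 0 (G'.T k₀ σ₀) ≠ 0 ∧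
      ∀ a : Fin d, ∃ σ ∈ S.R k₀, G'.T k₀ σ = G'.T k₀ σ₀ * MvPowerSeries.X (tn a))
    (hb : ∀ b, b₁ ≤ b → ∃ τ ∈ S.R b, MvPowerSeries.coeff 0 (G'.T b τ) ≠ 0) :
    ∀ h, H ≤ h → (h : ℝ) - C ≤ ((d.factorial : ℝ) * G'.resRank tn h) ^ (1 / (d : ℝ)) := by
  obtain ⟨σ₀, hσ₀, hσ₀0, hσa⟩ := hσ
  have hne : ∀ (b : ℕ) (τ : K), MvPowerSeries.coeff 0 (G'.T b τ) ≠ 0 → locKill tn (G'.T b τ) ≠ 0 := by
    intro b τ hτ h0
    apply hτ
    rw [← loc_coeff_kill tn _ (loc_pure_zero tn), h0]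
    simp
  have hℓ : locKill tn (G'.T k₀ σ₀) ≠ 0 := hne _ _ hσ₀0
  have hR : ResHyp (MvPowerSeries (Fin n) ℂ) (fun h => LinearMap.range (locLin G' tn h)) k e₀ b₁ n := by
    refine ⟨fun j => ?_, fun i j => ?_, fun q hq => ?_, fun q hq => ?_, fun b hb' => ?_, fun j σ' hσ' => ?_⟩
    · have := S.fin j
      infer_instance
    · rw [Submodule.mul_le]
      intro x hx y hy
      obtain ⟨a, ha, rfl⟩ := (loc_mem_range G' tn i _).1 hx
      obtain ⟨b, hb', rfl⟩ := (loc_mem_range G' tn j _).1 hy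
      rw [← map_mul, ← G'.mul _ _ _ _ ha hb']
      exact (loc_mem_range G' tn _ _).2 ⟨a * b, S.mul_mem _ _ _ _ ha hb', rfl⟩
    · intro x hx
      obtain ⟨a, ha, rfl⟩ := (loc_mem_range G' tn _ _).1 hx
      have h1 := (loc_mul_le G' tn k (q * k) a (hres.h1 q hq ha)).2
      have hidx : k + q * k = (q + 1) * k := by ring
      rwa [hidx] at h1
    · intro x hx
      obtain ⟨a, ha, rfl⟩ := (loc_mem_range G' tn _ _).1 hx
      have h1 := (loc_mul_le G' tn (k + 1) (q * (k + 1)) a (hres.h1' q hq ha)).2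
      have hidx : (k + 1) + q * (k + 1) = (q + 1) * (k + 1) := by ring
      rwa [hidx] at h1
    · obtain ⟨τ, hτ, hτ0⟩ := hb b hb'
      intro hbot
      have h1 : locKill tn (G'.T b τ) ∈ LinearMap.range (locLin G' tn b) :=
        (loc_mem_range G' tn _ _).2 ⟨τ, hτ, rfl⟩
      rw [hbot, Submodule.mem_bot] at h1
      exact hne _ _ hτ0 h1
    · intro hind
      choose s hs hs' using fun i => (loc_mem_range G' tn j _).1 (hσ' i)
      apply hres.h3b j s hs
      intro e Q hQ hz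
      apply hind e Q hQ
      have h1 := loc_seed_aeval G' hs hQ hσ₀
      rw [hz, mul_zero, loc_T_zero] at h1
      have h2 := congrArg (locKill tn) h1
      rw [map_zero, map_mul] at h2
      have h3 := (mul_eq_zero.1 h2.symm).resolve_left hℓ
      have h4 : locKill tn (MvPolynomial.aeval (fun i => G'.T j (s i)) Q) =
          MvPolynomial.aeval (fun i => locKill tn (G'.T j (s i))) Q :=
        MvPolynomial.comp_aeval_apply _ _ _
      rw [h4] at h3
      have h5 : σ' = fun i => locKill tn (G'.T j (s i)) := funext fun i => (hs' i).symm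
      rw [h5]
      exact h3
  intro h hh
  have hdom : IsDomain (MvPowerSeries (Fin n) ℂ) := NoZeroDivisors.to_isDomain _
  have hmain := hCH (MvPowerSeries (Fin n) ℂ) (fun h => LinearMap.range (locLin G' tn h)) hR d hd k₀
    (Fin.cons (locKill tn (G'.T k₀ σ₀)) (fun a => locKill tn (G'.T k₀ σ₀) * MvPowerSeries.X (tn a)))
    (fun i => by
      refine Fin.cases ?_ (fun a => ?_) i
      · exact (loc_mem_range G' tn _ _).2 ⟨σ₀, hσ₀, rfl⟩
      · obtain ⟨σ, hσ, hσe⟩ := hσa a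
        refine (loc_mem_range G' tn _ _).2 ⟨σ, hσ, ?_⟩
        rw [hσe, map_mul, loc_kill_X]
        rfl)
    (loc_homIndep_cons tn htn _ hℓ) h hh
  rw [loc_finrank_range] at hmain
  exact hmain

/-- `tay` depends only on the germ -/
theorem loc_tay_congr {a : Cn n} {f g : Cn n → ℂ} (h : f =ᶠ[𝓝 a] g) : tay a f = tay a g := by
  have key : ∀ {f g : Cn n → ℂ}, f =ᶠ[𝓝 a] g → ∀ F, IsTay f a F → IsTay g a F := by
    intro f g h F hF
    obtain ⟨ρ, hρ, hs⟩ := hF
    obtain ⟨ε, hε, hb⟩ := Metric.eventually_nhds_iff_ball.1 h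
    refine ⟨min ρ ε, lt_min hρ hε, fun z hz => ?_⟩
    rw [← hb z (ball_subset_ball (min_le_right _ _) hz)]
    exact hs z (ball_subset_ball (min_le_left _ _) hz)
  have hP : IsTay f a = IsTay g a := funext fun F => propext ⟨key h F, key h.symm F⟩
  unfold tay
  rw [hP]

/-- constant coefficient = value at the centre.  (TAY: `coeff 0 (tay a F) = F a` for `F` holomorphic near `a`.) -/
theorem loc_rep_coeff_zero (L : LocReal S n) {z : Cn n} (c : MChart n L.D z) (G : GChart S n) (h : L.Rep c G)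
    (j : ℕ) (s : K) (hs : s ∈ S.R j) : MvPowerSeries.coeff 0 (G.T j s) = L.hol j s z := by
  have ha : AnalyticAt ℂ (fun y => L.hol j s (c.π y)) 0 :=
    tay_analyticAt_of_ball c.r_pos ((L.hol_diff j s hs).comp c.hol c.maps)
  rw [h j s hs, tay_coeff_zero ha, c.center]

/-- multiplication by a coordinate of the chart.  (TAY: `tay` of a product of holomorphic functions, `tay 0 (fun y => y i) = X i`, germs.) -/
theorem loc_rep_mul_coord (L : LocReal S n) {z : Cn n} (c : MChart n L.D z) (G : GChart S n) (h : L.Rep c G)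
    (j : ℕ) (s s' : K) (hs : s ∈ S.R j) (hs' : s' ∈ S.R j) (i : Fin n)
    (hmul : ∀ y ∈ ball (0 : Cn n) c.r, L.hol j s' (c.π y) = L.hol j s (c.π y) * y i) :
    G.T j s' = G.T j s * MvPowerSeries.X i := by
  have h1 : (fun y => L.hol j s' (c.π y)) =ᶠ[𝓝 (0 : Cn n)] fun y => L.hol j s (c.π y) * (y i - (0 : Cn n) i) := by
    filter_upwards [ball_mem_nhds (0 : Cn n) c.r_pos] with y hy
    rw [hmul y hy]; simp
  have h2 : AnalyticAt ℂ (fun y : Cn n => y i - (0 : Cn n) i) 0 :=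
    tay_analyticAt_of_ball one_pos (by fun_prop)
  have ha : AnalyticAt ℂ (fun y => L.hol j s (c.π y)) 0 :=
    tay_analyticAt_of_ball c.r_pos ((L.hol_diff j s hs).comp c.hol c.maps)
  rw [h j s' hs', h j s hs, loc_tay_congr h1, tay_mul ha h2, tay_coord]

/-- **field `tan` of the contract** -/
theorem loc_tan (L : LocReal S n) (k e₀ b₀ : ℕ) (hres : ResHyp K S.R k e₀ b₀ n) (C : ℝ) (H : ℕ)
    (hCH : ∀ (B : Type) [CommRing B] [IsDomain B] [Algebra ℂ B] (S' : ℕ → Submodule ℂ B),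
      ResHyp B S' k e₀ L.b₀ n → ∀ (d : ℕ), 1 ≤ d → ∀ (k' : ℕ) (σ : Fin (d + 1) → B), (∀ i, σ i ∈ S' k') → HomIndep σ →
      ∀ h : ℕ, H ≤ h → (h : ℝ) - C ≤ ((d.factorial : ℝ) * Module.finrank ℂ (S' h)) ^ (1 / (d : ℝ))) :
    TanClause L (fun _ => C) (fun _ => H) := by
  intro G kk u hTC hu hu0 hnp
  obtain ⟨c, hck, hRep⟩ := hTC
  have hws : ∀ i, i ∈ wsupp u ↔ u i ≠ 0 := fun i => by simp [wsupp]
  have hnc := fun h => hnp ((loc_isPt_iff L c G hRep (wsupp u)).2 h)
  obtain ⟨d, tn, it, ζ, hd, htn, htσ, hζ0, hζ, hrank⟩ := tan_generic c (wsupp u) hnc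
  have hD : IsOpen L.D := isOpen_ball
  have hch := fun l => tan_chart hD c (wsupp u) tn it htn htσ (ζ l) (hζ l).1 (hζ l).2.1 (hζ l).2.2.1 (hζ l).2.2.2
  choose c' φ hφd hφm hφ0 hφj hπ hφσ hφt hφo hk1 hk2 using hch
  have hG := fun l => loc_rep_exists L (c' l)
  choose G' hG' using hG
  -- the Taylor data of the new chart in terms of the old map
  have hT : ∀ l j s, s ∈ S.R j → (G' l).T j s = tay 0 (fun y => L.hol j s (c.π (φ l y))) := by
    intro l j s hs
    rw [hG' l j s hs]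
    apply loc_tay_congr
    filter_upwards [ball_mem_nhds (0 : Cn n) (c' l).r_pos] with y hy
    rw [hπ l y hy]
  refine ⟨d, tn, fun i => if u i ≠ 0 then kk i else 0, fun l => ⟨c.π (ζ l), c.maps (hζ l).1⟩, G', hd, htn,
    fun a => by simpa [hws] using htσ a, fun i hi => by simp [hi], fun i hi => by simp [hi], ?_, fun l => ⟨?_, ?_, ?_, ?_, ?_⟩⟩
  · -- the points tend to `x`
    rw [tendsto_subtype_rng]
    have hc0 : ContinuousAt c.π 0 :=
      (c.hol.differentiableAt (ball_mem_nhds _ c.r_pos)).continuousAt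
    have := hc0.tendsto.comp hζ0
    rw [c.center] at this
    exact this
  · -- the new chart is admissible
    refine ⟨c' l, ?_, hG' l⟩
    funext i
    by_cases hi : u i ≠ 0
    · show (c' l).k i = if u i ≠ 0 then kk i else 0
      rw [if_pos hi, hk1 l i ((hws i).2 hi), hck]
    · show (c' l).k i = if u i ≠ 0 then kk i else 0
      rw [if_neg hi]
      exact hk2 l i (fun h => hi ((hws i).1 h))
  · -- Lemma 2.1
    intro j s hs
    rw [hT l j s hs, hRep j s hs]
    exact tan_wOrd (fun y => L.hol j s (c.π y)) c.r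
      ((L.hol_diff j s hs).comp c.hol c.maps) u hu (φ l) (c' l).r (c' l).r_pos (hφd l) (hφm l)
      (fun y hy i hi => hφσ l y hy i ((hws i).2 hi)) (hφj l)
  · -- restrictions to the stratum
    intro j s γ hs hγ hγσ
    rw [hT l j s hs] at hγ
    exact tan_restrict hD c (wsupp u) tn it htn htσ hrank (φ l) (c' l).r (c' l).r_pos (hφd l) (hφm l) (hφσ l)
      (fun y hy a => by rw [hφ0 l]; exact hφt l y hy a) (L.hol j s) (L.hol_diff j s hs) γ hγ
      (fun i hi => hγσ i ((hws i).1 hi))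
  all_goals
    have hσ : ∃ σ₀ ∈ S.R L.k₀, MvPowerSeries.coeff 0 ((G' l).T L.k₀ σ₀) ≠ 0 ∧
        ∀ a : Fin d, ∃ σ ∈ S.R L.k₀, (G' l).T L.k₀ σ = (G' l).T L.k₀ σ₀ * MvPowerSeries.X (tn a) := by
      refine ⟨L.σ 0, L.σ_mem 0, ?_, fun a => ?_⟩
      · rw [loc_rep_coeff_zero L (c' l) (G' l) (hG' l) L.k₀ _ (L.σ_mem 0)]
        exact L.σ_ne _ (c.maps (hζ l).1)
      · have hmem : L.σ (it a).succ - (c.π (ζ l) (it a)) • L.σ 0 ∈ S.R L.k₀ :=
          Submodule.sub_mem _ (L.σ_mem _) (Submodule.smul_mem _ _ (L.σ_mem 0))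
        refine ⟨_, hmem, loc_rep_mul_coord L (c' l) (G' l) (hG' l) L.k₀ _ _ (L.σ_mem 0) hmem (tn a) fun y hy => ?_⟩
        have hw : (c' l).π y ∈ ball (0 : Cn n) L.r₀ := (c' l).maps hy
        have h1 : L.σ (it a).succ - (c.π (ζ l) (it a)) • L.σ 0
            = L.σ (it a).succ + (-(c.π (ζ l) (it a))) • L.σ 0 := by
          rw [neg_smul, sub_eq_add_neg]
        rw [h1, L.hol_add _ _ _ (L.σ_mem _) (Submodule.smul_mem _ _ (L.σ_mem 0)) _ hw,
          L.hol_smul _ _ _ (L.σ_mem 0) _ hw, L.σ_coord _ _ hw, ← hφt l y hy a, hπ l y hy]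
        ring
  · exact tan_res k e₀ b₀ L.b₀ hres C H hCH (G' l) hd tn htn L.k₀ hσ fun b hb => by
      obtain ⟨τ, hτ, hne⟩ := L.bpf _ (c.maps (hζ l).1) b hb
      exact ⟨τ, hτ, by rw [loc_rep_coeff_zero L (c' l) (G' l) (hG' l) b τ hτ]; exact hne⟩
  · exact hσ

end Alg

end Claimed.Agent.R242
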