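/-
R242 / Loc / TanRestr  (LOC-TAN-RESTR, helper213): proof of `tan_restrict` (statement in `Loc/Tan.lean`, owner helper73).
The minor `jminor` of `Loc/Tan.lean` is written out here.  Helper lemmas: prefix `loc_tr_`.
-/
import Claimed.Agent.R242.Loc.Defs
import Claimed.Agent.R242.Tay.Basic

set_option autoImplicit false

namespace Claimed.Agent.R242

open Metric Filter Topology

/-- a product `A * B` all of whose "column selections" of `A` (outside `σ`) have determinant `0` -/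
theorem loc_tr_det_mul_eq_zero {m n : ℕ} (A : Matrix (Fin m) (Fin n) ℂ) (B : Matrix (Fin n) (Fin m) ℂ)
    (σ : Finset (Fin n)) (hB : ∀ l ∈ σ, ∀ b, B l b = 0)
    (hA : ∀ r : Fin m → Fin n, (∀ b, r b ∉ σ) → (Matrix.of fun a b => A a (r b)).det = 0) :
    (A * B).det = 0 := by
  rw [← Matrix.det_transpose]
  have h1 : (A * B).transpose = fun b => ∑ l, B l b • (fun a => A a l) := by
    funext b a
    simp [Matrix.mul_apply, mul_comm]
  show (Matrix.detRowAlternating : (Fin m → ℂ) [⋀^Fin m]→ₗ[ℂ] ℂ).toMultilinearMap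
    (A * B).transpose = 0
  rw [h1, MultilinearMap.map_sum]
  refine Finset.sum_eq_zero fun r _ => ?_
  rw [MultilinearMap.map_smul_univ]
  by_cases hr : ∀ b, r b ∉ σ
  · have h2 : (Matrix.detRowAlternating : (Fin m → ℂ) [⋀^Fin m]→ₗ[ℂ] ℂ).toMultilinearMap
        (fun b => fun a => A a (r b)) = (Matrix.of fun a b => A a (r b)).transpose.det := rfl
    rw [h2, Matrix.det_transpose, hA r hr, smul_zero]
  · push Not at hr
    obtain ⟨b, hb⟩ := hr
    have h3 : (∏ i, B (r i) i) = 0 := Finset.prod_eq_zero (Finset.mem_univ b) (hB _ hb b)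
    rw [h3, zero_smul]

/-- determinant of a matrix `[[x, *], [0, 1]]` -/
theorem loc_tr_det_block {d : ℕ} (M : Matrix (Fin (d + 1)) (Fin (d + 1)) ℂ)
    (h0 : ∀ a : Fin d, M a.succ 0 = 0) (h1 : ∀ a b : Fin d, M a.succ b.succ = if a = b then 1 else 0) :
    M.det = M 0 0 := by
  rw [Matrix.det_succ_column_zero, Fin.sum_univ_succ]
  have h2 : M.submatrix (Fin.succAbove 0) Fin.succ = (1 : Matrix (Fin d) (Fin d) ℂ) := by
    ext a b
    simp [h1, Matrix.one_apply]
  rw [h2]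
  simp [h0]

variable {n : ℕ}

theorem loc_tr_clm_eq_sum {E : Type*} [NormedAddCommGroup E] [NormedSpace ℂ E] (T : Cn n →L[ℂ] E)
    (x : Cn n) : T x = ∑ l, x l • T (Pi.single l 1) := by
  conv_lhs => rw [pi_eq_sum_univ' x, map_sum]
  exact Finset.sum_congr rfl fun l _ => map_smul _ _ _

/-- `pd` of a component -/
theorem loc_tr_pd_comp {π : Cn n → Cn n} {y : Cn n} (h : DifferentiableAt ℂ π y) (i j : Fin n) :
    pd j (fun y' => π y' i) y = fderiv ℂ π y (Pi.single j 1) i := by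
  unfold pd
  have h1 : HasFDerivAt (fun y' => π y' i) ((ContinuousLinearMap.proj i).comp (fderiv ℂ π y)) y :=
    (hasFDerivAt_pi'.1 h.hasFDerivAt i)
  rw [h1.fderiv]
  rfl

/-- a component which is `y_j + const` near `y` -/
theorem loc_tr_fderiv_comp_of_eq {π : Cn n → Cn n} {y : Cn n} {r : ℝ} (hy : y ∈ ball (0 : Cn n) r)
    (h : DifferentiableAt ℂ π y) (i j : Fin n) (k : ℂ) (he : ∀ y' ∈ ball (0 : Cn n) r, π y' i = y' j + k)
    (v : Cn n) : fderiv ℂ π y v i = v j := by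
  have h1 : HasFDerivAt (fun y' => π y' i) ((ContinuousLinearMap.proj i).comp (fderiv ℂ π y)) y :=
    (hasFDerivAt_pi'.1 h.hasFDerivAt i)
  have h2 : HasFDerivAt (fun y' : Cn n => y' j + k) (ContinuousLinearMap.proj j : Cn n →L[ℂ] ℂ) y :=
    (hasFDerivAt_apply j y).add_const k
  have h3 : (fun y' => π y' i) =ᶠ[𝓝 y] fun y' : Cn n => y' j + k :=
    Filter.eventually_of_mem (isOpen_ball.mem_nhds hy) he
  have h4 := h1.unique (h2.congr_of_eventuallyEq h3)
  exact congrArg (fun T : Cn n →L[ℂ] ℂ => T v) h4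


variable {D : Set (Cn n)} {z : Cn n}

/-- along the stratum `c.π ∘ φ` does not depend on the variables outside `σ ∪ range tn` (infinitesimal form) -/
theorem loc_tr_tan_fderiv_zero (c : MChart n D z) (σ : Finset (Fin n)) {d : ℕ} (tn it : Fin d → Fin n)
    (htn : Function.Injective tn) (htσ : ∀ a, tn a ∉ σ)
    (hrank : ∀ y ∈ ball (0 : Cn n) c.r, (∀ i ∈ σ, y i = 0) → ∀ rows cols : Fin (d + 1) → Fin n, (∀ b, cols b ∉ σ) →
      (Matrix.of fun a b => pd (cols b) (fun y' => c.π y' (rows a)) y).det = 0)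
    (φ : Cn n → Cn n) (r' : ℝ) (hφ : DifferentiableOn ℂ φ (ball 0 r'))
    (hmaps : Set.MapsTo φ (ball 0 r') (ball 0 c.r))
    (hφσ : ∀ y ∈ ball (0 : Cn n) r', ∀ i ∈ σ, φ y i = y i)
    (hφt : ∀ y ∈ ball (0 : Cn n) r', ∀ a, c.π (φ y) (it a) - c.π (φ 0) (it a) = y (tn a))
    (y : Cn n) (hy : y ∈ ball (0 : Cn n) r') (hyσ : ∀ i ∈ σ, y i = 0) (i : Fin n) (hiσ : i ∉ σ)
    (hit : i ∉ Set.range tn) :
    fderiv ℂ (fun y => c.π (φ y)) y (Pi.single i 1) = 0 := by
  have hφy : DifferentiableAt ℂ φ y := hφ.differentiableAt (isOpen_ball.mem_nhds hy)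
  have hπy : DifferentiableAt ℂ c.π (φ y) :=
    c.hol.differentiableAt (isOpen_ball.mem_nhds (hmaps hy))
  have hH : DifferentiableAt ℂ (fun y => c.π (φ y)) y := hπy.comp y hφy
  have hchain : fderiv ℂ (fun y => c.π (φ y)) y = (fderiv ℂ c.π (φ y)).comp (fderiv ℂ φ y) :=
    fderiv_comp y hπy hφy
  funext i'
  obtain ⟨R, hR⟩ : ∃ R : Fin (d + 1) → Fin n, R = Fin.cons i' it := ⟨_, rfl⟩
  obtain ⟨Cc, hCcd⟩ : ∃ Cc : Fin (d + 1) → Fin n, Cc = Fin.cons i tn := ⟨_, rfl⟩
  obtain ⟨A, hA⟩ : ∃ A : Matrix (Fin (d + 1)) (Fin n) ℂ,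
      A = Matrix.of fun a l => fderiv ℂ c.π (φ y) (Pi.single l 1) (R a) := ⟨_, rfl⟩
  obtain ⟨B, hB⟩ : ∃ B : Matrix (Fin n) (Fin (d + 1)) ℂ,
      B = Matrix.of fun l b => fderiv ℂ φ y (Pi.single (Cc b) 1) l := ⟨_, rfl⟩
  have hAB : ∀ a b, (A * B) a b =
      fderiv ℂ (fun y => c.π (φ y)) y (Pi.single (Cc b) 1) (R a) := by
    intro a b
    rw [hchain, ContinuousLinearMap.comp_apply,
      loc_tr_clm_eq_sum (fderiv ℂ c.π (φ y)) (fderiv ℂ φ y (Pi.single (Cc b) 1)), Matrix.mul_apply,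
      Finset.sum_apply]
    refine Finset.sum_congr rfl fun l _ => ?_
    rw [hA, hB]
    simp [mul_comm]
  have hCc : ∀ b, Cc b ∉ σ := by
    intro b
    rw [hCcd]
    exact Fin.cases hiσ htσ b
  have hdet : (A * B).det = 0 := by
    refine loc_tr_det_mul_eq_zero A B σ ?_ ?_
    · intro l hl b
      rw [hB]
      show fderiv ℂ φ y (Pi.single (Cc b) 1) l = 0
      rw [loc_tr_fderiv_comp_of_eq hy hφy l l 0 (fun y' hy' => by rw [hφσ y' hy' l hl, add_zero]),
        Pi.single_apply, if_neg]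
      rintro rfl
      exact hCc b hl
    · intro r hr
      have h1 := hrank (φ y) (hmaps hy) (fun i hi => by rw [hφσ y hy i hi, hyσ i hi]) R r hr
      rw [← h1]
      congr 1
      ext a b
      rw [hA]
      simp [loc_tr_pd_comp hπy]
  rw [loc_tr_det_block (A * B) ?_ ?_, hAB, hR, hCcd] at hdet
  · exact hdet
  · intro a
    rw [hAB, hR, hCcd]
    show fderiv ℂ (fun y => c.π (φ y)) y (Pi.single i 1) (it a) = 0
    rw [loc_tr_fderiv_comp_of_eq hy hH (it a) (tn a) (c.π (φ 0) (it a))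
      (fun y' hy' => by rw [← hφt y' hy' a]; ring), Pi.single_apply, if_neg]
    intro h
    exact hit ⟨a, h⟩
  · intro a b
    rw [hAB, hR, hCcd]
    show fderiv ℂ (fun y => c.π (φ y)) y (Pi.single (tn b) 1) (it a) = _
    rw [loc_tr_fderiv_comp_of_eq hy hH (it a) (tn a) (c.π (φ 0) (it a))
      (fun y' hy' => by rw [← hφt y' hy' a]; ring), Pi.single_apply]
    by_cases hab : a = b
    · rw [if_pos hab, if_pos (by rw [hab])]
    · rw [if_neg hab, if_neg (fun h => hab (htn h))]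

/-- a function whose partial derivatives in the directions outside `σ ∪ τ` vanish along the stratum `y_σ = 0` does not depend on these variables there -/
theorem loc_tr_const_of_fderiv_zero {g : Cn n → ℂ} {r : ℝ} (hg : DifferentiableOn ℂ g (ball 0 r))
    (σ τ : Finset (Fin n))
    (hz : ∀ y ∈ ball (0 : Cn n) r, (∀ i ∈ σ, y i = 0) → ∀ i, i ∉ σ → i ∉ τ →
      fderiv ℂ g y (Pi.single i 1) = 0)
    (y : Cn n) (hy : y ∈ ball (0 : Cn n) r) :
    g (fun j => if j ∈ σ then 0 else y j) = g (fun j => if j ∈ σ ∨ j ∉ τ then 0 else y j) := by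
  have hr : 0 < r := pos_of_mem_ball hy
  have hyj : ∀ j, ‖y j‖ < r := by
    rw [mem_ball_zero_iff] at hy
    exact (pi_norm_lt_iff hr).1 hy
  obtain ⟨T, hT⟩ : ∃ T : Cn n → Cn n,
      T = fun w j => if j ∈ σ then 0 else if j ∈ τ then y j else w j := ⟨_, rfl⟩
  have hTball : ∀ w ∈ ball (0 : Cn n) r, T w ∈ ball (0 : Cn n) r := by
    intro w hw
    rw [mem_ball_zero_iff] at hw ⊢
    rw [pi_norm_lt_iff hr] at hw ⊢
    intro j
    rw [hT]
    dsimp only
    split_ifs
    · simpa using hr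
    · exact hyj j
    · exact hw j
  have hTσ : ∀ w, ∀ i ∈ σ, T w i = 0 := by
    intro w i hi
    rw [hT]
    exact if_pos hi
  have hTd : ∀ w, HasFDerivAt T (ContinuousLinearMap.pi fun j =>
      if j ∈ σ then (0 : Cn n →L[ℂ] ℂ) else if j ∈ τ then 0 else ContinuousLinearMap.proj j) w := by
    intro w
    rw [hT, hasFDerivAt_pi]
    intro j
    split_ifs
    · exact hasFDerivAt_const _ _
    · exact hasFDerivAt_const _ _
    · exact hasFDerivAt_apply j w
  have hcomp : ∀ w ∈ ball (0 : Cn n) r, HasFDerivAt (fun w => g (T w)) (0 : Cn n →L[ℂ] ℂ) w := by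
    intro w hw
    have h1 : HasFDerivAt g (fderiv ℂ g (T w)) (T w) :=
      (hg.differentiableAt (isOpen_ball.mem_nhds (hTball w hw))).hasFDerivAt
    have h2 := h1.comp w (hTd w)
    have h3 : (fderiv ℂ g (T w)).comp (ContinuousLinearMap.pi fun j =>
        if j ∈ σ then (0 : Cn n →L[ℂ] ℂ) else if j ∈ τ then 0 else ContinuousLinearMap.proj j) = 0 := by
      apply ContinuousLinearMap.ext
      intro u
      rw [ContinuousLinearMap.comp_apply, loc_tr_clm_eq_sum (fderiv ℂ g (T w))]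
      refine Finset.sum_eq_zero fun l _ => ?_
      by_cases hl : l ∈ σ
      · simp [hl]
      · by_cases hl' : l ∈ τ
        · simp [hl, hl']
        · rw [hz (T w) (hTball w hw) (hTσ w) l hl hl', smul_zero]
    rw [h3] at h2
    exact h2
  have hconst := isOpen_ball.is_const_of_fderiv_eq_zero (𝕜 := ℂ) (convex_ball (0 : Cn n) r).isPreconnected
    (fun w hw => (hcomp w hw).differentiableAt.differentiableWithinAt)
    (fun w hw => (hcomp w hw).fderiv) hy (mem_ball_self hr)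
  have e1 : T y = fun j => if j ∈ σ then 0 else y j := by
    rw [hT]
    funext j
    dsimp only
    split_ifs <;> rfl
  have e2 : T 0 = fun j => if j ∈ σ ∨ j ∉ τ then 0 else y j := by
    rw [hT]
    funext j
    by_cases h1 : j ∈ σ
    · simp [h1]
    · by_cases h2 : j ∈ τ
      · simp [h1, h2]
      · simp [h1, h2]
  rw [← e1, ← e2]
  exact hconst

theorem loc_tr_tayMono_restrict (p : Fin n → Prop) [DecidablePred p] (γ : Fin n →₀ ℕ) (y : Cn n) :
    tayMono γ (fun j => if p j then 0 else y j) =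
      if (∀ i, p i → γ i = 0) then tayMono γ y else 0 := by
  unfold tayMono
  split_ifs with h
  · refine Finset.prod_congr rfl fun i _ => ?_
    by_cases hi : p i
    · rw [h i hi, pow_zero, pow_zero]
    · show (if p i then 0 else y i) ^ γ i = _
      rw [if_neg hi]
  · push Not at h
    obtain ⟨i, hi, hγ⟩ := h
    refine Finset.prod_eq_zero (Finset.mem_univ i) ?_
    show (if p i then 0 else y i) ^ γ i = _
    rw [if_pos hi, zero_pow hγ]

/-- Taylor series of the restriction to a coordinate subspace -/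
theorem loc_tr_isTay_restrict {g : Cn n → ℂ} {G : MvPowerSeries (Fin n) ℂ} (h : IsTay g 0 G)
    (p : Fin n → Prop) [DecidablePred p] :
    IsTay (fun y => g (fun j => if p j then 0 else y j)) 0
      (fun γ => if (∀ i, p i → γ i = 0) then MvPowerSeries.coeff γ G else 0) := by
  obtain ⟨ρ, hρ, hs⟩ := h
  refine ⟨ρ, hρ, fun y hy => ?_⟩
  have hy' : (fun j => if p j then 0 else y j) ∈ ball (0 : Cn n) ρ := by
    rw [mem_ball_zero_iff] at hy ⊢
    rw [pi_norm_lt_iff hρ] at hy ⊢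
    intro j
    split_ifs
    · simpa using hρ
    · exact hy j
  have h1 := hs _ hy'
  convert h1 using 1
  funext γ
  rw [sub_zero, sub_zero, loc_tr_tayMono_restrict]
  show (if (∀ i, p i → γ i = 0) then MvPowerSeries.coeff γ G else 0) * tayMono γ y = _
  split_ifs <;> simp

theorem loc_tr_isTay_congr {g g' : Cn n → ℂ} {G : MvPowerSeries (Fin n) ℂ} {r : ℝ} (hr : 0 < r)
    (h : IsTay g 0 G) (he : ∀ y ∈ ball (0 : Cn n) r, g' y = g y) : IsTay g' 0 G := by
  obtain ⟨ρ, hρ, hs⟩ := h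
  refine ⟨min ρ r, lt_min hρ hr, fun y hy => ?_⟩
  rw [he y (ball_subset_ball (min_le_right _ _) hy)]
  exact hs y (ball_subset_ball (min_le_left _ _) hy)

theorem loc_tr_isTay_of_coeff_ne {g : Cn n → ℂ} {γ : Fin n →₀ ℕ}
    (h : MvPowerSeries.coeff γ (tay 0 g) ≠ 0) : IsTay g 0 (tay 0 g) := by
  by_cases hex : ∃ F, IsTay g 0 F
  · have : tay 0 g = hex.choose := by
      unfold tay
      exact dif_pos hex
    rw [this]
    exact hex.choose_spec
  · exfalso
    apply h
    have : tay 0 g = 0 := by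
      unfold tay
      exact dif_neg hex
    rw [this]
    simp


/-- restrictions to the stratum depend on the tangential variables only -/
theorem loc_tr_main (hD : IsOpen D) (c : MChart n D z) (σ : Finset (Fin n)) {d : ℕ} (tn it : Fin d → Fin n)
    (htn : Function.Injective tn) (htσ : ∀ a, tn a ∉ σ)
    (hrank : ∀ y ∈ ball (0 : Cn n) c.r, (∀ i ∈ σ, y i = 0) → ∀ rows cols : Fin (d + 1) → Fin n, (∀ b, cols b ∉ σ) →
      (Matrix.of fun a b => pd (cols b) (fun y' => c.π y' (rows a)) y).det = 0)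
    (φ : Cn n → Cn n) (r' : ℝ) (hr' : 0 < r') (hφ : DifferentiableOn ℂ φ (ball 0 r'))
    (hmaps : Set.MapsTo φ (ball 0 r') (ball 0 c.r))
    (hφσ : ∀ y ∈ ball (0 : Cn n) r', ∀ i ∈ σ, φ y i = y i)
    (hφt : ∀ y ∈ ball (0 : Cn n) r', ∀ a, c.π (φ y) (it a) - c.π (φ 0) (it a) = y (tn a))
    (f : Cn n → ℂ) (hf : DifferentiableOn ℂ f D) (γ : Fin n →₀ ℕ)
    (hγ : MvPowerSeries.coeff γ (tay 0 (fun y => f (c.π (φ y)))) ≠ 0) (hγσ : ∀ i ∈ σ, γ i = 0) :
    γ ∈ pureExp tn := by
  classical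
  have hT := loc_tr_isTay_of_coeff_ne hγ
  have hHd : ∀ y ∈ ball (0 : Cn n) r', DifferentiableAt ℂ (fun y => c.π (φ y)) y := fun y hy =>
    (c.hol.differentiableAt (isOpen_ball.mem_nhds (hmaps hy))).comp y
      (hφ.differentiableAt (isOpen_ball.mem_nhds hy))
  have hfd : ∀ y ∈ ball (0 : Cn n) r', DifferentiableAt ℂ f (c.π (φ y)) := fun y hy =>
    hf.differentiableAt (hD.mem_nhds (c.maps (hmaps hy)))
  have hgd : DifferentiableOn ℂ (fun y => f (c.π (φ y))) (ball 0 r') := fun y hy =>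
    ((hfd y hy).comp y (hHd y hy)).differentiableWithinAt
  have hτ : ∀ i, i ∈ Finset.univ.image tn ↔ i ∈ Set.range tn := by
    intro i
    simp
  have hz : ∀ y ∈ ball (0 : Cn n) r', (∀ i ∈ σ, y i = 0) → ∀ i, i ∉ σ → i ∉ Finset.univ.image tn →
      fderiv ℂ (fun y => f (c.π (φ y))) y (Pi.single i 1) = 0 := by
    intro y hy hyσ i hi hiτ
    have h0 := loc_tr_tan_fderiv_zero c σ tn it htn htσ hrank φ r' hφ hmaps hφσ hφt y hy hyσ i hi
      (fun h => hiτ ((hτ i).2 h))
    have h1 : fderiv ℂ (fun y => f (c.π (φ y))) y =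
        (fderiv ℂ f (c.π (φ y))).comp (fderiv ℂ (fun y => c.π (φ y)) y) :=
      fderiv_comp y (hfd y hy) (hHd y hy)
    rw [h1, ContinuousLinearMap.comp_apply, h0, map_zero]
  have hc := loc_tr_const_of_fderiv_zero hgd σ (Finset.univ.image tn) hz
  have h1 := loc_tr_isTay_restrict hT (fun j => j ∈ σ)
  have h2 := loc_tr_isTay_restrict hT (fun j => j ∈ σ ∨ j ∉ Finset.univ.image tn)
  have h3 := loc_tr_isTay_congr hr' h2 hc
  have h5 := congrFun (h1.unique h3) γ
  rw [if_pos hγσ] at h5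
  intro i hi
  by_contra hne
  rw [if_neg (fun h => hne (h i (Or.inr (fun h' => hi ((hτ i).1 h')))))] at h5
  exact hγ h5

end Claimed.Agent.R242
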